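import Vale.Agent.Lib.P154.Neg.CkCode

/-!
Local models of the functionals on boxes, weights, and the branch-and-bound run (code only).
Box: `y2 = m2 + h2 t2`, `y3 = m3 + h3 t3`, `y1 = 3 - y2 - y3`, `|t2|, |t3| ≤ 1`.
-/

namespace Vale.Agent.Lib.P154.Neg.Ck

open Bl

/-- second order model in `t2, t3` with ball coefficients and remainder `r` -/
structure Jt where
  v : Bl
  a : Bl
  b : Bl
  c : Bl
  d : Bl
  f : Bl
  r : Nat

/-- second order model with signed coefficients and total error `e`: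
`v + a t2 + b t3 + c t2^2 + d t2 t3 + f t3^2` -/
structure Jv where
  vp : Nat
  vn : Nat
  ap : Nat
  an : Nat
  bp : Nat
  bn : Nat
  cp : Nat
  cn : Nat
  dp : Nat
  dn : Nat
  fp : Nat
  fn : Nat
  e : Nat

def Jt.toJv (j : Jt) : Jv :=
  ⟨Nat.sub j.v.p j.v.n, Nat.sub j.v.n j.v.p, Nat.sub j.a.p j.a.n, Nat.sub j.a.n j.a.p,
   Nat.sub j.b.p j.b.n, Nat.sub j.b.n j.b.p, Nat.sub j.c.p j.c.n, Nat.sub j.c.n j.c.p,
   Nat.sub j.d.p j.d.n, Nat.sub j.d.n j.d.p, Nat.sub j.f.p j.f.n, Nat.sub j.f.n j.f.p,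
   Nat.add (Nat.add (Nat.add j.v.e j.a.e) (Nat.add j.b.e j.c.e))
     (Nat.add (Nat.add j.d.e j.f.e) j.r)⟩

/-- upper bound for the absolute value -/
def Bl.ab (x : Bl) : Nat := Nat.add (Nat.add x.p x.n) x.e

/-- rounded up product of nonnegative fixed point numbers -/
def mu (x y : Nat) : Nat := Nat.add (Nat.shiftRight (Nat.mul x y) 64) 1

def Jt.sq (j : Jt) : Jt :=
  let L := Nat.add j.a.ab j.b.ab
  let S := Nat.add (Nat.add j.c.ab j.d.ab) j.f.ab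
  let V := Nat.add (Nat.add j.v.ab L) S
  ⟨norm (mul j.v j.v), norm (smul 2 (mul j.v j.a)), norm (smul 2 (mul j.v j.b)),
   norm (Bl.add (mul j.a j.a) (smul 2 (mul j.v j.c))),
   norm (smul 2 (Bl.add (mul j.a j.b) (mul j.v j.d))),
   norm (Bl.add (mul j.b j.b) (smul 2 (mul j.v j.f))),
   Nat.add (Nat.add (Nat.mul 2 (mu L S)) (mu S S)) (Nat.add (Nat.mul 2 (mu V j.r)) (mu j.r j.r))⟩

/-- functional P-16-ths, T-16-ths; `al/1024 ≥ sqrt(P^2+T^2)/16`; `iP`, `iT` positions in the lists -/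
structure FS where
  P : Nat
  T : Nat
  al : Nat
  iP : Nat
  iT : Nat

structure Tri (α : Type) where
  x : α
  y : α
  z : α

def nth {α : Type} (d : α) : List α → Nat → α
  | [], _ => d
  | a :: l, n => bif Nat.beq n 0 then a else nth d l (Nat.sub n 1)

/-- affine data of a box: `r1 = A1 t2 + B1 t3`, `r2 = A2 t2`, `r3 = B3 t3` (relative coordinates),
their products, and upper bounds of `|r_i|`, `|r_i|^2`, `|r_i|^3` -/
structure Aff where
  A1 : Bl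
  A2 : Bl
  B1 : Bl
  B3 : Bl
  A11 : Bl
  A12 : Bl
  A22 : Bl
  AB : Bl
  A2B1 : Bl
  A1B3 : Bl
  A2B3 : Bl
  B11 : Bl
  B13 : Bl
  B33 : Bl
  ra : Tri Nat
  rb : Tri Nat
  rc : Tri Nat

def mkAff (A1 A2 B1 B3 : Bl) (r1 r2 r3 : Nat) : Aff :=
  ⟨A1, A2, B1, B3, mul A1 A1, mul A1 A2, mul A2 A2, mul A1 B1, mul A2 B1, mul A1 B3, mul A2 B3,
   mul B1 B1, mul B1 B3, mul B3 B3, ⟨r1, r2, r3⟩, ⟨mu r1 r1, mu r2 r2, mu r3 r3⟩,
   ⟨mu r1 (mu r1 r1), mu r2 (mu r2 r2), mu r3 (mu r3 r3)⟩⟩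

/-- the factor (1+r) over (1-r)^3, rounded up; `r < 2^64` -/
def fac (r : Nat) : Nat :=
  let u := Nat.sub 18446744073709551616 r
  Nat.add (Nat.div (Nat.shiftLeft (Nat.add 18446744073709551616 r) 64)
    (Nat.shiftRight (Nat.mul (Nat.shiftRight (Nat.mul u u) 64) u) 64)) 1

/-- remainder weight `t1^3 + 3 t1 t2 + 2 t3` for relative radii `x` (pair), `y` (pair), `z` -/
def remw (al Q x1 x2 x3 y1 y2 y3 z1 z2 z3 : Nat) : Nat :=
  let t1 := Nat.add (Nat.shiftRight (Nat.add (Nat.mul al (Nat.add x1 y1))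
    (Nat.mul (Nat.mul 64 Q) z1)) 10) 1
  let t2 := Nat.add (Nat.shiftRight (Nat.add (Nat.mul al (Nat.add x2 y2))
    (Nat.mul (Nat.mul 64 Q) z2)) 10) 1
  let t3 := Nat.add (Nat.shiftRight (Nat.add (Nat.mul al (Nat.add x3 y3))
    (Nat.mul (Nat.mul 64 Q) z3)) 10) 1
  Nat.add (Nat.add (mu t1 (mu t1 t1)) (Nat.mul 3 (mu t1 t2))) (Nat.mul 2 t3)

/-- model of `F_{P/16,T/16}` from characters `C k + i S k` (index = third colour), moduli bounds
`E k`, factors `fc k` -/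
def jetF (s : FS) (C S : Tri Bl) (E fc : Tri Nat) (A : Aff) : Jt :=
  let P := s.P
  let T := s.T
  let Q := Nat.sub 16 (Nat.mul 2 P)
  let X1 := norm (Bl.sub (smul P C.x) (smul T S.x))
  let X2 := norm (Bl.sub (smul P C.y) (smul T S.y))
  let X3 := norm (Bl.sub (smul P C.z) (smul T S.z))
  let Y1 := norm (Bl.add (smul P C.x) (smul T S.x))
  let Y2 := norm (Bl.add (smul P C.y) (smul T S.y))
  let Y3 := norm (Bl.add (smul P C.z) (smul T S.z))
  let G1 := norm (Bl.add (Bl.add X3 Y2) (smul Q C.x))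
  let G2 := norm (Bl.add (Bl.add X1 Y3) (smul Q C.y))
  let G3 := norm (Bl.add (Bl.add X2 Y1) (smul Q C.z))
  let c1 := Nat.sub (Nat.add (Nat.mul 16 P) (Nat.mul T T)) (Nat.mul P P)
  let c2 := Nat.mul T Q
  let c3 := Nat.mul 2 (Nat.mul P Q)
  let c4 := Nat.add (Nat.mul P P) (Nat.mul T T)
  let H11 := norm (Bl.sub (smul c2 (Bl.sub S.z S.y))
    (Bl.add (smul c1 (Bl.add C.z C.y)) (smul c3 C.x)))
  let H22 := norm (Bl.sub (smul c2 (Bl.sub S.x S.z))
    (Bl.add (smul c1 (Bl.add C.x C.z)) (smul c3 C.y)))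
  let H33 := norm (Bl.sub (smul c2 (Bl.sub S.y S.x))
    (Bl.add (smul c1 (Bl.add C.y C.x)) (smul c3 C.z)))
  let H12 := norm (Bl.add (smul c4 C.z) (smul Q (Bl.add X1 Y2)))
  let H23 := norm (Bl.add (smul c4 C.x) (smul Q (Bl.add X2 Y3)))
  let H13 := norm (Bl.add (smul c4 C.y) (smul Q (Bl.add X3 Y1)))
  let w1 := remw s.al Q A.ra.y A.rb.y A.rc.y A.ra.z A.rb.z A.rc.z A.ra.x A.rb.x A.rc.x
  let w2 := remw s.al Q A.ra.z A.rb.z A.rc.z A.ra.x A.rb.x A.rc.x A.ra.y A.rb.y A.rc.y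
  let w3 := remw s.al Q A.ra.x A.rb.x A.rc.x A.ra.y A.rb.y A.rc.y A.ra.z A.rb.z A.rc.z
  ⟨norm (sdiv 3 (Bl.add (Bl.add C.x C.y) C.z)),
   norm (sdiv 48 (Bl.add (mul G1 A.A1) (mul G2 A.A2))),
   norm (sdiv 48 (Bl.add (mul G1 A.B1) (mul G3 A.B3))),
   norm (sdiv 1536 (Bl.add (Bl.add (mul H11 A.A11) (mul H22 A.A22)) (smul 2 (mul H12 A.A12)))),
   norm (sdiv 768 (Bl.add (Bl.add (mul H11 A.AB) (mul H12 A.A2B1))
     (Bl.add (mul H13 A.A1B3) (mul H23 A.A2B3)))),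
   norm (sdiv 1536 (Bl.add (Bl.add (mul H11 A.B11) (mul H33 A.B33)) (smul 2 (mul H13 A.B13)))),
   Nat.add (Nat.div (Nat.add (Nat.add (mu (mu E.x w1) fc.x) (mu (mu E.y w2) fc.y))
     (mu (mu E.z w3) fc.z)) 18) 1⟩

/-- dictionary of functionals -/
structure Dict where
  Ps : List Nat
  Ts : List Nat
  fs : List FS

def mkE (g1 g2 g3 : Bl) (P : Nat) : Tri Bl :=
  let Q := Nat.sub 16 (Nat.mul 2 P)
  let a := Bl.pow g1 P
  let b := Bl.pow g2 P
  let c := Bl.pow g3 P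
  bif Nat.beq Q 0 then ⟨mul b c, mul c a, mul a b⟩
  else ⟨mul (mul b c) (Bl.pow g1 Q), mul (mul c a) (Bl.pow g2 Q), mul (mul a b) (Bl.pow g3 Q)⟩

def cjet (s : FS) (E : Tri Bl) (R : Tri Cx) (f0 : Nat) (fc : Tri Nat) (A : Aff) : Jt :=
  bif Nat.beq s.P 8 then
    jetF s ⟨mul E.x R.x.re, mul E.y R.y.re, mul E.z R.z.re⟩
      ⟨mul E.x R.x.im, mul E.y R.y.im, mul E.z R.z.im⟩ ⟨E.x.ab, E.y.ab, E.z.ab⟩ fc A
  else
    jetF s ⟨mul E.x R.x.re, mul E.y R.y.re, mul E.z R.z.re⟩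
      ⟨mul E.x R.x.im, mul E.y R.y.im, mul E.z R.z.im⟩ ⟨E.x.ab, E.y.ab, E.z.ab⟩ ⟨f0, f0, f0⟩ A

def max3 (a b : Nat) : Nat := bif Nat.ble a b then b else a

/-- all functionals on a box bounded away from the boundary -/
def jetsI (D : Dict) (r1 r2 r3 : RR) (A : Aff) : List Jv :=
  let rots := D.Ts.map fun T => (⟨Cx.pow (Cx.mul r2.w r3.w.conj) T,
    Cx.pow (Cx.mul r3.w r1.w.conj) T, Cx.pow (Cx.mul r1.w r2.w.conj) T⟩ : Tri Cx)
  let Es := D.Ps.map fun P => mkE r1.g r2.g r3.g P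
  let fc : Tri Nat := ⟨fac (max3 A.ra.y A.ra.z), fac (max3 A.ra.z A.ra.x),
    fac (max3 A.ra.x A.ra.y)⟩
  let f0 := fac (max3 A.ra.x (max3 A.ra.y A.ra.z))
  D.fs.map fun s => (cjet s (nth ⟨zero, zero, zero⟩ Es s.iP)
    (nth ⟨Cx.one, Cx.one, Cx.one⟩ rots s.iT) f0 fc A).toJv

/-- crude bound when `P < 8` and one coordinate `c ≤ 2^(-48)`; `E` bounds the p-th power of a b at the centre,
`r` the relative radius of `a`, `b`:
the first term is at most E (1+r) 2^(-3Q) / 3, the other two terms are together at most `2 c^p` -/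
def jEdge (s : FS) (E r : Nat) : Jv :=
  ⟨0, 0, 0, 0, 0, 0, 0, 0, 0, 0, 0, 0,
    Nat.add (Nat.add (Nat.shiftRight (Nat.div (mu E (Nat.add 18446744073709551616 r)) 3)
        (Nat.mul 3 (Nat.sub 16 (Nat.mul 2 s.P)))) 2)
      (Nat.shiftRight 36893488147419103232 (Nat.mul 3 s.P))⟩

/-- functionals when coordinate 3 is at most `2^(-48)`: only the pair (1,2) is kept -/
def jets3 (D : Dict) (r1 r2 : RR) (A : Aff) : List Jv :=
  let rot := Cx.mul r1.w r2.w.conj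
  let E := mul (Bl.pow r1.g 8) (Bl.pow r2.g 8)
  let fz := fac (max3 A.ra.x A.ra.y)
  D.fs.map fun s =>
    bif Nat.beq s.P 8 then
      let w := Cx.pow rot s.T
      let j := jetF s ⟨zero, zero, mul E w.re⟩ ⟨zero, zero, mul E w.im⟩ ⟨0, 0, E.ab⟩ ⟨0, 0, fz⟩ A
      (⟨j.v, j.a, j.b, j.c, j.d, j.f, Nat.add j.r 1099511627776⟩ : Jt).toJv
    else jEdge s (mul (Bl.pow r1.g s.P) (Bl.pow r2.g s.P)).ab (max3 A.ra.x A.ra.y)

/-- functionals when coordinate 1 is at most `2^(-48)`: only the pair (2,3) is kept -/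
def jets1 (D : Dict) (r2 r3 : RR) (A : Aff) : List Jv :=
  let rot := Cx.mul r2.w r3.w.conj
  let E := mul (Bl.pow r2.g 8) (Bl.pow r3.g 8)
  let fz := fac (max3 A.ra.y A.ra.z)
  D.fs.map fun s =>
    bif Nat.beq s.P 8 then
      let w := Cx.pow rot s.T
      let j := jetF s ⟨mul E w.re, zero, zero⟩ ⟨mul E w.im, zero, zero⟩ ⟨E.ab, 0, 0⟩ ⟨fz, 0, 0⟩ A
      (⟨j.v, j.a, j.b, j.c, j.d, j.f, Nat.add j.r 1099511627776⟩ : Jt).toJv
    else jEdge s (mul (Bl.pow r2.g s.P) (Bl.pow r3.g s.P)).ab (max3 A.ra.y A.ra.z)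

/-- `3 * 2^64` -/
def three : Nat := 55340232221128654848

/-- `h / m`, fixed point ball -/
def rat (h m : Nat) : Bl := ⟨Nat.div (Nat.shiftLeft h 64) m, 0, 1⟩
/-- `h / m` rounded up -/
def ratU (h m : Nat) : Nat := Nat.add (Nat.div (Nat.shiftLeft h 64) m) 1

/-- `F(y)` on a box -/
def cellY (D : Dict) (m2 h2 m3 h3 : Nat) : Bool × List Jv :=
  let m1 := Nat.sub three (Nat.add m2 m3)
  bif and (Nat.ble (Nat.add m2 h2) 1099511627776) (Nat.ble (Nat.add m3 h3) 1099511627776) then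
    (true, D.fs.map fun _ => ⟨0, 0, 0, 0, 0, 0, 0, 0, 0, 0, 0, 0, 9007199254740992⟩)
  else bif and (Nat.beq m3 h3) (Nat.ble (Nat.add m3 h3) 65536) then
    let r1 := rr m1
    let r2 := rr m2
    let A := mkAff (neg (rat h2 m1)) (rat h2 m2) (neg (rat h3 m1)) zero
      (ratU (Nat.add h2 h3) m1) (ratU h2 m2) 0
    (and (and r1.ok r2.ok) (and (Nat.ble (Nat.add h2 1) m2)
      (and (Nat.ble (Nat.add (Nat.add m2 m3) (Nat.add (Nat.add h2 h3) 1)) three)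
        (and (Nat.ble A.ra.x 17446744073709551616) (Nat.ble A.ra.y 17446744073709551616)))),
      jets3 D r1 r2 A)
  else
    let r1 := rr m1
    let r2 := rr m2
    let r3 := rr m3
    let A := mkAff (neg (rat h2 m1)) (rat h2 m2) (neg (rat h3 m1)) (rat h3 m3)
      (ratU (Nat.add h2 h3) m1) (ratU h2 m2) (ratU h3 m3)
    (and (and r1.ok (and r2.ok r3.ok)) (and (Nat.ble (Nat.add h2 1) m2)
      (and (Nat.ble (Nat.add h3 1) m3)
      (and (Nat.ble (Nat.add (Nat.add m2 m3) (Nat.add (Nat.add h2 h3) 1)) three)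
        (and (Nat.ble A.ra.x 17446744073709551616) (and (Nat.ble A.ra.y 17446744073709551616)
          (Nat.ble A.ra.z 17446744073709551616)))))),
      jetsI D r1 r2 r3 A)

/-- `F((3-y)/2)` on a box -/
def cellZ (D : Dict) (m2 h2 m3 h3 : Nat) : Bool × List Jv :=
  let n1 := Nat.add m2 m3
  let n2 := Nat.sub three m2
  let n3 := Nat.sub three m3
  let par := and (Nat.beq (Nat.mod m2 2) 0) (and (Nat.beq (Nat.mod m3 2) 0)
    (Nat.ble (Nat.add (Nat.add m2 m3) (Nat.add h2 h3)) three))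
  bif and (and (Nat.beq m2 h2) (Nat.beq m3 h3))
      (and (Nat.ble (Nat.add m2 h2) 65536) (Nat.ble (Nat.add m3 h3) 65536)) then
    let r2 := rr (Nat.div n2 2)
    let r3 := rr (Nat.div n3 2)
    let A := mkAff zero (neg (rat h2 n2)) zero (neg (rat h3 n3)) 0 (ratU h2 n2) (ratU h3 n3)
    (and par (and (and r2.ok r3.ok)
        (and (Nat.ble A.ra.y 17446744073709551616) (Nat.ble A.ra.z 17446744073709551616))),
      jets1 D r2 r3 A)
  else
    let r1 := rr (Nat.div n1 2)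
    let r2 := rr (Nat.div n2 2)
    let r3 := rr (Nat.div n3 2)
    let A := mkAff (rat h2 n1) (neg (rat h2 n2)) (rat h3 n1) (neg (rat h3 n3))
      (ratU (Nat.add h2 h3) n1) (ratU h2 n2) (ratU h3 n3)
    (and par (and (and r1.ok (and r2.ok r3.ok))
        (and (Nat.ble A.ra.x 17446744073709551616) (and (Nat.ble A.ra.y 17446744073709551616)
          (Nat.ble A.ra.z 17446744073709551616)))),
      jetsI D r1 r2 r3 A)

/-- the constant function 1 -/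
def jOne : Jv := ⟨18446744073709551616, 0, 0, 0, 0, 0, 0, 0, 0, 0, 0, 0, 0⟩

/-- `Q, R, Q^2, Q^4` on a box -/
def cellP (m2 h2 m3 h3 : Nat) : List Jv :=
  let a := norm ⟨m2, 18446744073709551616, 0⟩
  let b := norm ⟨m3, 18446744073709551616, 0⟩
  let x : Bl := ⟨h2, 0, 0⟩
  let y : Bl := ⟨h3, 0, 0⟩
  let aa := mul a a
  let ab := mul a b
  let bb := mul b b
  let q : Jt := ⟨norm (sdiv 3 (Bl.add (Bl.add aa ab) bb)),
    norm (sdiv 3 (mul (norm (Bl.add (smul 2 a) b)) x)),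
    norm (sdiv 3 (mul (norm (Bl.add a (smul 2 b))) y)),
    sdiv 3 (mul x x), sdiv 3 (mul x y), sdiv 3 (mul y y), 0⟩
  let r : Jt := ⟨neg (mul ab (norm (Bl.add a b))),
    neg (mul (norm (Bl.add (smul 2 ab) bb)) x),
    neg (mul (norm (Bl.add (smul 2 ab) aa)) y),
    neg (mul b (mul x x)), neg (mul (smul 2 (norm (Bl.add a b))) (mul x y)),
    neg (mul a (mul y y)), mu (mu h2 h3) (Nat.add h2 h3)⟩
  let q2 := q.sq
  let q4 := q2.sq
  [q.toJv, r.toJv, q2.toJv, q4.toJv]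

/-- evaluate `n` to a literal before continuing (`force n k = k n`) -/
def force {α : Type} (n : Nat) (k : Nat → α) : α :=
  match n with
  | 0 => k 0
  | m + 1 => k (Nat.succ m)

/-- task: the function `∑ i, (p_i - n_i) f_i` over the thirteen basis functions -/
structure Tk where
  p0 : Nat
  n0 : Nat
  p1 : Nat
  n1 : Nat
  p2 : Nat
  n2 : Nat
  p3 : Nat
  n3 : Nat
  p4 : Nat
  n4 : Nat
  p5 : Nat
  n5 : Nat
  p6 : Nat
  n6 : Nat
  p7 : Nat
  n7 : Nat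
  p8 : Nat
  n8 : Nat
  p9 : Nat
  n9 : Nat
  p10 : Nat
  n10 : Nat
  p11 : Nat
  n11 : Nat
  p12 : Nat
  n12 : Nat

/-- 128-bit lanes -/
def pk2 (a b : Nat) : Nat := Nat.add a (Nat.shiftLeft b 128)

/-- packed model -/
def Jv.pkP (j : Jv) : Nat :=
  pk2 j.vp (pk2 j.vn (pk2 j.ap (pk2 j.an (pk2 j.bp (pk2 j.bn (pk2 j.cp (pk2 j.cn (pk2 j.dp
    (pk2 j.dn (pk2 j.fp (pk2 j.fn j.e)))))))))))

/-- packed negated model -/
def Jv.pkN (j : Jv) : Nat :=
  pk2 j.vn (pk2 j.vp (pk2 j.an (pk2 j.ap (pk2 j.bn (pk2 j.bp (pk2 j.cn (pk2 j.cp (pk2 j.dn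
    (pk2 j.dp (pk2 j.fn (pk2 j.fp j.e)))))))))))

/-- all entries at most `2^80` -/
def Jv.ok (j : Jv) : Bool :=
  Nat.ble (Nat.add (Nat.add (Nat.add (Nat.add j.vp j.vn) (Nat.add j.ap j.an))
    (Nat.add (Nat.add j.bp j.bn) (Nat.add j.cp j.cn)))
    (Nat.add (Nat.add (Nat.add j.dp j.dn) (Nat.add j.fp j.fn)) j.e)) 1208925819614629174706176

/-- sum of the weights at most `2^47` -/
def Tk.ok (t : Tk) : Bool :=
  Nat.ble (Nat.add (Nat.add (Nat.add (Nat.add (Nat.add t.p0 t.n0) (Nat.add t.p1 t.n1))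
    (Nat.add (Nat.add t.p2 t.n2) (Nat.add t.p3 t.n3)))
    (Nat.add (Nat.add (Nat.add t.p4 t.n4) (Nat.add t.p5 t.n5))
      (Nat.add (Nat.add t.p6 t.n6) (Nat.add t.p7 t.n7))))
    (Nat.add (Nat.add (Nat.add (Nat.add t.p8 t.n8) (Nat.add t.p9 t.n9))
      (Nat.add (Nat.add t.p10 t.n10) (Nat.add t.p11 t.n11))) (Nat.add t.p12 t.n12)))
    140737488355328

def dot13 (t : Tk) (a0 b0 a1 b1 a2 b2 a3 b3 a4 b4 a5 b5 a6 b6 a7 b7 a8 b8 a9 b9 a10 b10 a11 b11
    a12 b12 : Nat) : Nat :=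
  Nat.add (Nat.add (Nat.add
    (Nat.add (Nat.add (Nat.mul t.p0 a0) (Nat.mul t.n0 b0))
      (Nat.add (Nat.mul t.p1 a1) (Nat.mul t.n1 b1)))
    (Nat.add (Nat.add (Nat.mul t.p2 a2) (Nat.mul t.n2 b2))
      (Nat.add (Nat.mul t.p3 a3) (Nat.mul t.n3 b3))))
    (Nat.add (Nat.add (Nat.add (Nat.mul t.p4 a4) (Nat.mul t.n4 b4))
      (Nat.add (Nat.mul t.p5 a5) (Nat.mul t.n5 b5)))
    (Nat.add (Nat.add (Nat.mul t.p6 a6) (Nat.mul t.n6 b6))
      (Nat.add (Nat.mul t.p7 a7) (Nat.mul t.n7 b7)))))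
    (Nat.add (Nat.add (Nat.add (Nat.add (Nat.mul t.p8 a8) (Nat.mul t.n8 b8))
      (Nat.add (Nat.mul t.p9 a9) (Nat.mul t.n9 b9)))
    (Nat.add (Nat.add (Nat.mul t.p10 a10) (Nat.mul t.n10 b10))
      (Nat.add (Nat.mul t.p11 a11) (Nat.mul t.n11 b11))))
      (Nat.add (Nat.mul t.p12 a12) (Nat.mul t.n12 b12)))

/-- lane starting at bit `k` -/
def lane (x k : Nat) : Nat := Nat.mod (Nat.shiftRight x k) 340282366920938463463374607431768211456

/-- the packed model is nonnegative on the box -/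
def posS (x : Nat) : Bool :=
  force x fun x =>
  Nat.ble (Nat.add (Nat.add (Nat.add (lane x 128) (lane x 1536))
      (Nat.add (Nat.add (Nat.sub (lane x 256) (lane x 384)) (Nat.sub (lane x 384) (lane x 256)))
        (Nat.add (Nat.sub (lane x 512) (lane x 640)) (Nat.sub (lane x 640) (lane x 512)))))
      (Nat.add (Nat.add (Nat.sub (lane x 896) (lane x 768)) (Nat.sub (lane x 1408) (lane x 1280)))
        (Nat.add (Nat.sub (lane x 1024) (lane x 1152)) (Nat.sub (lane x 1152) (lane x 1024)))))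
    (lane x 0)

def jZero : Jv := ⟨0, 0, 0, 0, 0, 0, 0, 0, 0, 0, 0, 0, 0⟩

/-- all tasks are nonnegative combinations of the models `js` -/
def tasksOk (ts : List Tk) (js : List Jv) : Bool :=
  and (js.all Jv.ok)
  (force (nth jZero js 0).pkP fun a0 => force (nth jZero js 0).pkN fun b0 =>
  force (nth jZero js 1).pkP fun a1 => force (nth jZero js 1).pkN fun b1 =>
  force (nth jZero js 2).pkP fun a2 => force (nth jZero js 2).pkN fun b2 =>
  force (nth jZero js 3).pkP fun a3 => force (nth jZero js 3).pkN fun b3 =>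
  force (nth jZero js 4).pkP fun a4 => force (nth jZero js 4).pkN fun b4 =>
  force (nth jZero js 5).pkP fun a5 => force (nth jZero js 5).pkN fun b5 =>
  force (nth jZero js 6).pkP fun a6 => force (nth jZero js 6).pkN fun b6 =>
  force (nth jZero js 7).pkP fun a7 => force (nth jZero js 7).pkN fun b7 =>
  force (nth jZero js 8).pkP fun a8 => force (nth jZero js 8).pkN fun b8 =>
  force (nth jZero js 9).pkP fun a9 => force (nth jZero js 9).pkN fun b9 =>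
  force (nth jZero js 10).pkP fun a10 => force (nth jZero js 10).pkN fun b10 =>
  force (nth jZero js 11).pkP fun a11 => force (nth jZero js 11).pkN fun b11 =>
  force (nth jZero js 12).pkP fun a12 => force (nth jZero js 12).pkN fun b12 =>
  ts.all fun t => posS (dot13 t a0 b0 a1 b1 a2 b2 a3 b3 a4 b4 a5 b5 a6 b6 a7 b7 a8 b8 a9 b9
    a10 b10 a11 b11 a12 b12))

/-- kind of run: `z = false`: basis `1, F(y), Q, R, Q^2, Q^4`; `z = true`: `1, F(y), F((3-y)/2)` -/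
structure Run where
  D : Dict
  z : Bool
  /-- only `y1 ≤ ymax` matters -/
  ymax : Nat
  /-- only points with some `|y_i - 1| ≥ rlo` matter -/
  rlo : Nat
  /-- only points with all `|y_i - 1| ≤ rhi` matter -/
  rhi : Nat
  ts : List Tk

def leaf (R : Run) (m2 h2 m3 h3 : Nat) : Bool :=
  let a := cellY R.D m2 h2 m3 h3
  bif R.z then
    let b := cellZ R.D m2 h2 m3 h3
    and a.1 (and b.1 (tasksOk R.ts (jOne :: (a.2 ++ b.2))))
  else and a.1 (tasksOk R.ts (jOne :: (a.2 ++ cellP m2 h2 m3 h3)))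

/-- `2^64` -/
def one64 : Nat := 18446744073709551616

/-- no relevant point `y3 ≤ y2 ≤ y1` in the half open box -/
def skip (R : Run) (m2 h2 m3 h3 : Nat) : Bool :=
  or (Nat.ble (Nat.add m2 h2) (Nat.sub m3 h3))
  (or (Nat.ble (Nat.add three 1)
      (Nat.add (Nat.mul 2 (Nat.sub m2 h2)) (Nat.sub m3 h3)))
  (or (Nat.ble (Nat.add R.ymax (Nat.add (Nat.add m2 h2) (Nat.add m3 h3))) three)
  (or (and (Nat.ble (Nat.add (Nat.add m2 h2) (Nat.add m3 h3)) (Nat.add (Nat.mul 2 one64) R.rlo))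
      (and (Nat.ble (Nat.add (Nat.mul 2 one64) 1)
          (Nat.add (Nat.add (Nat.sub m2 h2) (Nat.sub m3 h3)) R.rlo))
      (and (and (Nat.ble (Nat.add m2 h2) (Nat.add one64 R.rlo))
          (Nat.ble (Nat.add m3 h3) (Nat.add one64 R.rlo)))
        (and (Nat.ble (Nat.add one64 1) (Nat.add (Nat.sub m2 h2) R.rlo))
          (Nat.ble (Nat.add one64 1) (Nat.add (Nat.sub m3 h3) R.rlo))))))
  (or (or (Nat.ble (Nat.add (Nat.add one64 R.rhi) 1) (Nat.sub m2 h2))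
        (Nat.ble (Nat.add (Nat.add one64 R.rhi) 1) (Nat.sub m3 h3)))
    (or (or (Nat.ble (Nat.add (Nat.add m2 h2) R.rhi) one64)
        (Nat.ble (Nat.add (Nat.add m3 h3) R.rhi) one64))
      (or (Nat.ble (Nat.add (Nat.add (Nat.add m2 h2) (Nat.add m3 h3)) R.rhi) (Nat.mul 2 one64))
        (Nat.ble (Nat.add (Nat.add (Nat.mul 2 one64) R.rhi) 1)
          (Nat.add (Nat.sub m2 h2) (Nat.sub m3 h3)))))))))

/-- subdivision tree -/
inductive Tr where
  | lf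
  | sk
  | s2 (l r : Tr)
  | s3 (l r : Tr)

def run (R : Run) : Tr → Nat → Nat → Nat → Nat → Bool
  | .lf, m2, h2, m3, h3 => leaf R m2 h2 m3 h3
  | .sk, m2, h2, m3, h3 => skip R m2 h2 m3 h3
  | .s2 l r, m2, h2, m3, h3 =>
    and (Nat.beq (Nat.mod h2 2) 0)
      (and (run R l (Nat.sub m2 (Nat.div h2 2)) (Nat.div h2 2) m3 h3)
        (run R r (Nat.add m2 (Nat.div h2 2)) (Nat.div h2 2) m3 h3))
  | .s3 l r, m2, h2, m3, h3 =>
    and (Nat.beq (Nat.mod h3 2) 0)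
      (and (run R l m2 h2 (Nat.sub m3 (Nat.div h3 2)) (Nat.div h3 2))
        (run R r m2 h2 (Nat.add m3 (Nat.div h3 2)) (Nat.div h3 2)))

end Vale.Agent.Lib.P154.Neg.Ck
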