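import Vale.Agent.Lib.P154.Neg.CkRuns

/-! Kernel evaluation, run A, part 0. -/

namespace Vale.Agent.Lib.P154.Neg.Ck

set_option maxRecDepth 100000

def tA0 : Tr := .s3 (.s2 (.s3 (.s2 (.s3 .lf .sk) (.s3 (.s3 (.s3 (.s3 (.s3 (.s3 (.s3 (.s3 (.s3 (.s3 (.s3 (.s3 (.s3 (.s3 (.s3 (.s3 (.s3 (.s3 (.s3 (.s3 (.s3 (.s3 (.s3 (.s3 (.s3 .lf .lf) .lf) .lf) .lf) .lf) .lf) .lf) .lf) .lf) .lf) .lf) .lf) .lf) .lf) .lf) .lf) .lf) .lf) .lf) .lf) .lf) .lf) .lf) .lf) .lf)) .sk) (.s3 (.s3 (.s3 (.s3 (.s3 (.s3 (.s3 (.s3 (.s3 (.s3 (.s3 (.s3 (.s3 (.s3 (.s3 (.s3 (.s3 (.s3 (.s3 (.s3 (.s3 (.s3 (.s3 (.s3 (.s3 (.s3 .lf .lf) .lf) .lf) .lf) .lf) .lf) .lf) .lf) .lf) .lf) .lf) .lf) .lf) .lf) .lf) .lf) .lf) .lf) .lf) .lf) .lf) .lf) .lf) .lf) .lf) .lf)) .sk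

theorem cA0 : run runA tA0 2199023255552 2199023255552 4398046511104 4398046511104 = true := by decide +kernel

def tA1 : Tr := .s3 (.s3 (.s3 (.s3 (.s3 (.s3 (.s3 (.s3 (.s3 (.s3 (.s3 (.s3 (.s3 (.s3 (.s3 (.s3 (.s3 (.s3 (.s3 (.s3 (.s3 (.s3 (.s3 (.s3 (.s3 (.s3 (.s3 .lf .lf) .lf) .lf) .lf) .lf) .lf) .lf) .lf) .lf) .lf) .lf) .lf) .lf) .lf) .lf) .lf) .lf) .lf) .lf) .lf) .lf) .lf) .lf) .lf) .lf) .lf) .lf

theorem cA1 : run runA tA1 6597069766656 2199023255552 4398046511104 4398046511104 = true := by decide +kernel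

def tA2 : Tr := Tr.sk

theorem cA2 : run runA tA2 4398046511104 4398046511104 13194139533312 4398046511104 = true := by decide +kernel

def tA3 : Tr := .s3 (.s3 (.s3 (.s3 (.s3 (.s3 (.s3 (.s3 (.s3 (.s3 (.s3 (.s3 (.s3 (.s3 (.s3 (.s3 (.s3 (.s3 (.s3 (.s3 (.s3 (.s3 (.s3 (.s3 (.s3 (.s3 (.s3 (.s3 .lf .lf) .lf) .lf) .lf) .lf) .lf) .lf) .lf) .lf) .lf) .lf) .lf) .lf) .lf) .lf) .lf) .lf) .lf) .lf) .lf) .lf) .lf) .lf) .lf) .lf) .lf) .lf) .lf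

theorem cA3 : run runA tA3 13194139533312 4398046511104 8796093022208 8796093022208 = true := by decide +kernel

def tA4 : Tr := Tr.sk

theorem cA4 : run runA tA4 8796093022208 8796093022208 26388279066624 8796093022208 = true := by decide +kernel

def tA5 : Tr := .s3 (.s3 (.s3 (.s3 (.s3 (.s3 (.s3 (.s3 (.s3 (.s3 (.s3 (.s3 (.s3 (.s3 (.s3 (.s3 (.s3 (.s3 (.s3 (.s3 (.s3 (.s3 (.s3 (.s3 (.s3 (.s3 (.s3 (.s3 (.s3 .lf .lf) .lf) .lf) .lf) .lf) .lf) .lf) .lf) .lf) .lf) .lf) .lf) .lf) .lf) .lf) .lf) .lf) .lf) .lf) .lf) .lf) .lf) .lf) .lf) .lf) .lf) .lf) .lf) .lf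

theorem cA5 : run runA tA5 26388279066624 8796093022208 17592186044416 17592186044416 = true := by decide +kernel

def tA6 : Tr := Tr.sk

theorem cA6 : run runA tA6 17592186044416 17592186044416 52776558133248 17592186044416 = true := by decide +kernel

def tA7 : Tr := .s3 (.s3 (.s3 (.s3 (.s3 (.s3 (.s3 (.s3 (.s3 (.s3 (.s3 (.s3 (.s3 (.s3 (.s3 (.s3 (.s3 (.s3 (.s3 (.s3 (.s3 (.s3 (.s3 (.s3 (.s3 (.s3 (.s3 (.s3 (.s3 (.s3 .lf .lf) .lf) .lf) .lf) .lf) .lf) .lf) .lf) .lf) .lf) .lf) .lf) .lf) .lf) .lf) .lf) .lf) .lf) .lf) .lf) .lf) .lf) .lf) .lf) .lf) .lf) .lf) .lf) .lf) .lf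

theorem cA7 : run runA tA7 52776558133248 17592186044416 35184372088832 35184372088832 = true := by decide +kernel

end Vale.Agent.Lib.P154.Neg.Ck
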