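import Vale.Agent.Lib.P154.Neg.CkRuns

/-! Kernel evaluation, run A, part 1. -/

namespace Vale.Agent.Lib.P154.Neg.Ck

set_option maxRecDepth 100000

def tA8 : Tr := Tr.sk

theorem cA8 : run runA tA8 35184372088832 35184372088832 105553116266496 35184372088832 = true := by decide +kernel

def tA9 : Tr := .s3 (.s3 (.s3 (.s3 (.s3 (.s3 (.s3 (.s3 (.s3 (.s3 (.s3 (.s3 (.s3 (.s3 (.s3 (.s3 (.s3 (.s3 (.s3 (.s3 (.s3 (.s3 (.s3 (.s3 (.s3 (.s3 (.s3 (.s3 (.s3 (.s3 (.s3 .lf .lf) .lf) .lf) .lf) .lf) .lf) .lf) .lf) .lf) .lf) .lf) .lf) .lf) .lf) .lf) .lf) .lf) .lf) .lf) .lf) .lf) .lf) .lf) .lf) .lf) .lf) .lf) .lf) .lf) .lf) .lf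

theorem cA9 : run runA tA9 105553116266496 35184372088832 70368744177664 70368744177664 = true := by decide +kernel

def tA10 : Tr := Tr.sk

theorem cA10 : run runA tA10 70368744177664 70368744177664 211106232532992 70368744177664 = true := by decide +kernel

def tA11 : Tr := .s3 (.s3 (.s3 (.s3 (.s3 (.s3 (.s3 (.s3 (.s3 (.s3 (.s3 (.s3 (.s3 (.s3 (.s3 (.s3 (.s3 (.s3 (.s3 (.s3 (.s3 (.s3 (.s3 (.s3 (.s3 (.s3 (.s3 (.s3 (.s3 (.s3 (.s3 (.s3 .lf .lf) .lf) .lf) .lf) .lf) .lf) .lf) .lf) .lf) .lf) .lf) .lf) .lf) .lf) .lf) .lf) .lf) .lf) .lf) .lf) .lf) .lf) .lf) .lf) .lf) .lf) .lf) .lf) .lf) .lf) .lf) .lf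

theorem cA11 : run runA tA11 211106232532992 70368744177664 140737488355328 140737488355328 = true := by decide +kernel

def tA12 : Tr := Tr.sk

theorem cA12 : run runA tA12 140737488355328 140737488355328 422212465065984 140737488355328 = true := by decide +kernel

def tA13 : Tr := .s3 (.s3 (.s3 (.s3 (.s3 (.s3 (.s3 (.s3 (.s3 (.s3 (.s3 (.s3 (.s3 (.s3 (.s3 (.s3 (.s3 (.s3 (.s3 (.s3 (.s3 (.s3 (.s3 (.s3 (.s3 (.s3 (.s3 (.s3 (.s3 (.s3 (.s3 (.s3 (.s3 .lf .lf) .lf) .lf) .lf) .lf) .lf) .lf) .lf) .lf) .lf) .lf) .lf) .lf) .lf) .lf) .lf) .lf) .lf) .lf) .lf) .lf) .lf) .lf) .lf) .lf) .lf) .lf) .lf) .lf) .lf) .lf) .lf) .lf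

theorem cA13 : run runA tA13 422212465065984 140737488355328 281474976710656 281474976710656 = true := by decide +kernel

def tA14 : Tr := Tr.sk

theorem cA14 : run runA tA14 281474976710656 281474976710656 844424930131968 281474976710656 = true := by decide +kernel

def tA15 : Tr := .s3 (.s3 (.s3 (.s3 (.s3 (.s3 (.s3 (.s3 (.s3 (.s3 (.s3 (.s3 (.s3 (.s3 (.s3 (.s3 (.s3 (.s3 (.s3 (.s3 (.s3 (.s3 (.s3 (.s3 (.s3 (.s3 (.s3 (.s3 (.s3 (.s3 (.s3 (.s3 (.s3 (.s3 .lf .lf) .lf) .lf) .lf) .lf) .lf) .lf) .lf) .lf) .lf) .lf) .lf) .lf) .lf) .lf) .lf) .lf) .lf) .lf) .lf) .lf) .lf) .lf) .lf) .lf) .lf) .lf) .lf) .lf) .lf) .lf) .lf) .lf) .lf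

theorem cA15 : run runA tA15 844424930131968 281474976710656 562949953421312 562949953421312 = true := by decide +kernel

def tA16 : Tr := Tr.sk

theorem cA16 : run runA tA16 562949953421312 562949953421312 1688849860263936 562949953421312 = true := by decide +kernel

def tA17 : Tr := .s3 (.s3 (.s3 (.s3 (.s3 (.s3 (.s3 (.s3 (.s3 (.s3 (.s3 (.s3 (.s3 (.s3 (.s3 (.s3 (.s3 (.s3 (.s3 (.s3 (.s3 (.s3 (.s3 (.s3 (.s3 (.s3 (.s3 (.s3 (.s3 (.s3 (.s3 (.s3 (.s3 (.s3 (.s3 .lf .lf) .lf) .lf) .lf) .lf) .lf) .lf) .lf) .lf) .lf) .lf) .lf) .lf) .lf) .lf) .lf) .lf) .lf) .lf) .lf) .lf) .lf) .lf) .lf) .lf) .lf) .lf) .lf) .lf) .lf) .lf) .lf) .lf) .lf) .lf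

theorem cA17 : run runA tA17 1688849860263936 562949953421312 1125899906842624 1125899906842624 = true := by decide +kernel

end Vale.Agent.Lib.P154.Neg.Ck
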