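import Vale.Agent.Lib.P154.Neg.CkRuns

/-! Kernel evaluation, run A, part 10. -/

namespace Vale.Agent.Lib.P154.Neg.Ck

set_option maxRecDepth 100000

def tA121 : Tr := Tr.sk

theorem cA121 : run runA tA121 9223372036854775808 9223372036854775808 27670116110564327424 9223372036854775808 = true := by decide +kernel

def tA122 : Tr := .s3 (.s3 (.s3 (.s3 (.s3 (.s3 (.s3 (.s3 (.s3 (.s3 (.s3 (.s3 (.s3 (.s3 (.s3 (.s3 (.s3 (.s3 (.s3 (.s2 .lf (.s2 .lf .lf)) (.s2 .lf (.s2 .lf .lf))) (.s2 .lf (.s2 .lf .lf))) (.s2 .lf (.s2 .lf .lf))) (.s2 .lf (.s2 .lf .lf))) (.s2 .lf (.s2 .lf .lf))) (.s2 .lf (.s2 .lf .lf))) (.s2 .lf (.s2 .lf .lf))) (.s2 .lf (.s2 .lf .lf))) (.s2 .lf (.s2 .lf .lf))) (.s2 .lf (.s2 .lf .lf))) (.s2 .lf (.s2 .lf .lf))) (.s2 .lf (.s2 .lf .lf))) (.s2 .lf (.s2 .lf .lf))) (.s2 .lf (.s2 .lf .lf))) (.s2 .lf (.s2 .lf .lf))) (.s2 .lf (.s2 .lf .lf))) (.s2 .lf (.s2 .lf .lf))) (.s2 .lf (.s2 .lf .lf))) (.s2 .lf (.s2 .lf .lf))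

theorem cA122 : run runA tA122 23058430092136939520 4611686018427387904 17179869184 17179869184 = true := by decide +kernel

def tA123 : Tr := .s2 .lf (.s2 .lf .lf)

theorem cA123 : run runA tA123 23058430092136939520 4611686018427387904 51539607552 17179869184 = true := by decide +kernel

def tA124 : Tr := .s2 .lf (.s2 .lf .lf)

theorem cA124 : run runA tA124 23058430092136939520 4611686018427387904 103079215104 34359738368 = true := by decide +kernel

def tA125 : Tr := .s2 .lf (.s2 .lf (.s2 .lf .lf))

theorem cA125 : run runA tA125 23058430092136939520 4611686018427387904 206158430208 68719476736 = true := by decide +kernel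

def tA126 : Tr := .s2 .lf (.s2 .lf (.s2 .lf .lf))

theorem cA126 : run runA tA126 23058430092136939520 4611686018427387904 412316860416 137438953472 = true := by decide +kernel

def tA127 : Tr := .s2 .lf (.s2 .lf (.s2 .lf .lf))

theorem cA127 : run runA tA127 23058430092136939520 4611686018427387904 824633720832 274877906944 = true := by decide +kernel

def tA128 : Tr := .s2 .lf (.s2 .lf .lf)

theorem cA128 : run runA tA128 23058430092136939520 4611686018427387904 1649267441664 549755813888 = true := by decide +kernel

def tA129 : Tr := .s2 .lf (.s2 .lf .lf)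

theorem cA129 : run runA tA129 23058430092136939520 4611686018427387904 3298534883328 1099511627776 = true := by decide +kernel

def tA130 : Tr := .s2 .lf (.s2 .lf .lf)

theorem cA130 : run runA tA130 23058430092136939520 4611686018427387904 6597069766656 2199023255552 = true := by decide +kernel

def tA131 : Tr := .s2 .lf .lf

theorem cA131 : run runA tA131 23058430092136939520 4611686018427387904 13194139533312 4398046511104 = true := by decide +kernel

def tA132 : Tr := .s2 .lf .lf

theorem cA132 : run runA tA132 23058430092136939520 4611686018427387904 26388279066624 8796093022208 = true := by decide +kernel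

def tA133 : Tr := .s2 .lf .lf

theorem cA133 : run runA tA133 23058430092136939520 4611686018427387904 52776558133248 17592186044416 = true := by decide +kernel

def tA134 : Tr := .s2 .lf .lf

theorem cA134 : run runA tA134 23058430092136939520 4611686018427387904 105553116266496 35184372088832 = true := by decide +kernel

def tA135 : Tr := .s2 .lf .lf

theorem cA135 : run runA tA135 23058430092136939520 4611686018427387904 211106232532992 70368744177664 = true := by decide +kernel

def tA136 : Tr := .s2 .lf .lf

theorem cA136 : run runA tA136 23058430092136939520 4611686018427387904 422212465065984 140737488355328 = true := by decide +kernel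

def tA137 : Tr := .s2 .lf .lf

theorem cA137 : run runA tA137 23058430092136939520 4611686018427387904 844424930131968 281474976710656 = true := by decide +kernel

def tA138 : Tr := .s2 .lf .lf

theorem cA138 : run runA tA138 23058430092136939520 4611686018427387904 1688849860263936 562949953421312 = true := by decide +kernel

def tA139 : Tr := .s2 .lf .lf

theorem cA139 : run runA tA139 23058430092136939520 4611686018427387904 3377699720527872 1125899906842624 = true := by decide +kernel

def tA140 : Tr := .s2 .lf .lf

theorem cA140 : run runA tA140 23058430092136939520 4611686018427387904 6755399441055744 2251799813685248 = true := by decide +kernel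

def tA141 : Tr := .s2 .lf .lf

theorem cA141 : run runA tA141 23058430092136939520 4611686018427387904 13510798882111488 4503599627370496 = true := by decide +kernel

def tA142 : Tr := .s2 (.s2 .lf (.s2 .lf .lf)) (.s2 (.s2 (.s3 .lf .lf) (.s3 .lf .lf)) (.s3 .lf .lf))

theorem cA142 : run runA tA142 23058430092136939520 4611686018427387904 27021597764222976 9007199254740992 = true := by decide +kernel

def tA143 : Tr := .s2 (.s2 (.s3 .lf .lf) (.s3 .lf .lf)) (.s2 (.s3 .lf .lf) (.s3 .lf .lf))

theorem cA143 : run runA tA143 23058430092136939520 4611686018427387904 54043195528445952 18014398509481984 = true := by decide +kernel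

def tA144 : Tr := .s2 (.s2 (.s3 .lf .lf) (.s3 .lf .lf)) (.s2 (.s3 (.s2 .lf .lf) .lf) (.s3 (.s2 (.s3 .lf .lf) (.s3 .lf .lf)) (.s2 .lf .lf)))

theorem cA144 : run runA tA144 23058430092136939520 4611686018427387904 108086391056891904 36028797018963968 = true := by decide +kernel

def tA145 : Tr := .s2 (.s2 (.s3 .lf .lf) (.s3 (.s2 .lf .lf) .lf)) (.s2 (.s3 (.s3 .lf .lf) (.s2 .lf (.s3 .lf .lf))) (.s3 (.s3 (.s2 .lf .lf) (.s2 .lf .lf)) (.s2 (.s3 .lf .lf) (.s3 .lf .lf))))

theorem cA145 : run runA tA145 23058430092136939520 4611686018427387904 216172782113783808 72057594037927936 = true := by decide +kernel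

end Vale.Agent.Lib.P154.Neg.Ck
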