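import Vale.Agent.Lib.P154.Neg.CkRuns

/-! Kernel evaluation, run A, part 11. -/

namespace Vale.Agent.Lib.P154.Neg.Ck

set_option maxRecDepth 100000

def tA146 : Tr := .s2 (.s2 (.s3 (.s3 .lf .lf) .lf) (.s3 (.s3 .lf .lf) .lf)) (.s3 (.s2 (.s3 (.s2 .lf .lf) .lf) (.s3 (.s2 (.s3 .lf .lf) (.s3 .lf .lf)) (.s2 .lf (.s3 .lf .lf)))) (.s2 (.s2 .lf (.s3 .lf .lf)) (.s3 (.s2 .lf .lf) (.s2 .lf .lf))))

theorem cA146 : run runA tA146 23058430092136939520 4611686018427387904 432345564227567616 144115188075855872 = true := by decide +kernel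

def tA147 : Tr := .s2 (.s3 (.s2 (.s3 .lf .lf) (.s3 .lf .lf)) (.s2 (.s3 .lf .lf) (.s3 .lf .lf))) (.s3 (.s2 (.s3 (.s2 .lf (.s3 .lf .lf)) (.s2 .lf .lf)) (.s3 (.s2 (.s3 .lf .lf) (.s3 .lf .lf)) (.s2 (.s3 .lf .lf) (.s3 .lf .lf)))) (.s2 (.s3 (.s2 .lf .lf) .lf) (.s3 (.s2 .lf .lf) (.s2 .lf .lf))))

theorem cA147 : run runA tA147 23058430092136939520 4611686018427387904 864691128455135232 288230376151711744 = true := by decide +kernel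

def tA148 : Tr := .s2 (.s3 (.s2 (.s3 .lf .lf) (.s3 (.s2 .lf .lf) .lf)) (.s2 (.s3 .lf .lf) (.s3 .lf .lf))) (.s3 (.s2 (.s3 (.s2 (.s3 .lf .lf) (.s3 .lf .lf)) (.s2 .lf (.s3 .lf .lf))) (.s3 (.s3 (.s2 .lf .lf) .lf) (.s2 (.s3 .lf .lf) (.s3 .lf .lf)))) (.s2 (.s3 (.s2 .lf .lf) (.s2 .lf .lf)) (.s3 (.s2 .lf .lf) (.s2 .lf .lf))))

theorem cA148 : run runA tA148 23058430092136939520 4611686018427387904 1729382256910270464 576460752303423488 = true := by decide +kernel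

def tA149 : Tr := .s2 (.s3 (.s3 (.s2 (.s3 .lf .lf) (.s3 .lf .lf)) (.s2 .lf (.s2 .lf .lf))) (.s2 (.s3 .lf .lf) (.s3 (.s2 .lf .lf) (.s2 .lf .lf)))) (.s3 (.s3 (.s2 (.s3 (.s2 .lf .lf) (.s2 .lf .lf)) (.s3 (.s2 .lf .lf) (.s2 .lf .sk))) (.s2 (.s3 (.s2 .lf .lf) (.s2 .lf .lf)) (.s3 (.s2 .lf .sk) (.s2 .lf .sk)))) (.s2 (.s3 (.s2 (.s3 .lf .lf) (.s3 .lf .lf)) (.s2 .lf .lf)) (.s3 (.s2 (.s3 .lf .lf) .sk) (.s2 .lf .sk))))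

theorem cA149 : run runA tA149 23058430092136939520 4611686018427387904 3458764513820540928 1152921504606846976 = true := by decide +kernel

def tA150 : Tr := .s3 (.s2 (.s3 (.s2 (.s3 (.s2 .lf .lf) (.s2 .lf .lf)) (.s3 (.s2 .lf .lf) (.s2 .lf .lf))) (.s2 (.s3 (.s2 .lf .lf) (.s2 .lf .lf)) (.s3 (.s2 .lf .lf) (.s2 .lf .lf)))) (.s3 (.s2 (.s3 (.s2 .lf .lf) (.s2 .lf .lf)) (.s3 (.s2 .lf .sk) .sk)) (.s2 (.s3 (.s2 .lf .lf) (.s2 .lf .lf)) .sk))) (.s2 (.s2 (.s3 (.s2 (.s3 .lf .lf) (.s3 .lf .lf)) (.s2 (.s3 .lf .lf) (.s3 .lf .lf))) (.s3 (.s3 (.s2 .lf .lf) (.s2 .lf .lf)) (.s2 (.s3 .lf (.s2 .lf .lf)) (.s3 (.s3 .lf .lf) (.s2 .lf .lf))))) (.s3 (.s2 (.s3 (.s2 .lf .lf) (.s2 .lf .sk)) .sk) (.s2 (.s3 (.s2 (.s3 .lf .lf) .sk) (.s2 (.s2 .lf .sk) .sk)) .sk)))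

theorem cA150 : run runA tA150 23058430092136939520 4611686018427387904 6917529027641081856 2305843009213693952 = true := by decide +kernel

end Vale.Agent.Lib.P154.Neg.Ck
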