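import Vale.Agent.Lib.P154.Neg.CkRuns

/-! Kernel evaluation, run A, part 12. -/

namespace Vale.Agent.Lib.P154.Neg.Ck

set_option maxRecDepth 100000

def tA151 : Tr := .s2 (.s3 (.s2 (.s3 .lf (.s2 .lf .lf)) (.s3 (.s2 .lf .lf) (.s2 .lf .lf))) (.s2 (.s3 (.s2 .lf .lf) (.s2 .lf .lf)) (.s3 (.s2 .lf .lf) (.s2 .lf (.s3 .lf .lf))))) (.s3 (.s2 (.s3 (.s2 .lf .lf) (.s2 .lf .lf)) (.s3 (.s2 .lf .lf) (.s2 .lf .lf))) (.s2 (.s3 (.s2 .lf .lf) (.s2 (.s3 .lf .lf) (.s3 .lf .lf))) (.s3 (.s2 .lf .lf) (.s2 (.s3 .lf .lf) .sk))))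

theorem cA151 : run runA tA151 20752587082923245568 2305843009213693952 10376293541461622784 1152921504606846976 = true := by decide +kernel

def tA152 : Tr := .s2 (.s3 (.s2 (.s3 (.s2 .lf (.s3 .lf .lf)) (.s2 (.s3 .lf .lf) (.s3 .lf .lf))) (.s3 (.s2 (.s3 .lf .lf) (.s3 .lf .lf)) (.s2 (.s3 .lf .lf) (.s3 .lf .lf)))) (.s2 (.s3 (.s2 (.s3 .lf .lf) (.s3 .lf .lf)) (.s2 (.s3 .lf (.s2 .lf .lf)) (.s3 (.s2 .lf .lf) (.s2 .lf .lf)))) (.s3 (.s2 (.s3 .lf (.s2 .lf .lf)) (.s3 .lf (.s2 .lf .lf))) (.s2 (.s3 (.s2 .lf .lf) (.s2 .lf .lf)) (.s3 (.s2 .lf .lf) (.s2 .lf .lf)))))) (.s3 (.s2 (.s3 (.s2 (.s3 .lf .lf) (.s3 .lf .lf)) (.s2 (.s3 .lf .lf) (.s3 .lf .lf))) (.s3 (.s2 (.s3 .lf .sk) .sk) .sk)) (.s2 (.s3 (.s2 (.s3 .lf (.s2 .lf .lf)) (.s3 .lf .sk)) (.s2 (.s3 (.s2 .lf .lf) (.s2 .lf .sk)) .sk)) .sk))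

theorem cA152 : run runA tA152 20752587082923245568 2305843009213693952 12682136550675316736 1152921504606846976 = true := by decide +kernel

def tA153 : Tr := .s3 (.s2 (.s3 (.s2 (.s3 (.s2 (.s3 (.s2 .lf .lf) .sk) (.s3 (.s2 .lf (.s3 .lf .sk)) .sk)) .sk) (.s3 (.s2 (.s3 (.s2 (.s3 .lf .sk) (.s3 .lf .sk)) .sk) (.s3 (.s2 (.s3 .lf .sk) (.s3 .lf .sk)) .sk)) .sk)) .sk) (.s3 (.s2 (.s3 (.s2 (.s3 (.s2 (.s3 .lf .sk) .sk) .sk) .sk) .sk) .sk) .sk)) .sk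

theorem cA153 : run runA tA153 20752587082923245568 2305843009213693952 16140901064495857664 2305843009213693952 = true := by decide +kernel

def tA154 : Tr := .s3 (.s3 (.s2 (.s3 (.s2 (.s3 (.s2 .lf .sk) .sk) .sk) .sk) .sk) .sk) .sk

theorem cA154 : run runA tA154 25364273101350633472 2305843009213693952 13835058055282163712 4611686018427387904 = true := by decide +kernel

def tA155 : Tr := .s3 (.s2 (.s3 (.s3 (.s3 (.s3 (.s3 (.s3 (.s3 (.s3 (.s3 (.s3 (.s3 (.s3 (.s3 (.s3 (.s3 (.s3 (.s3 (.s3 (.s3 (.s3 (.s3 (.s3 (.s3 (.s3 (.s3 (.s3 (.s3 (.s3 (.s3 (.s3 (.s3 (.s3 (.s3 (.s3 (.s3 (.s3 (.s3 (.s3 (.s3 (.s3 (.s3 (.s3 (.s3 (.s3 (.s3 (.s3 (.s3 (.s2 .lf .sk) .sk) .sk) .sk) .sk) .sk) .sk) .sk) .sk) .sk) .sk) .sk) .sk) .sk) .sk) .sk) .sk) .sk) .sk) .sk) .sk) .sk) .sk) .sk) .sk) .sk) .sk) .sk) .sk) .sk) .sk) .sk) .sk) .sk) .sk) .sk)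 .sk) .sk) .sk) .sk) .sk) .sk) .sk) .sk) .sk) .sk) .sk) .sk) .sk) .sk

theorem cA155 : run runA tA155 32281802128991715328 4611686018427387904 9223372036854775808 9223372036854775808 = true := by decide +kernel

def tA156 : Tr := .s2 (.s3 (.s2 (.s3 (.s3 (.s2 .sk .sk) .sk) .sk) .sk) .sk) .sk

theorem cA156 : run runA tA156 27670116110564327424 9223372036854775808 27670116110564327424 9223372036854775808 = true := by decide +kernel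

end Vale.Agent.Lib.P154.Neg.Ck
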