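import Vale.Agent.Lib.P154.Neg.CkRuns

/-! Kernel evaluation, run A, part 4. -/

namespace Vale.Agent.Lib.P154.Neg.Ck

set_option maxRecDepth 100000

def tA34 : Tr := Tr.sk

theorem cA34 : run runA tA34 288230376151711744 288230376151711744 864691128455135232 288230376151711744 = true := by decide +kernel

def tA35 : Tr := .s3 (.s3 (.s3 (.s3 (.s3 (.s3 (.s3 (.s3 (.s3 (.s3 (.s3 (.s3 (.s3 (.s3 (.s3 (.s3 (.s3 (.s3 (.s3 (.s3 (.s3 (.s3 (.s3 (.s3 (.s3 (.s3 (.s3 (.s3 (.s3 (.s3 (.s3 (.s3 (.s3 (.s3 (.s3 (.s3 (.s3 (.s3 (.s3 (.s3 (.s3 (.s3 (.s3 (.s3 .lf .lf) .lf) .lf) .lf) .lf) .lf) .lf) .lf) .lf) .lf) .lf) .lf) .lf) .lf) .lf) .lf) .lf) .lf) .lf) .lf) .lf) .lf) .lf) .lf) .lf) .lf) .lf) .lf) .lf) .lf) .lf) .lf) .lf) .lf) .lf) .lf) (.s2 .lf .lf)) (.s2 .lf .lf)) (.s2 .lf .lf)) (.s2 .lf .lf)) (.s2 .lf .lf)) (.s2 (.s3 .lf .lf) (.s3 .lf .lf))) (.s2 (.s3 .lf .lf) (.s3 .lf .lf))) (.s3 (.s2 .lf .lf) (.s2 .sk .lf))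

theorem cA35 : run runA tA35 864691128455135232 288230376151711744 576460752303423488 576460752303423488 = true := by decide +kernel

def tA36 : Tr := Tr.sk

theorem cA36 : run runA tA36 576460752303423488 576460752303423488 1729382256910270464 576460752303423488 = true := by decide +kernel

def tA37 : Tr := .s3 (.s3 (.s3 (.s3 (.s3 (.s3 (.s3 (.s3 (.s3 (.s3 (.s3 (.s3 (.s3 (.s3 (.s3 (.s3 (.s3 (.s3 (.s3 (.s3 (.s3 (.s3 (.s3 (.s3 (.s3 (.s3 (.s3 (.s3 (.s3 (.s2 .lf .lf) (.s2 .lf .lf)) (.s2 .lf .lf)) (.s2 .lf .lf)) (.s2 .lf .lf)) (.s2 .lf .lf)) (.s2 .lf .lf)) (.s2 .lf .lf)) (.s2 .lf .lf)) (.s2 .lf .lf)) (.s2 .lf .lf)) (.s2 .lf .lf)) (.s2 .lf .lf)) (.s2 .lf .lf)) (.s2 .lf .lf)) (.s2 .lf .lf)) (.s2 .lf .lf)) (.s2 .lf .lf)) (.s2 .lf .lf)) (.s2 .lf .lf)) (.s2 .lf .lf)) (.s2 .lf .lf)) (.s2 .lf .lf)) (.s2 .lf .lf)) (.s2 .lf .lf)) (.s2 .lf .lf)) (.s2 .lf .lf)) (.s2 .lf .lf)) (.s2 .lf .lf)) (.s2 .lf .lf)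

theorem cA37 : run runA tA37 1729382256910270464 576460752303423488 17592186044416 17592186044416 = true := by decide +kernel

def tA38 : Tr := .s2 .lf .lf

theorem cA38 : run runA tA38 1729382256910270464 576460752303423488 52776558133248 17592186044416 = true := by decide +kernel

def tA39 : Tr := .s2 .lf .lf

theorem cA39 : run runA tA39 1729382256910270464 576460752303423488 105553116266496 35184372088832 = true := by decide +kernel

def tA40 : Tr := .s2 .lf .lf

theorem cA40 : run runA tA40 1729382256910270464 576460752303423488 211106232532992 70368744177664 = true := by decide +kernel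

def tA41 : Tr := .s2 .lf .lf

theorem cA41 : run runA tA41 1729382256910270464 576460752303423488 422212465065984 140737488355328 = true := by decide +kernel

def tA42 : Tr := .s2 .lf .lf

theorem cA42 : run runA tA42 1729382256910270464 576460752303423488 844424930131968 281474976710656 = true := by decide +kernel

def tA43 : Tr := .s2 .lf .lf

theorem cA43 : run runA tA43 1729382256910270464 576460752303423488 1688849860263936 562949953421312 = true := by decide +kernel

def tA44 : Tr := .s2 .lf .lf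

theorem cA44 : run runA tA44 1729382256910270464 576460752303423488 3377699720527872 1125899906842624 = true := by decide +kernel

def tA45 : Tr := .s2 .lf .lf

theorem cA45 : run runA tA45 1729382256910270464 576460752303423488 6755399441055744 2251799813685248 = true := by decide +kernel

def tA46 : Tr := .s2 .lf .lf

theorem cA46 : run runA tA46 1729382256910270464 576460752303423488 13510798882111488 4503599627370496 = true := by decide +kernel

def tA47 : Tr := .s2 .lf .lf

theorem cA47 : run runA tA47 1729382256910270464 576460752303423488 27021597764222976 9007199254740992 = true := by decide +kernel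

def tA48 : Tr := .s2 (.s2 .lf .lf) (.s2 (.s3 .lf .lf) (.s3 .lf .lf))

theorem cA48 : run runA tA48 1729382256910270464 576460752303423488 54043195528445952 18014398509481984 = true := by decide +kernel

def tA49 : Tr := .s2 (.s2 (.s3 .lf .lf) (.s3 .lf .lf)) (.s3 .lf .lf)

theorem cA49 : run runA tA49 1729382256910270464 576460752303423488 108086391056891904 36028797018963968 = true := by decide +kernel

end Vale.Agent.Lib.P154.Neg.Ck
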