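import Vale.Agent.Lib.P154.Neg.CkRuns

/-! Kernel evaluation, run A, part 5. -/

namespace Vale.Agent.Lib.P154.Neg.Ck

set_option maxRecDepth 100000

def tA50 : Tr := .s2 (.s2 (.s3 .lf .lf) (.s3 .lf .lf)) (.s3 .lf .lf)

theorem cA50 : run runA tA50 1729382256910270464 576460752303423488 216172782113783808 72057594037927936 = true := by decide +kernel

def tA51 : Tr := .s2 (.s3 .lf .lf) (.s3 .lf .lf)

theorem cA51 : run runA tA51 1729382256910270464 576460752303423488 432345564227567616 144115188075855872 = true := by decide +kernel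

def tA52 : Tr := .s2 (.s3 (.s2 .lf .lf) (.s2 .lf .lf)) (.s3 (.s3 .lf .lf) .lf)

theorem cA52 : run runA tA52 1729382256910270464 576460752303423488 864691128455135232 288230376151711744 = true := by decide +kernel

def tA53 : Tr := .s3 (.s2 (.s3 (.s2 .lf .lf) (.s2 .sk .lf)) (.s3 .lf .lf)) (.s2 .sk (.s3 .lf (.s2 .sk .lf)))

theorem cA53 : run runA tA53 1729382256910270464 576460752303423488 1729382256910270464 576460752303423488 = true := by decide +kernel

def tA54 : Tr := Tr.sk

theorem cA54 : run runA tA54 1152921504606846976 1152921504606846976 3458764513820540928 1152921504606846976 = true := by decide +kernel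

def tA55 : Tr := .s3 (.s3 (.s3 (.s3 (.s3 (.s3 (.s3 (.s3 (.s3 (.s3 (.s3 (.s3 (.s3 (.s3 (.s3 (.s3 (.s3 (.s3 (.s3 (.s3 (.s3 (.s3 (.s3 (.s3 (.s3 (.s3 (.s3 (.s3 (.s3 (.s2 .lf .lf) (.s2 .lf .lf)) (.s2 .lf .lf)) (.s2 .lf .lf)) (.s2 .lf .lf)) (.s2 .lf .lf)) (.s2 .lf .lf)) (.s2 .lf .lf)) (.s2 .lf .lf)) (.s2 .lf .lf)) (.s2 .lf .lf)) (.s2 .lf .lf)) (.s2 .lf .lf)) (.s2 .lf .lf)) (.s2 .lf .lf)) (.s2 .lf .lf)) (.s2 .lf .lf)) (.s2 .lf .lf)) (.s2 .lf .lf)) (.s2 .lf .lf)) (.s2 .lf .lf)) (.s2 .lf .lf)) (.s2 .lf .lf)) (.s2 .lf .lf)) (.s2 .lf .lf)) (.s2 .lf .lf)) (.s2 .lf .lf)) (.s2 .lf .lf)) (.s2 .lf .lf)) (.s2 .lf .lf)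

theorem cA55 : run runA tA55 3458764513820540928 1152921504606846976 17592186044416 17592186044416 = true := by decide +kernel

def tA56 : Tr := .s2 .lf .lf

theorem cA56 : run runA tA56 3458764513820540928 1152921504606846976 52776558133248 17592186044416 = true := by decide +kernel

def tA57 : Tr := .s2 .lf .lf

theorem cA57 : run runA tA57 3458764513820540928 1152921504606846976 105553116266496 35184372088832 = true := by decide +kernel

def tA58 : Tr := .s2 .lf .lf

theorem cA58 : run runA tA58 3458764513820540928 1152921504606846976 211106232532992 70368744177664 = true := by decide +kernel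

def tA59 : Tr := .s2 .lf .lf

theorem cA59 : run runA tA59 3458764513820540928 1152921504606846976 422212465065984 140737488355328 = true := by decide +kernel

def tA60 : Tr := .s2 .lf .lf

theorem cA60 : run runA tA60 3458764513820540928 1152921504606846976 844424930131968 281474976710656 = true := by decide +kernel

def tA61 : Tr := .s2 .lf .lf

theorem cA61 : run runA tA61 3458764513820540928 1152921504606846976 1688849860263936 562949953421312 = true := by decide +kernel

def tA62 : Tr := .s2 .lf .lf

theorem cA62 : run runA tA62 3458764513820540928 1152921504606846976 3377699720527872 1125899906842624 = true := by decide +kernel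

def tA63 : Tr := .s2 .lf .lf

theorem cA63 : run runA tA63 3458764513820540928 1152921504606846976 6755399441055744 2251799813685248 = true := by decide +kernel

def tA64 : Tr := .s2 (.s2 .lf .lf) (.s2 .lf .lf)

theorem cA64 : run runA tA64 3458764513820540928 1152921504606846976 13510798882111488 4503599627370496 = true := by decide +kernel

def tA65 : Tr := .s2 (.s2 (.s2 .lf .lf) (.s2 (.s3 .lf .lf) (.s3 .lf .lf))) (.s2 (.s3 .lf .lf) (.s3 .lf .lf))

theorem cA65 : run runA tA65 3458764513820540928 1152921504606846976 27021597764222976 9007199254740992 = true := by decide +kernel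

def tA66 : Tr := .s2 (.s2 (.s2 (.s3 .lf .lf) (.s3 .lf .lf)) (.s3 .lf .lf)) (.s2 (.s3 .lf .lf) (.s3 .lf .lf))

theorem cA66 : run runA tA66 3458764513820540928 1152921504606846976 54043195528445952 18014398509481984 = true := by decide +kernel

def tA67 : Tr := .s2 (.s2 (.s3 .lf .lf) (.s3 .lf .lf)) (.s2 (.s3 .lf .lf) (.s3 .lf .lf))

theorem cA67 : run runA tA67 3458764513820540928 1152921504606846976 108086391056891904 36028797018963968 = true := by decide +kernel

def tA68 : Tr := .s2 (.s2 (.s3 .lf .lf) (.s3 .lf .lf)) (.s3 (.s2 .lf (.s3 .lf .lf)) (.s2 .lf .lf))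

theorem cA68 : run runA tA68 3458764513820540928 1152921504606846976 216172782113783808 72057594037927936 = true := by decide +kernel

def tA69 : Tr := .s2 (.s2 (.s3 .lf .lf) (.s3 .lf .lf)) (.s3 (.s2 (.s3 .lf .lf) (.s3 .lf .lf)) (.s2 .lf .lf))

theorem cA69 : run runA tA69 3458764513820540928 1152921504606846976 432345564227567616 144115188075855872 = true := by decide +kernel

end Vale.Agent.Lib.P154.Neg.Ck
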