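import Vale.Agent.Lib.P154.Neg.CkRuns

/-! Kernel evaluation, run A, part 6. -/

namespace Vale.Agent.Lib.P154.Neg.Ck

set_option maxRecDepth 100000

def tA70 : Tr := .s2 (.s3 (.s2 (.s3 .lf .lf) (.s3 .lf .lf)) (.s2 .lf .lf)) (.s3 (.s2 (.s3 .lf .lf) (.s3 .lf .lf)) (.s2 .lf .lf))

theorem cA70 : run runA tA70 3458764513820540928 1152921504606846976 864691128455135232 288230376151711744 = true := by decide +kernel

def tA71 : Tr := .s2 (.s3 (.s2 (.s3 .lf .lf) (.s3 .lf .lf)) (.s2 (.s3 .lf .lf) (.s3 .lf .lf))) (.s3 (.s3 (.s2 .lf .lf) (.s2 .lf .lf)) (.s2 (.s3 .lf .lf) (.s3 .lf .lf)))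

theorem cA71 : run runA tA71 3458764513820540928 1152921504606846976 1729382256910270464 576460752303423488 = true := by decide +kernel

def tA72 : Tr := .s3 (.s2 (.s3 (.s2 (.s3 .lf .lf) (.s3 .lf .lf)) (.s2 .sk (.s3 .lf .lf))) (.s3 (.s2 (.s3 .lf .lf) (.s3 .lf .lf)) (.s2 .lf .lf))) (.s2 .sk (.s3 (.s2 .lf .lf) (.s2 .sk .lf)))

theorem cA72 : run runA tA72 3458764513820540928 1152921504606846976 3458764513820540928 1152921504606846976 = true := by decide +kernel

def tA73 : Tr := Tr.sk

theorem cA73 : run runA tA73 2305843009213693952 2305843009213693952 6917529027641081856 2305843009213693952 = true := by decide +kernel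

def tA74 : Tr := .s3 (.s3 (.s3 (.s3 (.s3 (.s3 (.s3 (.s3 (.s3 (.s3 (.s3 (.s3 (.s3 (.s3 (.s3 (.s3 (.s3 (.s3 (.s3 (.s3 (.s3 (.s3 (.s3 (.s3 (.s3 (.s3 (.s3 (.s3 (.s3 (.s2 .lf .lf) (.s2 .lf .lf)) (.s2 .lf .lf)) (.s2 .lf .lf)) (.s2 .lf .lf)) (.s2 .lf .lf)) (.s2 .lf .lf)) (.s2 .lf .lf)) (.s2 .lf .lf)) (.s2 .lf .lf)) (.s2 .lf .lf)) (.s2 .lf .lf)) (.s2 .lf .lf)) (.s2 .lf .lf)) (.s2 .lf .lf)) (.s2 .lf .lf)) (.s2 .lf .lf)) (.s2 .lf .lf)) (.s2 .lf .lf)) (.s2 .lf .lf)) (.s2 .lf .lf)) (.s2 .lf .lf)) (.s2 .lf .lf)) (.s2 .lf .lf)) (.s2 .lf .lf)) (.s2 .lf .lf)) (.s2 .lf .lf)) (.s2 .lf .lf)) (.s2 .lf .lf)) (.s2 .lf .lf)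

theorem cA74 : run runA tA74 6917529027641081856 2305843009213693952 17592186044416 17592186044416 = true := by decide +kernel

def tA75 : Tr := .s2 .lf .lf

theorem cA75 : run runA tA75 6917529027641081856 2305843009213693952 52776558133248 17592186044416 = true := by decide +kernel

def tA76 : Tr := .s2 .lf .lf

theorem cA76 : run runA tA76 6917529027641081856 2305843009213693952 105553116266496 35184372088832 = true := by decide +kernel

def tA77 : Tr := .s2 .lf .lf

theorem cA77 : run runA tA77 6917529027641081856 2305843009213693952 211106232532992 70368744177664 = true := by decide +kernel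

def tA78 : Tr := .s2 .lf .lf

theorem cA78 : run runA tA78 6917529027641081856 2305843009213693952 422212465065984 140737488355328 = true := by decide +kernel

def tA79 : Tr := .s2 .lf .lf

theorem cA79 : run runA tA79 6917529027641081856 2305843009213693952 844424930131968 281474976710656 = true := by decide +kernel

def tA80 : Tr := .s2 .lf .lf

theorem cA80 : run runA tA80 6917529027641081856 2305843009213693952 1688849860263936 562949953421312 = true := by decide +kernel

def tA81 : Tr := .s2 .lf .lf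

theorem cA81 : run runA tA81 6917529027641081856 2305843009213693952 3377699720527872 1125899906842624 = true := by decide +kernel

def tA82 : Tr := .s2 (.s2 .lf .lf) .lf

theorem cA82 : run runA tA82 6917529027641081856 2305843009213693952 6755399441055744 2251799813685248 = true := by decide +kernel

def tA83 : Tr := .s2 (.s2 .lf .lf) (.s2 .lf .lf)

theorem cA83 : run runA tA83 6917529027641081856 2305843009213693952 13510798882111488 4503599627370496 = true := by decide +kernel

def tA84 : Tr := .s2 (.s2 (.s2 (.s3 .lf .lf) (.s3 .lf .lf)) (.s2 (.s3 .lf .lf) (.s3 .lf .lf))) (.s2 (.s2 (.s3 .lf .lf) (.s3 .lf .lf)) (.s2 (.s3 .lf .lf) (.s3 .lf .lf)))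

theorem cA84 : run runA tA84 6917529027641081856 2305843009213693952 27021597764222976 9007199254740992 = true := by decide +kernel

def tA85 : Tr := .s2 (.s2 (.s2 (.s3 .lf .lf) (.s3 .lf .lf)) (.s2 (.s3 .lf .lf) (.s3 .lf .lf))) (.s2 (.s3 .lf .lf) (.s3 .lf .lf))

theorem cA85 : run runA tA85 6917529027641081856 2305843009213693952 54043195528445952 18014398509481984 = true := by decide +kernel

end Vale.Agent.Lib.P154.Neg.Ck
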