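import Vale.Agent.Lib.P154.Neg.CkRuns

/-! Kernel evaluation, run A, part 7. -/

namespace Vale.Agent.Lib.P154.Neg.Ck

set_option maxRecDepth 100000

def tA86 : Tr := .s2 (.s2 (.s2 (.s3 .lf .lf) (.s3 (.s3 .lf .lf) .lf)) (.s3 (.s2 (.s3 .lf .lf) (.s3 .lf .lf)) (.s2 .lf .lf))) (.s2 (.s3 (.s2 (.s3 .lf .lf) (.s3 .lf .lf)) (.s2 .lf .lf)) (.s3 (.s2 (.s3 .lf .lf) (.s3 .lf .lf)) .lf))

theorem cA86 : run runA tA86 6917529027641081856 2305843009213693952 108086391056891904 36028797018963968 = true := by decide +kernel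

def tA87 : Tr := .s2 (.s2 (.s3 (.s2 (.s3 .lf .lf) (.s3 .lf .lf)) (.s2 .lf .lf)) (.s3 (.s2 (.s3 .lf .lf) (.s3 .lf .lf)) (.s2 .lf (.s3 .lf .lf)))) (.s2 (.s3 (.s2 (.s3 .lf .lf) (.s3 .lf .lf)) (.s2 (.s3 .lf .lf) (.s3 .lf .lf))) (.s3 (.s2 (.s3 .lf .lf) (.s3 .lf .lf)) (.s2 .lf .lf)))

theorem cA87 : run runA tA87 6917529027641081856 2305843009213693952 216172782113783808 72057594037927936 = true := by decide +kernel

def tA88 : Tr := .s2 (.s2 (.s3 (.s2 (.s3 .lf .lf) (.s3 .lf .lf)) (.s2 .lf .lf)) (.s3 (.s2 (.s3 .lf .lf) (.s3 .lf .lf)) (.s2 .lf .lf))) (.s3 (.s2 (.s3 .lf .lf) (.s3 .lf .lf)) (.s2 (.s2 .lf .lf) .lf))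

theorem cA88 : run runA tA88 6917529027641081856 2305843009213693952 432345564227567616 144115188075855872 = true := by decide +kernel

def tA89 : Tr := .s2 (.s2 (.s3 (.s3 .lf .lf) (.s2 .lf .lf)) (.s3 (.s3 .lf .lf) .lf)) (.s3 (.s2 (.s3 .lf .lf) (.s3 .lf .lf)) (.s2 .lf .lf))

theorem cA89 : run runA tA89 6917529027641081856 2305843009213693952 864691128455135232 288230376151711744 = true := by decide +kernel

def tA90 : Tr := .s2 (.s3 (.s2 (.s3 .lf .lf) (.s3 .lf .lf)) (.s2 (.s2 (.s3 .lf .lf) (.s3 .lf .lf)) (.s3 .lf .lf))) (.s3 (.s2 (.s3 .lf .lf) (.s3 .lf .lf)) (.s2 .lf .lf))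

theorem cA90 : run runA tA90 6917529027641081856 2305843009213693952 1729382256910270464 576460752303423488 = true := by decide +kernel

def tA91 : Tr := .s2 (.s3 (.s2 (.s3 (.s2 .lf .lf) (.s2 .lf .lf)) (.s3 (.s2 .lf .lf) (.s2 .lf .lf))) (.s2 (.s3 (.s2 .lf .lf) (.s2 .lf .lf)) (.s3 (.s2 .lf .lf) (.s2 .lf .lf)))) (.s3 (.s3 (.s2 .lf .lf) (.s2 .lf .lf)) (.s2 (.s3 .lf .lf) (.s3 .lf .lf)))

theorem cA91 : run runA tA91 6917529027641081856 2305843009213693952 3458764513820540928 1152921504606846976 = true := by decide +kernel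

def tA92 : Tr := .s3 (.s2 (.s3 (.s2 (.s3 (.s2 .lf .lf) (.s2 .sk .lf)) (.s3 (.s2 .lf .lf) (.s2 .lf .lf))) (.s2 .sk (.s3 (.s2 .lf .lf) (.s2 .sk .lf)))) (.s3 (.s2 (.s3 .lf .lf) (.s3 .lf .lf)) (.s2 (.s3 (.s2 .lf .lf) (.s2 .lf .lf)) (.s3 .lf .lf)))) (.s2 .sk (.s3 (.s2 (.s3 .lf .lf) (.s3 .lf .lf)) (.s2 .sk (.s3 .lf .lf))))

theorem cA92 : run runA tA92 6917529027641081856 2305843009213693952 6917529027641081856 2305843009213693952 = true := by decide +kernel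

def tA93 : Tr := Tr.sk

theorem cA93 : run runA tA93 4611686018427387904 4611686018427387904 13835058055282163712 4611686018427387904 = true := by decide +kernel

def tA94 : Tr := .s3 (.s3 (.s3 (.s3 (.s3 (.s3 (.s3 (.s3 (.s3 (.s3 (.s3 (.s3 (.s3 (.s3 (.s3 (.s3 (.s3 (.s3 (.s3 (.s3 (.s3 (.s3 (.s3 (.s3 (.s2 .lf .lf) (.s2 .lf .lf)) (.s2 .lf .lf)) (.s2 .lf .lf)) (.s2 .lf .lf)) (.s2 .lf .lf)) (.s2 .lf .lf)) (.s2 .lf .lf)) (.s2 .lf .lf)) (.s2 .lf .lf)) (.s2 .lf .lf)) (.s2 .lf .lf)) (.s2 .lf .lf)) (.s2 .lf .lf)) (.s2 .lf .lf)) (.s2 .lf .lf)) (.s2 (.s2 .lf .lf) .lf)) (.s2 (.s2 .lf .lf) .lf)) (.s2 (.s2 .lf .lf) .lf)) (.s2 (.s2 .lf .lf) .lf)) (.s2 (.s2 .lf .lf) .lf)) (.s2 (.s2 .lf .lf) .lf)) (.s2 (.s2 .lf .lf) .lf)) (.s2 (.s2 .lf .lf) .lf)) (.s2 (.s2 .lf .lf) .lf)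

theorem cA94 : run runA tA94 13835058055282163712 4611686018427387904 549755813888 549755813888 = true := by decide +kernel

end Vale.Agent.Lib.P154.Neg.Ck
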