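import Vale.Agent.Lib.P154.Neg.CkRuns

/-! Kernel evaluation, run A, part 8. -/

namespace Vale.Agent.Lib.P154.Neg.Ck

set_option maxRecDepth 100000

def tA95 : Tr := .s2 (.s2 .lf .lf) .lf

theorem cA95 : run runA tA95 13835058055282163712 4611686018427387904 1649267441664 549755813888 = true := by decide +kernel

def tA96 : Tr := .s2 (.s2 .lf .lf) .lf

theorem cA96 : run runA tA96 13835058055282163712 4611686018427387904 3298534883328 1099511627776 = true := by decide +kernel

def tA97 : Tr := .s2 (.s2 .lf .lf) .lf

theorem cA97 : run runA tA97 13835058055282163712 4611686018427387904 6597069766656 2199023255552 = true := by decide +kernel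

def tA98 : Tr := .s2 .lf .lf

theorem cA98 : run runA tA98 13835058055282163712 4611686018427387904 13194139533312 4398046511104 = true := by decide +kernel

def tA99 : Tr := .s2 .lf .lf

theorem cA99 : run runA tA99 13835058055282163712 4611686018427387904 26388279066624 8796093022208 = true := by decide +kernel

def tA100 : Tr := .s2 .lf .lf

theorem cA100 : run runA tA100 13835058055282163712 4611686018427387904 52776558133248 17592186044416 = true := by decide +kernel

def tA101 : Tr := .s2 .lf .lf

theorem cA101 : run runA tA101 13835058055282163712 4611686018427387904 105553116266496 35184372088832 = true := by decide +kernel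

def tA102 : Tr := .s2 .lf .lf

theorem cA102 : run runA tA102 13835058055282163712 4611686018427387904 211106232532992 70368744177664 = true := by decide +kernel

def tA103 : Tr := .s2 .lf .lf

theorem cA103 : run runA tA103 13835058055282163712 4611686018427387904 422212465065984 140737488355328 = true := by decide +kernel

def tA104 : Tr := .s2 .lf .lf

theorem cA104 : run runA tA104 13835058055282163712 4611686018427387904 844424930131968 281474976710656 = true := by decide +kernel

def tA105 : Tr := .s2 .lf .lf

theorem cA105 : run runA tA105 13835058055282163712 4611686018427387904 1688849860263936 562949953421312 = true := by decide +kernel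

def tA106 : Tr := .s2 .lf .lf

theorem cA106 : run runA tA106 13835058055282163712 4611686018427387904 3377699720527872 1125899906842624 = true := by decide +kernel

def tA107 : Tr := .s2 (.s2 .lf .lf) .lf

theorem cA107 : run runA tA107 13835058055282163712 4611686018427387904 6755399441055744 2251799813685248 = true := by decide +kernel

def tA108 : Tr := .s2 (.s2 .lf .lf) (.s2 .lf .lf)

theorem cA108 : run runA tA108 13835058055282163712 4611686018427387904 13510798882111488 4503599627370496 = true := by decide +kernel

def tA109 : Tr := .s2 (.s2 (.s2 (.s3 .lf .lf) (.s3 .lf .lf)) (.s2 (.s3 .lf .lf) (.s3 .lf .lf))) (.s2 (.s2 (.s3 .lf .lf) (.s3 .lf .lf)) (.s2 .lf .lf))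

theorem cA109 : run runA tA109 13835058055282163712 4611686018427387904 27021597764222976 9007199254740992 = true := by decide +kernel

def tA110 : Tr := .s2 (.s2 (.s2 (.s3 .lf .lf) (.s3 .lf .lf)) (.s2 (.s3 .lf .lf) (.s3 .lf .lf))) (.s2 (.s2 (.s3 .lf .lf) (.s3 .lf .lf)) (.s2 (.s3 .lf .lf) (.s3 .lf .lf)))

theorem cA110 : run runA tA110 13835058055282163712 4611686018427387904 54043195528445952 18014398509481984 = true := by decide +kernel

def tA111 : Tr := .s2 (.s2 (.s2 (.s3 (.s2 (.s3 .lf .lf) .lf) .lf) (.s3 (.s2 .lf .lf) .lf)) (.s2 (.s3 .lf .lf) (.s3 .lf .lf))) (.s2 (.s3 .lf .lf) (.s3 .lf .lf))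

theorem cA111 : run runA tA111 13835058055282163712 4611686018427387904 108086391056891904 36028797018963968 = true := by decide +kernel

def tA112 : Tr := .s2 (.s2 (.s2 (.s3 (.s3 .lf .lf) (.s2 .lf .lf)) (.s3 (.s3 .lf .lf) .lf)) (.s3 (.s2 (.s3 .lf .lf) (.s3 .lf .lf)) (.s2 .lf .lf))) (.s2 (.s3 (.s2 (.s3 .lf .lf) (.s3 .lf .lf)) .lf) (.s3 (.s2 .lf .lf) .lf))

theorem cA112 : run runA tA112 13835058055282163712 4611686018427387904 216172782113783808 72057594037927936 = true := by decide +kernel

def tA113 : Tr := .s2 (.s2 (.s3 (.s2 (.s3 .lf .lf) (.s3 .lf .lf)) (.s2 .lf .lf)) (.s3 (.s2 (.s3 .lf .lf) (.s3 .lf .lf)) .lf)) (.s2 (.s3 (.s2 (.s3 .lf .lf) (.s3 .lf .lf)) .lf) (.s3 (.s2 (.s3 .lf .lf) .lf) .lf))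

theorem cA113 : run runA tA113 13835058055282163712 4611686018427387904 432345564227567616 144115188075855872 = true := by decide +kernel

def tA114 : Tr := .s2 (.s2 (.s3 (.s2 (.s3 .lf .lf) (.s3 .lf .lf)) .lf) (.s3 (.s2 (.s3 .lf .lf) (.s3 .lf .lf)) .lf)) (.s3 (.s2 (.s3 .lf .lf) (.s3 .lf .lf)) (.s2 .lf .lf))

theorem cA114 : run runA tA114 13835058055282163712 4611686018427387904 864691128455135232 288230376151711744 = true := by decide +kernel

def tA115 : Tr := .s2 (.s2 (.s3 (.s3 .lf .lf) (.s2 .lf .lf)) (.s3 (.s3 .lf .lf) .lf)) (.s3 (.s2 (.s3 .lf .lf) (.s3 .lf .lf)) (.s2 .lf (.s3 .lf .lf)))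

theorem cA115 : run runA tA115 13835058055282163712 4611686018427387904 1729382256910270464 576460752303423488 = true := by decide +kernel

end Vale.Agent.Lib.P154.Neg.Ck
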