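import Vale.Agent.Lib.P154.Neg.CkRuns

/-! Kernel evaluation, run A, part 9. -/

namespace Vale.Agent.Lib.P154.Neg.Ck

set_option maxRecDepth 100000

def tA116 : Tr := .s2 (.s3 (.s2 (.s3 .lf .lf) (.s3 .lf .lf)) (.s2 (.s2 (.s3 .lf .lf) (.s3 .lf .lf)) (.s3 .lf .lf))) (.s3 (.s2 (.s3 .lf .lf) (.s3 .lf .lf)) (.s2 (.s3 .lf .lf) (.s3 .lf .lf)))

theorem cA116 : run runA tA116 13835058055282163712 4611686018427387904 3458764513820540928 1152921504606846976 = true := by decide +kernel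

def tA117 : Tr := .s2 (.s3 (.s2 (.s3 (.s2 (.s3 .lf .lf) .lf) (.s2 (.s3 .lf .lf) .lf)) (.s3 (.s2 .lf .lf) (.s2 .lf .lf))) (.s2 (.s3 (.s2 (.s3 .lf .lf) .lf) (.s2 (.s3 .lf .lf) .lf)) (.s3 (.s2 .lf .lf) (.s2 .lf .lf)))) (.s3 (.s3 (.s2 (.s3 .lf .lf) (.s3 .lf .lf)) (.s2 (.s2 .lf .lf) (.s3 .lf (.s2 .lf .lf)))) (.s2 (.s3 (.s2 .lf .lf) (.s2 (.s3 .lf .lf) (.s3 .lf .lf))) (.s3 (.s2 (.s3 .lf .lf) (.s3 .lf .lf)) (.s2 (.s3 .lf .lf) (.s3 .lf .lf)))))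

theorem cA117 : run runA tA117 13835058055282163712 4611686018427387904 6917529027641081856 2305843009213693952 = true := by decide +kernel

def tA118 : Tr := .s3 (.s2 (.s3 (.s2 (.s3 .lf .lf) (.s3 .lf .lf)) (.s2 .sk (.s3 .lf .lf))) (.s3 (.s2 (.s3 .lf .lf) (.s3 .lf .lf)) (.s2 (.s3 .lf .lf) (.s3 .lf .lf)))) (.s2 .sk (.s3 (.s2 (.s3 .lf .lf) (.s3 .lf .lf)) (.s2 .sk (.s3 (.s2 .lf .lf) (.s2 .sk .lf)))))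

theorem cA118 : run runA tA118 11529215046068469760 2305843009213693952 11529215046068469760 2305843009213693952 = true := by decide +kernel

def tA119 : Tr := .s3 (.s2 (.s3 (.s2 (.s3 .lf .lf) (.s3 .lf .lf)) (.s2 (.s3 .lf .lf) (.s3 .lf .lf))) (.s3 (.s2 (.s3 .lf .lf) (.s3 .lf .lf)) (.s2 (.s3 .lf (.s2 .lf .lf)) (.s3 (.s2 .lf .lf) (.s2 .lf .lf))))) (.s2 (.s3 (.s2 (.s3 .lf (.s2 .lf .lf)) (.s3 (.s2 .lf .lf) (.s2 .lf .lf))) (.s2 (.s3 (.s2 .lf .lf) (.s2 .lf .lf)) (.s3 (.s2 .lf .lf) (.s2 .lf .lf)))) (.s3 (.s2 (.s3 (.s2 .lf .lf) (.s2 .lf .lf)) (.s3 (.s2 .lf .lf) (.s2 .lf (.s3 .lf .lf)))) (.s2 (.s3 (.s2 .lf .lf) (.s2 (.s3 .lf .lf) (.s3 .lf .lf))) (.s3 (.s2 (.s3 .lf .lf) (.s3 .lf .lf)) (.s2 (.s3 .lf .lf) (.s3 .lf .lf))))))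

theorem cA119 : run runA tA119 16140901064495857664 2305843009213693952 11529215046068469760 2305843009213693952 = true := by decide +kernel

def tA120 : Tr := .s2 .sk (.s3 (.s2 (.s3 (.s2 (.s3 (.s2 .lf .lf) (.s2 .sk .lf)) (.s3 (.s2 .lf (.s3 .lf .lf)) (.s2 (.s3 .lf .lf) (.s3 .lf .lf)))) (.s2 .sk (.s3 (.s2 (.s3 .lf .lf) (.s3 .lf (.s2 .lf .lf))) (.s2 .sk (.s3 (.s2 .lf .lf) (.s2 .sk .lf)))))) (.s3 (.s2 (.s3 (.s2 (.s3 .lf .lf) (.s3 .lf .lf)) (.s2 (.s3 .lf .lf) (.s3 (.s2 .lf .lf) (.s2 .lf .lf)))) (.s3 (.s2 (.s3 .lf (.s2 .lf .lf)) (.s3 (.s2 .lf .lf) (.s2 .lf .lf))) (.s2 (.s3 (.s2 .lf .lf) (.s2 .lf (.s3 .lf .sk))) (.s3 (.s2 .lf .sk) .sk)))) (.s2 (.s3 (.s2 (.s3 (.s2 .lf .lf) (.s2 .lf .lf)) (.s3 (.s2 .lf .lf) (.s2 .lf (.s3 .lf .sk)))) (.s2 (.s3 (.s2 .lf (.s3 .lf .lf)) (.s2 (.s3 .lf .lf) (.s3 .lf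 .sk))) (.s3 (.s2 (.s3 .lf .sk) .sk) .sk))) (.s3 (.s2 (.s3 (.s2 (.s3 .lf .sk) .sk) .sk) .sk) .sk)))) (.s2 .sk (.s3 (.s2 (.s3 (.s2 (.s3 (.s2 (.s3 .lf .sk) .sk) .sk) .sk) .sk) .sk) .sk)))

theorem cA120 : run runA tA120 13835058055282163712 4611686018427387904 16140901064495857664 2305843009213693952 = true := by decide +kernel

end Vale.Agent.Lib.P154.Neg.Ck
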