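import Vale.Agent.Lib.P154.Neg.CkRuns

/-! Kernel evaluation, run B, part 0. -/

namespace Vale.Agent.Lib.P154.Neg.Ck

set_option maxRecDepth 100000

def tB0 : Tr := Tr.sk

theorem cB0 : run runB tB0 4611686018427387904 4611686018427387904 9223372036854775808 9223372036854775808 = true := by decide +kernel

def tB1 : Tr := Tr.sk

theorem cB1 : run runB tB1 13835058055282163712 4611686018427387904 4611686018427387904 4611686018427387904 = true := by decide +kernel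

def tB2 : Tr := Tr.sk

theorem cB2 : run runB tB2 13835058055282163712 4611686018427387904 11529215046068469760 2305843009213693952 = true := by decide +kernel

def tB3 : Tr := Tr.sk

theorem cB3 : run runB tB3 11529215046068469760 2305843009213693952 16140901064495857664 2305843009213693952 = true := by decide +kernel

def tB4 : Tr := .s2 .sk (.s3 (.s2 .sk (.s3 (.s2 .sk (.s3 (.s2 .sk .lf) (.s2 .lf .lf))) (.s2 (.s3 (.s2 .sk .lf) (.s2 .lf .lf)) (.s3 (.s2 .lf .lf) (.s2 .lf .lf))))) (.s2 (.s3 (.s2 .sk (.s3 (.s2 .sk .lf) (.s2 .lf .lf))) (.s2 (.s3 (.s2 .sk .lf) (.s2 .lf .lf)) (.s3 (.s2 .lf .lf) (.s2 .lf .lf)))) (.s3 (.s2 (.s3 (.s2 .lf .lf) (.s2 .lf .lf)) (.s3 (.s2 .lf .lf) (.s2 .lf .lf))) (.s2 (.s3 (.s2 .lf .lf) (.s2 .lf .lf)) (.s3 (.s2 .lf .lf) (.s2 .lf .lf))))))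

theorem cB4 : run runB tB4 16140901064495857664 2305843009213693952 14987979559889010688 1152921504606846976 = true := by decide +kernel

def tB5 : Tr := .s2 .sk (.s3 (.s2 (.s3 (.s2 (.s3 (.s2 .lf .lf) (.s2 .sk .lf)) (.s3 (.s2 .lf .lf) (.s2 .lf .lf))) (.s2 .sk (.s3 (.s2 .lf .lf) (.s2 .sk .lf)))) (.s3 (.s2 (.s3 (.s2 .lf .lf) (.s2 .lf .lf)) (.s3 (.s2 .lf .lf) (.s2 .lf .lf))) (.s2 (.s3 (.s2 .lf .lf) (.s2 .lf .lf)) (.s3 (.s2 .lf .lf) (.s2 .lf .lf))))) (.s2 .sk (.s3 (.s2 (.s3 (.s2 .lf .lf) (.s2 .sk .lf)) (.s3 (.s2 .lf .lf) (.s2 .lf .lf))) (.s2 .sk (.s3 (.s2 .lf .lf) (.s2 .sk .lf))))))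

theorem cB5 : run runB tB5 16140901064495857664 2305843009213693952 17293822569102704640 1152921504606846976 = true := by decide +kernel

def tB6 : Tr := Tr.sk

theorem cB6 : run runB tB6 9223372036854775808 9223372036854775808 27670116110564327424 9223372036854775808 = true := by decide +kernel

def tB7 : Tr := Tr.sk

theorem cB7 : run runB tB7 23058430092136939520 4611686018427387904 4611686018427387904 4611686018427387904 = true := by decide +kernel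

def tB8 : Tr := Tr.sk

theorem cB8 : run runB tB8 20752587082923245568 2305843009213693952 11529215046068469760 2305843009213693952 = true := by decide +kernel

def tB9 : Tr := .s2 (.s3 (.s2 (.s3 (.s2 (.s3 (.s2 .lf .lf) (.s2 .lf .lf)) (.s3 (.s2 .lf .lf) (.s2 .lf .lf))) (.s2 (.s3 (.s2 .lf .lf) (.s2 .lf .lf)) (.s3 (.s2 .lf .lf) (.s2 .lf .lf)))) (.s3 (.s2 (.s3 (.s2 .lf .lf) (.s2 .lf .lf)) (.s3 (.s2 .lf .lf) (.s2 .lf .lf))) (.s2 (.s3 (.s2 .lf .lf) (.s2 .lf .lf)) (.s3 (.s2 .lf .lf) (.s2 .lf .sk))))) (.s2 (.s3 (.s2 (.s3 (.s2 .lf .lf) (.s2 .lf .lf)) (.s3 (.s2 .lf .lf) (.s2 .lf .lf))) (.s2 (.s3 (.s2 .lf .lf) (.s2 .lf .lf)) (.s3 (.s2 .lf .lf) (.s2 .lf .lf)))) (.s3 (.s2 (.s3 (.s2 .lf .lf) (.s2 .lf .lf)) (.s3 (.s2 (.s3 .lf .sk) .sk) .sk)) (.s2 (.s3 (.s2 .lf .lf) (.s2 .lf .sk)) .sk)))) (.s3 (.s2 (.s3 (.s2 (.s3 (.s2 .lf .sk) .sk) .sk) .sk) .sk) .sk)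

theorem cB9 : run runB tB9 20752587082923245568 2305843009213693952 14987979559889010688 1152921504606846976 = true := by decide +kernel

def tB10 : Tr := .s2 (.s3 (.s2 (.s3 (.s2 (.s3 (.s2 .lf .lf) (.s2 .lf .lf)) (.s3 (.s2 .lf .lf) (.s2 .lf .lf))) (.s2 (.s3 (.s2 .lf .lf) (.s2 .lf .lf)) (.s3 (.s2 .lf .lf) (.s2 .lf .sk)))) (.s3 (.s2 (.s3 (.s2 .lf .sk) .sk) .sk) .sk)) (.s2 (.s3 (.s2 (.s3 (.s2 .lf .lf) (.s2 .lf .lf)) (.s3 (.s2 .lf .sk) .sk)) (.s2 (.s3 (.s2 .lf .lf) (.s2 .lf .sk)) .sk)) .sk)) .sk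

theorem cB10 : run runB tB10 20752587082923245568 2305843009213693952 17293822569102704640 1152921504606846976 = true := by decide +kernel

end Vale.Agent.Lib.P154.Neg.Ck
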