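import Vale.Agent.Lib.P154.Neg.CkRuns

/-! Kernel evaluation, run C, part 0. -/

namespace Vale.Agent.Lib.P154.Neg.Ck

set_option maxRecDepth 100000

def tC0 : Tr := Tr.sk

theorem cC0 : run runC tC0 4611686018427387904 4611686018427387904 9223372036854775808 9223372036854775808 = true := by decide +kernel

def tC1 : Tr := Tr.sk

theorem cC1 : run runC tC1 13835058055282163712 4611686018427387904 4611686018427387904 4611686018427387904 = true := by decide +kernel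

def tC2 : Tr := Tr.sk

theorem cC2 : run runC tC2 13835058055282163712 4611686018427387904 11529215046068469760 2305843009213693952 = true := by decide +kernel

def tC3 : Tr := Tr.sk

theorem cC3 : run runC tC3 11529215046068469760 2305843009213693952 16140901064495857664 2305843009213693952 = true := by decide +kernel

def tC4 : Tr := Tr.sk

theorem cC4 : run runC tC4 14987979559889010688 1152921504606846976 14987979559889010688 1152921504606846976 = true := by decide +kernel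

def tC5 : Tr := .s2 .sk (.s3 (.s2 .sk (.s3 (.s2 .sk .lf) (.s2 .lf .lf))) (.s2 (.s3 (.s2 .sk .lf) (.s2 .lf .lf)) (.s3 (.s2 .lf .lf) (.s2 (.s3 .lf .lf) (.s3 .lf .lf)))))

theorem cC5 : run runC tC5 17293822569102704640 1152921504606846976 14411518807585587200 576460752303423488 = true := by decide +kernel

def tC6 : Tr := .s3 (.s2 .sk (.s3 (.s2 .sk .lf) (.s2 .lf (.s3 .lf .lf)))) (.s2 (.s3 (.s2 .sk .lf) (.s2 .lf (.s3 .lf .lf))) (.s3 (.s2 (.s3 .lf .lf) (.s3 .lf .lf)) (.s2 (.s3 .lf .lf) (.s3 .lf .lf))))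

theorem cC6 : run runC tC6 16717361816799281152 576460752303423488 15564440312192434176 576460752303423488 = true := by decide +kernel

def tC7 : Tr := .s3 (.s2 (.s3 (.s2 .lf (.s3 .lf .lf)) (.s2 (.s3 .lf .lf) (.s3 .lf .lf))) (.s3 (.s2 (.s3 .lf .lf) (.s3 .lf .lf)) (.s2 (.s3 .lf .lf) (.s3 .lf (.s2 .lf .lf))))) (.s2 (.s3 (.s2 (.s3 .lf .lf) (.s3 .lf (.s2 .lf .lf))) (.s2 (.s3 (.s2 .lf .lf) (.s2 .lf .lf)) (.s3 (.s2 .lf .lf) (.s2 .lf .lf)))) (.s3 (.s2 (.s3 (.s2 .lf .lf) (.s2 .lf .lf)) (.s3 (.s2 .lf .lf) (.s2 .lf .lf))) (.s2 (.s3 (.s2 .lf .lf) (.s2 .lf .lf)) (.s3 (.s2 .lf .lf) (.s2 .lf .lf)))))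

theorem cC7 : run runC tC7 17870283321406128128 576460752303423488 15564440312192434176 576460752303423488 = true := by decide +kernel

def tC8 : Tr := Tr.sk

theorem cC8 : run runC tC8 14987979559889010688 1152921504606846976 17293822569102704640 1152921504606846976 = true := by decide +kernel

def tC9 : Tr := .s3 (.s2 (.s3 (.s2 (.s3 .lf .lf) (.s3 .lf .lf)) (.s2 .sk (.s3 .lf (.s2 .sk .lf)))) (.s3 (.s2 (.s3 .lf (.s2 .lf .lf)) (.s3 (.s2 .lf .lf) (.s2 .lf .lf))) (.s2 (.s3 (.s2 .lf .lf) (.s2 .lf .lf)) (.s3 (.s2 .lf .lf) (.s2 .lf .lf))))) (.s2 .sk (.s3 (.s2 (.s3 (.s2 .lf .lf) (.s2 .sk .lf)) (.s3 (.s2 .lf .lf) (.s2 .lf .lf))) (.s2 .sk (.s3 (.s2 .lf (.s3 .lf .lf)) (.s2 .sk (.s3 .lf .lf))))))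

theorem cC9 : run runC tC9 16717361816799281152 576460752303423488 16717361816799281152 576460752303423488 = true := by decide +kernel

def tC10 : Tr := .s2 (.s3 (.s2 (.s3 (.s2 .lf .lf) (.s2 .lf .lf)) (.s3 (.s2 .lf .lf) (.s2 .lf .lf))) (.s2 (.s3 (.s2 .lf .lf) (.s2 .lf .lf)) (.s3 (.s2 .lf .lf) (.s2 (.s3 .lf .lf) (.s3 .lf .lf))))) (.s3 (.s2 (.s3 (.s2 .lf .lf) (.s2 .lf (.s3 .lf .lf))) (.s3 (.s2 .lf (.s3 .lf .lf)) (.s2 (.s3 .lf .lf) (.s3 .lf .lf)))) (.s2 (.s3 (.s2 (.s3 .lf .lf) (.s3 .lf .lf)) (.s2 (.s3 .lf .lf) (.s3 .lf .lf))) (.s3 (.s2 (.s3 .lf .lf) (.s3 .lf .lf)) (.s2 (.s3 .lf .lf) (.s3 .lf (.s2 .lf .lf))))))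

theorem cC10 : run runC tC10 17870283321406128128 576460752303423488 16429131440647569408 288230376151711744 = true := by decide +kernel

end Vale.Agent.Lib.P154.Neg.Ck
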