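import Vale.Agent.Lib.P154.Neg.CkRuns

/-! Kernel evaluation, run C, part 13. -/

namespace Vale.Agent.Lib.P154.Neg.Ck

set_option maxRecDepth 100000

def tC69 : Tr := .s3 (.s2 (.s3 (.s2 (.s3 (.s2 (.s3 (.s2 .lf .sk) .sk) .sk) .sk) .sk) .sk) .sk) .sk

theorem cC69 : run runC tC69 18428729675200069632 18014398509481984 18356672081162141696 18014398509481984 = true := by decide +kernel

def tC70 : Tr := .s2 .sk (.s3 (.s2 (.s3 (.s2 (.s3 (.s2 (.s3 (.s2 (.s3 (.s2 .lf .sk) .sk) .sk) .sk) .sk) .sk) .sk) .sk) .sk) .sk)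

theorem cC70 : run runC tC70 18374686479671623680 72057594037927936 18410715276690587648 36028797018963968 = true := by decide +kernel

def tC71 : Tr := Tr.sk

theorem cC71 : run runC tC71 9223372036854775808 9223372036854775808 27670116110564327424 9223372036854775808 = true := by decide +kernel

def tC72 : Tr := Tr.sk

theorem cC72 : run runC tC72 23058430092136939520 4611686018427387904 4611686018427387904 4611686018427387904 = true := by decide +kernel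

def tC73 : Tr := Tr.sk

theorem cC73 : run runC tC73 20752587082923245568 2305843009213693952 11529215046068469760 2305843009213693952 = true := by decide +kernel

def tC74 : Tr := .s2 (.s3 (.s2 (.s3 (.s2 .lf .lf) (.s2 .lf .lf)) (.s3 (.s2 .lf .lf) (.s2 .lf (.s3 .lf .lf)))) (.s2 (.s3 (.s2 .lf (.s3 .lf .lf)) (.s2 (.s3 .lf .lf) (.s3 .lf .lf))) (.s3 (.s2 (.s3 .lf .lf) (.s3 .lf .lf)) (.s2 (.s3 .lf .lf) (.s3 .lf .lf))))) (.s3 (.s2 (.s3 (.s2 .lf .lf) (.s2 (.s3 .lf .lf) (.s3 .lf .lf))) (.s3 (.s2 .lf .lf) (.s2 (.s3 .lf .lf) (.s3 .lf .lf)))) (.s2 (.s3 (.s2 (.s3 .lf .lf) (.s3 .lf .lf)) (.s2 (.s3 .lf .lf) (.s3 .lf .lf))) (.s3 (.s2 (.s3 .lf .lf) (.s3 .lf .sk)) (.s2 (.s3 .lf .lf) .sk))))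

theorem cC74 : run runC tC74 19599665578316398592 1152921504606846976 14411518807585587200 576460752303423488 = true := by decide +kernel

def tC75 : Tr := .s2 (.s3 (.s2 (.s3 .lf .lf) (.s3 .lf .lf)) (.s2 (.s3 (.s2 .lf .lf) (.s2 .lf .lf)) (.s3 (.s2 .lf .lf) (.s2 .lf .lf)))) (.s3 (.s2 (.s3 .lf (.s2 .lf .lf)) (.s3 .lf (.s2 .lf .lf))) (.s2 (.s3 (.s2 .lf .lf) (.s2 .lf .lf)) (.s3 (.s2 .lf .lf) (.s2 .lf .lf))))

theorem cC75 : run runC tC75 19023204826012975104 576460752303423488 15276209936040722432 288230376151711744 = true := by decide +kernel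

def tC76 : Tr := .s2 (.s3 (.s2 (.s3 (.s2 .lf .lf) (.s2 .lf .lf)) (.s3 (.s2 .lf .lf) (.s2 .lf .lf))) (.s2 (.s3 (.s2 .lf .lf) (.s2 .lf .lf)) (.s3 (.s2 .lf .lf) (.s2 (.s3 .lf .lf) (.s3 .lf .lf))))) (.s3 (.s2 (.s3 (.s2 .lf .lf) (.s2 .lf .lf)) (.s3 (.s2 .lf .lf) (.s2 .lf .lf))) (.s2 (.s3 (.s2 .lf (.s3 .lf .lf)) (.s2 (.s3 .lf .lf) (.s3 .lf .lf))) (.s3 (.s2 (.s3 .lf .lf) (.s3 .lf .lf)) (.s2 (.s3 .lf .lf) (.s3 .lf .lf)))))

theorem cC76 : run runC tC76 19023204826012975104 576460752303423488 15852670688344145920 288230376151711744 = true := by decide +kernel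

def tC77 : Tr := .s3 (.s2 (.s3 (.s2 (.s3 (.s2 .lf .lf) (.s2 .lf .lf)) (.s3 (.s2 .lf .lf) (.s2 .lf .lf))) (.s2 (.s3 (.s2 .lf .lf) (.s2 .lf .lf)) (.s3 (.s2 .lf .lf) (.s2 .lf .sk)))) (.s3 (.s2 (.s3 (.s2 .lf .sk) .sk) .sk) .sk)) (.s2 (.s3 (.s2 (.s3 (.s2 .lf .lf) (.s2 .lf .lf)) (.s3 (.s2 .lf .sk) .sk)) (.s2 (.s3 (.s2 (.s3 .lf .lf) (.s3 .lf .sk)) (.s2 (.s3 .lf .lf) .sk)) .sk)) .sk)

theorem cC77 : run runC tC77 20176126330619822080 576460752303423488 15564440312192434176 576460752303423488 = true := by decide +kernel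

def tC78 : Tr := .s3 (.s2 (.s3 (.s2 (.s3 (.s2 .lf .sk) .sk) .sk) .sk) .sk) .sk

theorem cC78 : run runC tC78 21905508587530092544 1152921504606846976 14987979559889010688 1152921504606846976 = true := by decide +kernel

def tC79 : Tr := .s3 (.s2 (.s3 (.s2 (.s3 .lf .lf) (.s3 .lf .lf)) (.s2 (.s3 .lf .lf) (.s3 .lf .lf))) (.s3 (.s2 (.s3 .lf .lf) (.s3 .lf .lf)) (.s2 (.s3 .lf .lf) (.s3 .lf .lf)))) (.s2 (.s3 (.s2 (.s3 .lf .lf) (.s3 .lf (.s2 .lf .lf))) (.s2 (.s3 (.s2 .lf .lf) (.s2 .lf .lf)) (.s3 (.s2 .lf .lf) (.s2 .lf .lf)))) (.s3 (.s2 (.s3 .lf (.s2 .lf .lf)) (.s3 (.s2 .lf .lf) (.s2 .lf .lf))) (.s2 (.s3 (.s2 .lf .lf) (.s2 .lf .lf)) (.s3 (.s2 .lf .lf) (.s2 .lf .lf)))))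

theorem cC79 : run runC tC79 18734974449861263360 288230376151711744 16429131440647569408 288230376151711744 = true := by decide +kernel

end Vale.Agent.Lib.P154.Neg.Ck
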