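import Vale.Agent.Lib.P154.Neg.CkRuns

/-! Kernel evaluation, run C, part 15. -/

namespace Vale.Agent.Lib.P154.Neg.Ck

set_option maxRecDepth 100000

def tC84 : Tr := .s3 (.s2 (.s3 (.s2 (.s3 (.s2 .lf .lf) (.s2 .lf .lf)) (.s3 (.s2 .lf .lf) (.s2 .lf .lf))) (.s2 (.s3 (.s2 .lf .lf) (.s2 (.s3 .lf .lf) (.s3 .lf .lf))) (.s3 (.s2 .lf .lf) (.s2 (.s3 .lf .lf) .sk)))) (.s3 (.s2 (.s3 (.s2 .lf .sk) .sk) .sk) .sk)) (.s2 (.s3 (.s2 (.s3 (.s2 (.s3 .lf .lf) (.s3 .lf .lf)) (.s2 (.s3 .lf .lf) (.s3 .lf .lf))) (.s3 (.s2 (.s3 .lf .sk) .sk) .sk)) (.s2 (.s3 (.s2 (.s3 .lf .lf) (.s3 .lf .sk)) (.s2 (.s3 (.s2 .lf .lf) (.s2 .lf .sk)) .sk)) .sk)) .sk)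

theorem cC84 : run runC tC84 19311435202164686848 288230376151711744 17005592192950992896 288230376151711744 = true := by decide +kernel

def tC85 : Tr := .s3 (.s2 (.s3 (.s2 (.s3 (.s2 (.s3 .lf .sk) .sk) .sk) .sk) .sk) .sk) .sk

theorem cC85 : run runC tC85 20176126330619822080 576460752303423488 16717361816799281152 576460752303423488 = true := by decide +kernel

def tC86 : Tr := .s2 (.s3 (.s2 (.s3 .lf (.s2 .lf .lf)) (.s3 (.s2 .lf .lf) (.s2 .lf .lf))) (.s2 (.s3 (.s2 .lf .lf) (.s2 .lf .lf)) (.s3 (.s2 .lf .lf) (.s2 .lf .lf)))) (.s3 (.s2 (.s3 (.s2 .lf .lf) (.s2 .lf .lf)) (.s3 (.s2 .lf .lf) (.s2 .lf .lf))) (.s2 (.s3 (.s2 .lf .lf) (.s2 .lf .lf)) (.s3 (.s2 .lf .lf) (.s2 .lf .lf))))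

theorem cC86 : run runC tC86 18590859261785407488 144115188075855872 17365880163140632576 72057594037927936 = true := by decide +kernel

def tC87 : Tr := .s2 (.s3 (.s2 (.s3 (.s2 .lf .lf) (.s2 .lf .lf)) (.s3 (.s2 .lf .lf) (.s2 .lf .lf))) (.s2 (.s3 (.s2 .lf .lf) (.s2 .lf .lf)) (.s3 (.s2 .lf .lf) (.s2 .lf .lf)))) (.s3 (.s2 (.s3 (.s2 .lf .lf) (.s2 .lf .lf)) (.s3 (.s2 .lf .lf) (.s2 .lf .lf))) (.s2 (.s3 (.s2 .lf .lf) (.s2 .lf (.s3 .lf .lf))) (.s3 (.s2 .lf .lf) (.s2 (.s3 .lf .lf) (.s3 .lf .lf)))))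

theorem cC87 : run runC tC87 18590859261785407488 144115188075855872 17509995351216488448 72057594037927936 = true := by decide +kernel

def tC88 : Tr := .s2 (.s3 (.s2 (.s3 (.s2 .lf .lf) (.s2 .lf .lf)) (.s3 (.s2 .lf .lf) (.s2 .lf .lf))) (.s2 (.s3 (.s2 .lf .lf) (.s2 .lf .lf)) (.s3 (.s2 .lf .lf) (.s2 .lf .lf)))) (.s3 (.s2 (.s3 (.s2 .lf .lf) (.s2 .lf .lf)) (.s3 (.s2 .lf .lf) (.s2 .lf .lf))) (.s2 (.s3 (.s2 .lf .lf) (.s2 .lf .lf)) (.s3 (.s2 .lf .lf) (.s2 .lf .sk))))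

theorem cC88 : run runC tC88 18879089637937119232 144115188075855872 17365880163140632576 72057594037927936 = true := by decide +kernel

def tC89 : Tr := .s2 (.s3 (.s2 (.s3 (.s2 .lf .lf) (.s2 .lf .lf)) (.s3 (.s2 .lf .lf) (.s2 .lf .lf))) (.s2 (.s3 (.s2 .lf .lf) (.s2 (.s3 .lf .lf) (.s3 .lf .lf))) (.s3 (.s2 .lf (.s3 .lf .lf)) (.s2 (.s3 .lf .lf) (.s3 .lf .lf))))) (.s3 (.s2 (.s3 (.s2 .lf .lf) (.s2 .lf .lf)) (.s3 (.s2 .lf .sk) .sk)) (.s2 (.s3 (.s2 (.s3 .lf .lf) (.s3 .lf .sk)) (.s2 (.s3 .lf .lf) .sk)) .sk))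

theorem cC89 : run runC tC89 18879089637937119232 144115188075855872 17509995351216488448 72057594037927936 = true := by decide +kernel

end Vale.Agent.Lib.P154.Neg.Ck
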