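import Vale.Agent.Lib.P154.Neg.CkRuns

/-! Kernel evaluation, run D, part 0. -/

namespace Vale.Agent.Lib.P154.Neg.Ck

set_option maxRecDepth 100000

def tD0 : Tr := Tr.sk

theorem cD0 : run runD tD0 4611686018427387904 4611686018427387904 9223372036854775808 9223372036854775808 = true := by decide +kernel

def tD1 : Tr := Tr.sk

theorem cD1 : run runD tD1 13835058055282163712 4611686018427387904 4611686018427387904 4611686018427387904 = true := by decide +kernel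

def tD2 : Tr := .s2 .sk (.s3 (.s2 .sk (.s3 (.s2 .sk (.s3 .lf .lf)) (.s2 (.s3 .lf .lf) (.s3 .lf (.s2 .lf .lf))))) (.s2 (.s3 (.s2 .sk (.s3 .lf (.s2 .lf .lf))) (.s2 (.s3 (.s2 .sk .lf) (.s2 .lf .lf)) (.s3 (.s2 .lf .lf) (.s2 .lf .lf)))) (.s3 (.s2 (.s3 (.s2 .lf .lf) (.s2 .lf .lf)) (.s3 (.s2 .lf .lf) (.s2 .lf .lf))) (.s2 (.s3 (.s2 .lf .lf) (.s2 (.s3 .lf .lf) (.s3 .lf .lf))) (.s3 (.s2 (.s3 .lf .lf) (.s3 .lf .lf)) (.s2 (.s3 .lf .lf) (.s3 .lf (.s2 .lf .lf))))))))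

theorem cD2 : run runD tD2 13835058055282163712 4611686018427387904 11529215046068469760 2305843009213693952 = true := by decide +kernel

def tD3 : Tr := .s2 .sk (.s3 (.s2 (.s3 (.s2 (.s3 (.s2 .lf .lf) (.s2 .sk .lf)) (.s3 (.s2 .lf (.s3 .lf .lf)) (.s2 (.s3 .lf .lf) (.s3 .lf .lf)))) (.s2 .sk (.s3 (.s2 (.s3 .lf .lf) (.s3 (.s2 .lf .lf) (.s2 .lf .lf))) (.s2 .sk (.s3 (.s2 .lf .lf) (.s2 .sk .lf)))))) (.s3 (.s2 (.s3 (.s2 (.s3 .lf .lf) (.s3 .lf (.s2 .lf .lf))) (.s2 (.s3 (.s2 .lf .lf) (.s2 .lf .lf)) (.s3 (.s2 .lf .lf) (.s2 .lf .lf)))) (.s3 (.s2 (.s3 (.s2 .lf .lf) (.s2 .lf .lf)) (.s3 (.s2 .lf .lf) (.s2 .lf .lf))) (.s2 (.s3 (.s2 .lf .lf) (.s2 .lf .lf)) (.s3 (.s2 .lf .sk) .sk)))) (.s2 (.s3 (.s2 (.s3 (.s2 .lf .lf) (.s2 .lf .lf)) (.s3 (.s2 .lf .lf) (.s2 .lf (.s3 .lf .sk)))) (.s2 (.s3 (.s2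 .lf .lf) (.s2 .lf (.s3 .lf .sk))) (.s3 (.s2 (.s3 .lf .sk) .sk) .sk))) (.s3 (.s2 (.s3 (.s2 .lf .sk) .sk) .sk) .sk)))) (.s2 .sk (.s3 (.s2 (.s3 (.s2 (.s3 (.s2 (.s3 .lf .sk) .sk) .sk) .sk) .sk) .sk) .sk)))

theorem cD3 : run runD tD3 13835058055282163712 4611686018427387904 16140901064495857664 2305843009213693952 = true := by decide +kernel

def tD4 : Tr := Tr.sk

theorem cD4 : run runD tD4 9223372036854775808 9223372036854775808 27670116110564327424 9223372036854775808 = true := by decide +kernel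

def tD5 : Tr := .s3 (.s3 (.s3 (.s3 (.s3 (.s3 (.s3 (.s3 (.s3 (.s3 (.s3 (.s3 (.s3 (.s3 (.s3 (.s3 (.s3 (.s3 (.s3 (.s3 (.s3 (.s3 (.s3 (.s3 (.s3 (.s3 (.s3 (.s3 (.s3 (.s3 (.s3 (.s3 (.s3 (.s3 (.s3 (.s3 (.s3 (.s3 (.s3 (.s3 (.s3 (.s3 (.s3 (.s3 (.s2 .sk (.s2 .sk .lf)) (.s2 .sk (.s2 .sk .lf))) (.s2 .sk (.s2 .sk .lf))) (.s2 .sk (.s2 .sk .lf))) (.s2 .sk (.s2 .sk .lf))) (.s2 .sk (.s2 .sk .lf))) (.s2 .sk (.s2 .sk .lf))) (.s2 .sk (.s2 .sk .lf))) (.s2 .sk (.s2 .sk .lf))) (.s2 .sk (.s2 .sk .lf))) (.s2 .sk (.s2 .sk .lf))) (.s2 .sk (.s2 .sk .lf))) (.s2 .sk (.s2 .sk .lf))) (.s2 .sk (.s2 .sk .lf))) (.s2 .sk (.s2 .sk .lf))) (.s2 .sk (.s2 .sk .lf))) (.s2 .sk (.s2 .sk .lf))) (.s2 .sk (.s2 .sk .lf))) (.s2 .sk (.s2 .sk .lf))) (.s2 .sk (.s2 .sk .lf))) (.s2 .sk (.s2 .sk .lf))) (.s2 .sk (.s2 .sk .lf)))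 (.s2 .sk (.s2 .sk .lf))) (.s2 .sk (.s2 .sk .lf))) (.s2 .sk (.s2 .sk .lf))) (.s2 .sk (.s2 .sk .lf))) (.s2 .sk (.s2 .sk .lf))) (.s2 .sk (.s2 .sk .lf))) (.s2 .sk (.s2 .sk .lf))) (.s2 .sk (.s2 .sk .lf))) (.s2 .sk (.s2 .sk .lf))) (.s2 .sk (.s2 .sk .lf))) (.s2 .sk (.s2 .sk .lf))) (.s2 .sk (.s2 .sk (.s2 .sk .lf)))) (.s2 .sk (.s2 .sk (.s2 .sk (.s2 .sk (.s3 .lf .lf)))))) (.s2 .sk (.s2 .sk (.s2 .sk (.s2 .sk (.s3 .lf .lf)))))) (.s2 .sk (.s2 .sk (.s2 .sk (.s3 (.s2 .sk .lf) .lf))))) (.s2 .sk (.s2 .sk (.s2 .sk (.s3 .lf .lf))))) (.s2 .sk (.s2 .sk (.s2 .sk (.s3 .lf .lf))))) (.s2 .sk (.s2 .sk (.s3 .lf .lf)))) (.s2 .sk (.s2 .sk (.s3 .lf .lf)))) (.s2 .sk (.s2 .sk (.s3 .lf .lf)))) (.s2 .sk (.s2 .sk (.s3 (.s3 .lf (.s2 .sk .lf)) (.s2 .sk .lf))))) (.s2 .sk (.s3 (.s2 .sk (.s3 (.s2 .sk .lf) .lf)) (.s2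 .sk .lf)))) (.s2 .sk (.s3 (.s2 .sk .lf) (.s2 .sk .lf)))

theorem cD5 : run runD tD5 23058430092136939520 4611686018427387904 576460752303423488 576460752303423488 = true := by decide +kernel

end Vale.Agent.Lib.P154.Neg.Ck
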