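import Vale.Agent.Lib.P154.Neg.CkRuns

/-! Kernel evaluation, run D, part 1. -/

namespace Vale.Agent.Lib.P154.Neg.Ck

set_option maxRecDepth 100000

def tD6 : Tr := .s2 .sk (.s3 (.s2 .sk (.s3 .lf .lf)) (.s2 .sk .lf))

theorem cD6 : run runD tD6 23058430092136939520 4611686018427387904 1729382256910270464 576460752303423488 = true := by decide +kernel

def tD7 : Tr := .s2 .sk (.s3 (.s3 (.s2 .lf .lf) (.s2 .lf .lf)) (.s2 (.s3 .lf .lf) (.s3 .lf .lf)))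

theorem cD7 : run runD tD7 23058430092136939520 4611686018427387904 3458764513820540928 1152921504606846976 = true := by decide +kernel

def tD8 : Tr := .s3 (.s2 (.s3 (.s2 .sk (.s3 (.s2 .sk .lf) (.s2 .sk .lf))) (.s2 .sk (.s3 (.s2 .lf .lf) (.s2 .lf .lf)))) (.s3 (.s2 (.s3 (.s2 .lf .lf) (.s2 .lf .lf)) (.s3 (.s2 .lf .sk) .sk)) (.s2 (.s3 (.s2 .lf .lf) (.s2 .lf .lf)) .sk))) (.s2 (.s2 (.s3 (.s2 .sk (.s3 .lf .lf)) (.s2 (.s3 .lf .lf) (.s3 .lf .lf))) (.s3 (.s3 (.s2 .lf .lf) (.s2 .lf .lf)) (.s2 (.s3 .lf .lf) (.s3 .lf .lf)))) (.s3 (.s2 (.s3 (.s2 .lf .lf) (.s2 .lf .sk)) .sk) (.s2 (.s3 (.s2 .lf .sk) (.s2 .lf .sk)) .sk)))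

theorem cD8 : run runD tD8 23058430092136939520 4611686018427387904 6917529027641081856 2305843009213693952 = true := by decide +kernel

def tD9 : Tr := .s2 (.s3 (.s2 (.s3 .lf .lf) (.s3 .lf .lf)) (.s2 (.s3 .lf (.s2 .lf .lf)) (.s3 (.s2 .lf .lf) (.s2 .lf .lf)))) (.s3 (.s2 (.s3 .lf .lf) (.s3 .lf .lf)) (.s2 (.s3 (.s2 .lf .lf) (.s2 .lf .lf)) (.s3 (.s2 .lf .lf) (.s2 .lf .sk))))

theorem cD9 : run runD tD9 20752587082923245568 2305843009213693952 10376293541461622784 1152921504606846976 = true := by decide +kernel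

def tD10 : Tr := .s2 (.s3 (.s2 (.s3 (.s2 .lf .lf) (.s2 (.s3 .lf .lf) (.s3 .lf .lf))) (.s3 (.s2 .lf (.s3 .lf .lf)) (.s2 (.s3 .lf .lf) (.s3 .lf .lf)))) (.s2 (.s3 (.s2 (.s3 .lf .lf) (.s3 .lf .lf)) (.s2 (.s3 .lf (.s2 .lf .lf)) (.s3 (.s2 .lf .lf) (.s2 .lf .lf)))) (.s3 (.s2 (.s3 .lf .lf) (.s3 .lf (.s2 .lf .lf))) (.s2 (.s3 (.s2 .lf .lf) (.s2 .lf .lf)) (.s3 (.s2 .lf .lf) (.s2 .lf .lf)))))) (.s3 (.s2 (.s3 (.s2 (.s3 .lf .lf) (.s3 .lf .lf)) (.s2 (.s3 .lf .lf) (.s3 .lf .lf))) (.s3 (.s2 (.s3 .lf .sk) .sk) .sk)) (.s2 (.s3 (.s2 (.s3 .lf (.s2 .lf .lf)) (.s3 .lf .sk)) (.s2 (.s3 (.s2 .lf .lf) (.s2 .lf .sk)) .sk)) .sk))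

theorem cD10 : run runD tD10 20752587082923245568 2305843009213693952 12682136550675316736 1152921504606846976 = true := by decide +kernel

def tD11 : Tr := .s3 (.s2 (.s3 (.s2 (.s3 (.s2 (.s3 (.s2 .lf .lf) .sk) (.s3 (.s2 .lf .lf) .sk)) .sk) (.s3 (.s2 (.s3 (.s2 .lf .lf) .sk) (.s3 (.s2 .lf .lf) .sk)) .sk)) .sk) (.s3 (.s2 (.s3 (.s2 (.s3 (.s2 .lf .sk) .sk) .sk) .sk) .sk) .sk)) .sk

theorem cD11 : run runD tD11 20752587082923245568 2305843009213693952 16140901064495857664 2305843009213693952 = true := by decide +kernel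

def tD12 : Tr := .s3 (.s3 (.s2 (.s3 (.s2 (.s3 .lf .sk) .sk) .sk) .sk) .sk) .sk

theorem cD12 : run runD tD12 25364273101350633472 2305843009213693952 13835058055282163712 4611686018427387904 = true := by decide +kernel

def tD13 : Tr := .s3 (.s2 (.s3 (.s3 (.s3 (.s3 (.s3 (.s3 (.s3 (.s3 (.s3 (.s3 (.s3 (.s3 (.s3 (.s3 (.s3 (.s3 (.s3 (.s3 (.s3 (.s3 (.s3 (.s3 (.s3 (.s3 (.s3 (.s3 (.s3 (.s3 (.s3 (.s3 (.s3 (.s3 (.s3 (.s3 (.s3 (.s3 (.s3 (.s3 (.s3 (.s3 (.s3 (.s3 (.s3 (.s3 (.s3 (.s3 (.s3 (.s2 .lf .sk) .sk) .sk) .sk) .sk) .sk) .sk) .sk) .sk) .sk) .sk) .sk) .sk) .sk) .sk) .sk) .sk) .sk) .sk) .sk) .sk) .sk) .sk) .sk) .sk) .sk) .sk) .sk) .sk) .sk) .sk) .sk) .sk) .sk) .sk) .sk) .sk) .sk) .sk) .sk) .sk) .sk) .sk) .sk) .sk) .sk) .sk) .sk) .sk) .sk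

theorem cD13 : run runD tD13 32281802128991715328 4611686018427387904 9223372036854775808 9223372036854775808 = true := by decide +kernel

def tD14 : Tr := .s2 (.s3 (.s2 (.s3 (.s3 (.s2 .sk .sk) .sk) .sk) .sk) .sk) .sk

theorem cD14 : run runD tD14 27670116110564327424 9223372036854775808 27670116110564327424 9223372036854775808 = true := by decide +kernel

end Vale.Agent.Lib.P154.Neg.Ck
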