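import Vale.Agent.Lib.P154.Neg.CkRuns

/-! Kernel evaluation, run K, part 0. -/

namespace Vale.Agent.Lib.P154.Neg.Ck

set_option maxRecDepth 100000

def tK0 : Tr := .s3 (.s2 .sk (.s3 .sk (.s3 (.s2 .sk (.s3 (.s2 .sk (.s3 .lf .lf)) (.s2 (.s3 .lf (.s2 .lf .lf)) (.s3 (.s2 .lf .lf) (.s2 .lf .lf))))) (.s2 .sk (.s3 (.s2 (.s3 (.s2 .lf .lf) (.s2 .sk .lf)) (.s3 (.s2 .lf .lf) (.s2 (.s3 .lf .lf) (.s3 .lf .lf)))) (.s2 .sk (.s3 (.s2 (.s3 .lf (.s2 .sk .lf)) (.s3 (.s2 .lf .lf) (.s2 .lf (.s3 .lf .lf)))) (.s2 .sk (.s3 (.s2 (.s3 .lf .lf) (.s3 .lf (.s2 .lf .lf))) (.s2 .sk (.s3 (.s2 .lf (.s3 .lf (.s2 .lf .lf))) (.s2 .sk (.s3 (.s2 .lf (.s3 .lf .lf)) (.s2 .sk (.s3 (.s2 .lf (.s3 .lf .lf)) (.s2 .sk (.s3 (.s2 .lf .sk) .sk))))))))))))))))) .sk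

theorem cK0 : run runK tK0 9223372036854775808 9223372036854775808 18446744073709551616 18446744073709551616 = true := by decide +kernel

def tK1 : Tr := .s3 (.s3 (.s3 (.s3 (.s3 (.s3 (.s3 (.s3 (.s3 (.s3 (.s3 (.s3 (.s3 (.s3 (.s3 (.s3 (.s3 (.s3 (.s3 (.s3 (.s3 (.s3 (.s3 (.s3 (.s3 (.s3 (.s3 (.s3 (.s3 (.s3 (.s3 (.s3 (.s3 (.s3 (.s3 (.s3 (.s3 (.s3 (.s3 (.s3 (.s3 (.s3 (.s3 (.s3 (.s3 (.s3 .lf .lf) .lf) .lf) .lf) .lf) .lf) .lf) .lf) .lf) .lf) .lf) .lf) .lf) .lf) .lf) .lf) .lf) .lf) .lf) .lf) .lf) .lf) .lf) .lf) .lf) .lf) .lf) .lf) .lf) .lf) .lf) .lf) .lf) .lf) .lf) .lf) .lf) .lf) .lf) .lf) .lf) .lf) (.s2 .sk .lf)) (.s2 .sk (.s3 .lf .lf))) (.s2 .sk (.s3 .lf .lf))) (.s2 .sk (.s3 (.s3 .lf .lf) .lf))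

theorem cK1 : run runK tK1 23058430092136939520 4611686018427387904 2305843009213693952 2305843009213693952 = true := by decide +kernel

def tK2 : Tr := .s3 (.s2 (.s3 .lf (.s2 .sk .lf)) (.s3 .lf (.s2 .lf .sk))) (.s2 (.s2 (.s3 .lf .lf) (.s3 .lf .lf)) (.s3 (.s2 .lf .sk) (.s2 .lf .sk)))

theorem cK2 : run runK tK2 23058430092136939520 4611686018427387904 6917529027641081856 2305843009213693952 = true := by decide +kernel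

def tK3 : Tr := .s2 (.s3 (.s3 (.s2 (.s3 .lf .lf) (.s3 .lf .lf)) (.s2 (.s3 (.s2 .lf .lf) (.s2 .lf .lf)) (.s3 (.s2 .lf .lf) (.s2 .lf .sk)))) (.s3 (.s2 (.s3 (.s2 (.s3 .lf .lf) (.s3 .lf .lf)) (.s2 (.s3 .lf (.s2 .lf .lf)) (.s3 .lf (.s2 .lf .sk)))) (.s3 (.s2 (.s3 .lf .sk) .sk) .sk)) (.s2 (.s3 (.s2 (.s3 (.s2 .lf .lf) (.s2 (.s3 .lf .lf) (.s3 .lf .lf))) (.s3 (.s2 .lf .sk) .sk)) (.s2 (.s3 (.s2 (.s3 (.s2 .lf .lf) (.s2 .lf .lf)) (.s3 (.s2 .lf .sk) .sk)) (.s2 (.s3 (.s2 (.s3 .lf (.s2 .lf .lf)) (.s3 .lf .sk)) (.s2 (.s3 (.s2 (.s3 .lf .lf) (.s3 .lf .sk)) (.s2 (.s3 (.s2 (.s3 .lf .sk) .lf) .sk) .sk)) .sk)) .sk)) .sk)) .sk))) (.s3 (.s3 (.s2 (.s3 .lf .sk) .sk) .sk) .sk)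

theorem cK3 : run runK tK3 23058430092136939520 4611686018427387904 13835058055282163712 4611686018427387904 = true := by decide +kernel

def tK4 : Tr := .s3 (.s2 (.s3 (.s3 (.s3 (.s3 (.s3 (.s3 (.s3 (.s3 (.s3 (.s3 (.s3 (.s3 (.s3 (.s3 (.s3 (.s3 (.s3 (.s3 (.s3 (.s3 (.s3 (.s3 (.s3 (.s3 (.s3 (.s3 (.s3 (.s3 (.s3 (.s3 (.s3 (.s3 (.s3 (.s3 (.s3 (.s3 (.s3 (.s3 (.s3 (.s3 (.s3 (.s3 (.s3 (.s3 (.s3 (.s3 (.s3 .lf .sk) .sk) .sk) .sk) .sk) .sk) .sk) .sk) .sk) .sk) .sk) .sk) .sk) .sk) .sk) .sk) .sk) .sk) .sk) .sk) .sk) .sk) .sk) .sk) .sk) .sk) .sk) .sk) .sk) .sk) .sk) .sk) .sk) .sk) .sk) .sk) .sk) .sk) .sk) .sk) .sk) .sk) .sk) .sk) .sk) .sk) .sk) .sk) .sk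

theorem cK4 : run runK tK4 32281802128991715328 4611686018427387904 9223372036854775808 9223372036854775808 = true := by decide +kernel

def tK5 : Tr := .s2 (.s3 (.s2 (.s3 (.s3 (.s2 (.s3 (.s2 (.s3 (.s2 (.s3 (.s2 (.s3 (.s2 (.s3 (.s2 .sk .sk) .sk) .sk) .sk) .sk) .sk) .sk) .sk) .sk) .sk) .sk) .sk) .sk) .sk) .sk) .sk

theorem cK5 : run runK tK5 27670116110564327424 9223372036854775808 27670116110564327424 9223372036854775808 = true := by decide +kernel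

end Vale.Agent.Lib.P154.Neg.Ck
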