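import Vale.Agent.Lib.P154.Neg.CkRuns

/-! Kernel evaluation, run M, part 0. -/

namespace Vale.Agent.Lib.P154.Neg.Ck

set_option maxRecDepth 100000

def tM0 : Tr := Tr.sk

theorem cM0 : run runM tM0 4611686018427387904 4611686018427387904 9223372036854775808 9223372036854775808 = true := by decide +kernel

def tM1 : Tr := Tr.sk

theorem cM1 : run runM tM1 13835058055282163712 4611686018427387904 4611686018427387904 4611686018427387904 = true := by decide +kernel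

def tM2 : Tr := Tr.sk

theorem cM2 : run runM tM2 13835058055282163712 4611686018427387904 11529215046068469760 2305843009213693952 = true := by decide +kernel

def tM3 : Tr := Tr.sk

theorem cM3 : run runM tM3 11529215046068469760 2305843009213693952 16140901064495857664 2305843009213693952 = true := by decide +kernel

def tM4 : Tr := .s2 .sk (.s3 (.s2 .sk (.s3 (.s2 .sk (.s3 .lf .lf)) (.s2 (.s3 .lf (.s2 .lf .lf)) (.s3 (.s2 .lf .lf) (.s2 .lf .lf))))) (.s2 (.s3 (.s2 .sk (.s3 (.s2 .sk .lf) (.s2 .lf .lf))) (.s2 (.s3 (.s2 .sk .lf) (.s2 .lf .lf)) (.s3 (.s2 .lf .lf) (.s2 .lf .lf)))) (.s3 (.s2 (.s3 (.s2 .lf .lf) (.s2 .lf .lf)) (.s3 (.s2 .lf .lf) (.s2 .lf .lf))) (.s2 (.s3 (.s2 .lf .lf) (.s2 .lf .lf)) (.s3 (.s2 .lf (.s3 .lf .lf)) (.s2 (.s3 .lf .lf) (.s3 .lf .lf)))))))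

theorem cM4 : run runM tM4 16140901064495857664 2305843009213693952 14987979559889010688 1152921504606846976 = true := by decide +kernel

def tM5 : Tr := Tr.sk

theorem cM5 : run runM tM5 14987979559889010688 1152921504606846976 17293822569102704640 1152921504606846976 = true := by decide +kernel

def tM6 : Tr := .s3 (.s2 (.s3 (.s2 .lf .lf) (.s2 .sk .lf)) (.s3 (.s2 .lf .lf) (.s2 .lf (.s3 .lf .lf)))) (.s2 .sk (.s3 (.s2 (.s3 .lf .lf) (.s3 .lf .lf)) (.s2 .sk (.s3 .lf .lf))))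

theorem cM6 : run runM tM6 16717361816799281152 576460752303423488 16717361816799281152 576460752303423488 = true := by decide +kernel

def tM7 : Tr := .s3 (.s2 (.s3 (.s2 (.s3 .lf .lf) (.s3 .lf .lf)) (.s2 (.s3 .lf .lf) (.s3 .lf .lf))) (.s3 (.s2 (.s3 .lf .lf) (.s3 .lf .lf)) (.s2 (.s3 .lf (.s2 .lf .lf)) (.s3 (.s2 .lf .lf) (.s2 .lf .lf))))) (.s2 (.s3 (.s2 (.s3 .lf .lf) (.s3 .lf (.s2 .lf .lf))) (.s2 (.s3 (.s2 .lf .lf) (.s2 .lf .lf)) (.s3 (.s2 .lf .lf) (.s2 .lf .lf)))) (.s3 (.s2 (.s3 (.s2 .lf .lf) (.s2 .lf .lf)) (.s3 (.s2 .lf .lf) (.s2 .lf .lf))) (.s2 (.s3 (.s2 .lf .lf) (.s2 .lf .lf)) (.s3 (.s2 .lf .lf) (.s2 .lf .lf)))))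

theorem cM7 : run runM tM7 17870283321406128128 576460752303423488 16717361816799281152 576460752303423488 = true := by decide +kernel

def tM8 : Tr := Tr.sk

theorem cM8 : run runM tM8 16717361816799281152 576460752303423488 17870283321406128128 576460752303423488 = true := by decide +kernel

def tM9 : Tr := .s2 (.s3 (.s2 (.s3 (.s2 .lf .lf) (.s2 .sk .lf)) (.s3 (.s2 .lf .lf) (.s2 .lf .lf))) (.s2 .sk (.s3 (.s2 .lf (.s3 .lf .lf)) (.s2 .sk (.s3 .lf .lf))))) (.s3 (.s2 (.s3 (.s2 .lf .lf) (.s2 .lf (.s3 .lf .lf))) (.s3 (.s2 (.s3 .lf .lf) (.s3 .lf .lf)) (.s2 (.s3 .lf .lf) (.s3 .lf .lf)))) (.s2 (.s3 (.s2 (.s3 .lf .lf) (.s3 .lf .lf)) (.s2 (.s3 .lf .lf) (.s3 .lf (.s2 .lf .lf)))) (.s3 (.s2 (.s3 .lf .lf) (.s3 .lf (.s2 .lf .lf))) (.s2 (.s3 (.s2 .lf .lf) (.s2 .lf .lf)) (.s3 (.s2 .lf .lf) (.s2 .lf .lf))))))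

theorem cM9 : run runM tM9 17870283321406128128 576460752303423488 17582052945254416384 288230376151711744 = true := by decide +kernel

def tM10 : Tr := Tr.sk

theorem cM10 : run runM tM10 17582052945254416384 288230376151711744 18158513697557839872 288230376151711744 = true := by decide +kernel

def tM11 : Tr := .s2 (.s3 (.s2 (.s3 .lf (.s2 .sk .lf)) (.s3 (.s2 .lf .lf) (.s2 .lf .lf))) (.s2 .sk (.s3 (.s2 .lf .lf) (.s2 .sk .lf)))) (.s3 (.s2 (.s3 (.s2 .lf .lf) (.s2 .lf .lf)) (.s3 (.s2 .lf .lf) (.s2 .lf (.s3 .lf .lf)))) (.s2 (.s3 (.s2 .lf .lf) (.s2 .lf (.s3 .lf .lf))) (.s3 (.s2 (.s3 .lf .lf) (.s3 .lf .lf)) (.s2 (.s3 .lf .lf) (.s3 .lf (.s2 .lf .lf))))))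

theorem cM11 : run runM tM11 18158513697557839872 288230376151711744 18014398509481984000 144115188075855872 = true := by decide +kernel

end Vale.Agent.Lib.P154.Neg.Ck
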