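import Vale.Agent.Lib.P154.Neg.CkRuns

/-! Kernel evaluation, run M, part 1. -/

namespace Vale.Agent.Lib.P154.Neg.Ck

set_option maxRecDepth 100000

def tM12 : Tr := .s2 .sk (.s3 (.s2 (.s3 (.s2 (.s3 .lf .lf) (.s3 .lf .lf)) (.s2 .sk (.s3 (.s2 .lf .lf) (.s2 .sk .lf)))) (.s3 (.s2 (.s3 .lf (.s2 .lf .lf)) (.s3 (.s2 .lf .lf) (.s2 .lf .lf))) (.s2 (.s3 (.s2 .lf .lf) (.s2 .lf .lf)) (.s3 (.s2 .lf .lf) (.s2 .lf (.s3 .lf .lf)))))) (.s2 .sk (.s3 (.s2 (.s3 (.s2 .lf (.s3 .lf .lf)) (.s2 .sk (.s3 .lf .lf))) (.s3 (.s2 (.s3 .lf .lf) (.s3 .lf .lf)) (.s2 (.s3 .lf (.s2 .lf .lf)) (.s3 (.s2 .lf .sk) .sk)))) (.s2 .sk (.s3 (.s2 (.s3 (.s2 .lf .sk) .sk) .sk) .sk)))))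

theorem cM12 : run runM tM12 18158513697557839872 288230376151711744 18302628885633695744 144115188075855872 = true := by decide +kernel

def tM13 : Tr := Tr.sk

theorem cM13 : run runM tM13 9223372036854775808 9223372036854775808 27670116110564327424 9223372036854775808 = true := by decide +kernel

def tM14 : Tr := Tr.sk

theorem cM14 : run runM tM14 23058430092136939520 4611686018427387904 4611686018427387904 4611686018427387904 = true := by decide +kernel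

def tM15 : Tr := Tr.sk

theorem cM15 : run runM tM15 20752587082923245568 2305843009213693952 11529215046068469760 2305843009213693952 = true := by decide +kernel

def tM16 : Tr := .s2 (.s3 (.s2 (.s3 .lf (.s2 .lf .lf)) (.s3 .lf (.s2 .lf .lf))) (.s2 (.s3 (.s2 .lf .lf) (.s2 .lf .lf)) (.s3 (.s2 .lf .lf) (.s2 .lf .lf)))) (.s3 (.s2 (.s3 (.s2 .lf .lf) (.s2 .lf .lf)) (.s3 (.s2 .lf .lf) (.s2 .lf .lf))) (.s2 (.s3 (.s2 .lf .lf) (.s2 .lf .lf)) (.s3 (.s2 .lf .lf) (.s2 .lf .sk))))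

theorem cM16 : run runM tM16 19599665578316398592 1152921504606846976 14411518807585587200 576460752303423488 = true := by decide +kernel

def tM17 : Tr := .s2 (.s3 (.s2 (.s3 (.s2 .lf .lf) (.s2 .lf .lf)) (.s3 (.s2 .lf .lf) (.s2 (.s3 .lf .lf) (.s3 .lf .lf)))) (.s2 (.s3 (.s2 (.s3 .lf .lf) (.s3 .lf .lf)) (.s2 (.s3 .lf .lf) (.s3 .lf .lf))) (.s3 (.s2 (.s3 .lf .lf) (.s3 .lf .lf)) (.s2 (.s3 .lf .lf) (.s3 .lf .lf))))) (.s3 (.s2 (.s3 (.s2 .lf .lf) (.s2 (.s3 .lf .lf) (.s3 .lf .lf))) (.s3 (.s2 .lf .sk) .sk)) (.s2 (.s3 (.s2 (.s3 .lf .lf) (.s3 .lf .sk)) (.s2 (.s3 .lf .lf) .sk)) .sk))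

theorem cM17 : run runM tM17 19599665578316398592 1152921504606846976 15564440312192434176 576460752303423488 = true := by decide +kernel

def tM18 : Tr := .s3 (.s2 (.s3 (.s2 (.s3 (.s2 .lf .sk) .sk) .sk) .sk) .sk) .sk

theorem cM18 : run runM tM18 21905508587530092544 1152921504606846976 14987979559889010688 1152921504606846976 = true := by decide +kernel

def tM19 : Tr := .s2 (.s3 (.s2 (.s3 .lf (.s2 .lf .lf)) (.s3 .lf (.s2 .lf .lf))) (.s2 (.s3 (.s2 .lf .lf) (.s2 .lf .lf)) (.s3 (.s2 .lf .lf) (.s2 .lf .lf)))) (.s3 (.s2 (.s3 (.s2 .lf .lf) (.s2 .lf .lf)) (.s3 (.s2 .lf .lf) (.s2 .lf .lf))) (.s2 (.s3 (.s2 .lf .lf) (.s2 .lf .lf)) (.s3 (.s2 .lf .lf) (.s2 .lf .sk))))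

theorem cM19 : run runM tM19 19023204826012975104 576460752303423488 16429131440647569408 288230376151711744 = true := by decide +kernel

def tM20 : Tr := .s2 (.s3 (.s2 (.s3 (.s2 .lf .lf) (.s2 .lf .lf)) (.s3 (.s2 .lf .lf) (.s2 .lf .lf))) (.s2 (.s3 (.s2 .lf .lf) (.s2 (.s3 .lf .lf) (.s3 .lf .lf))) (.s3 (.s2 (.s3 .lf .lf) (.s3 .lf .lf)) (.s2 (.s3 .lf .lf) (.s3 .lf .lf))))) (.s3 (.s2 (.s3 (.s2 .lf .lf) (.s2 .lf .lf)) (.s3 (.s2 .lf .sk) .sk)) (.s2 (.s3 (.s2 (.s3 .lf .lf) (.s3 .lf .sk)) (.s2 (.s3 .lf .lf) .sk)) .sk))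

theorem cM20 : run runM tM20 19023204826012975104 576460752303423488 17005592192950992896 288230376151711744 = true := by decide +kernel

end Vale.Agent.Lib.P154.Neg.Ck
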