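import Vale.Agent.Lib.P154.Neg.CkRuns

/-! Kernel evaluation, run M, part 2. -/

namespace Vale.Agent.Lib.P154.Neg.Ck

set_option maxRecDepth 100000

def tM21 : Tr := .s3 (.s2 (.s3 (.s2 (.s3 (.s2 .lf .sk) .sk) .sk) .sk) .sk) .sk

theorem cM21 : run runM tM21 20176126330619822080 576460752303423488 16717361816799281152 576460752303423488 = true := by decide +kernel

def tM22 : Tr := .s2 (.s3 (.s2 (.s3 (.s2 (.s3 .lf .lf) (.s3 .lf .lf)) (.s2 (.s3 .lf .lf) (.s3 .lf (.s2 .lf .lf)))) (.s3 (.s2 (.s3 .lf .lf) (.s3 .lf .lf)) (.s2 (.s3 .lf (.s2 .lf .lf)) (.s3 .lf (.s2 .lf .sk))))) (.s2 (.s3 (.s2 (.s3 (.s2 .lf .lf) (.s2 .lf .lf)) (.s3 (.s2 .lf .lf) (.s2 .lf .lf))) (.s2 (.s3 (.s2 .lf .lf) (.s2 .lf .lf)) (.s3 (.s2 .lf .lf) (.s2 .lf .lf)))) (.s3 (.s2 (.s3 (.s2 .lf .lf) (.s2 .lf .lf)) (.s3 (.s2 .lf .sk) .sk)) (.s2 (.s3 (.s2 .lf .lf) (.s2 .lf .sk)) .sk)))) (.s3 (.s2 (.s3 (.s2 (.s3 .lf .sk)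 .sk) .sk) .sk) .sk)

theorem cM22 : run runM tM22 19023204826012975104 576460752303423488 17582052945254416384 288230376151711744 = true := by decide +kernel

def tM23 : Tr := .s2 (.s3 (.s2 (.s3 (.s2 (.s3 (.s2 .lf .lf) (.s2 (.s3 .lf .lf) (.s3 .lf .lf))) (.s3 (.s2 .lf .lf) (.s2 (.s3 .lf .lf) (.s3 .lf .lf)))) (.s2 (.s3 (.s2 (.s3 .lf .lf) (.s3 .lf .lf)) (.s2 (.s3 .lf (.s2 .lf .lf)) (.s3 (.s2 .lf .lf) (.s2 .lf .lf)))) (.s3 (.s2 (.s3 .lf .lf) (.s3 .lf .sk)) (.s2 (.s3 (.s2 .lf .lf) (.s2 .lf .sk)) .sk)))) (.s3 (.s2 (.s3 (.s2 .lf .sk) .sk) .sk) .sk)) (.s2 (.s3 (.s2 (.s3 (.s2 (.s3 (.s2 .lf .lf) (.s2 .lf .lf)) (.s3 (.s2 .lf .lf) (.s2 .lf .lf))) (.s2 (.s3 (.s2 .lf (.s3 .lf .lf)) (.s2 (.s3 .lf .lf) (.s3 .lf .lf))) (.s3 (.s2 (.s3 .lf .lf) .lf) (.s2 (.s3 .lf .lf) .sk)))) (.s3 (.s2 (.s3 (.s2 .lf .sk) .sk) .sk) .sk)) (.s2 (.s3 (.s2 (.s3 (.s2 (.s3 .lf .sk) (.s3 .lf .sk)) .sk) (.s3 (.s2 (.s3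 .lf .sk) .sk) .sk)) .sk) .sk)) .sk)) .sk

theorem cM23 : run runM tM23 19023204826012975104 576460752303423488 18158513697557839872 288230376151711744 = true := by decide +kernel

def tM24 : Tr := Tr.sk

theorem cM24 : run runM tM24 20176126330619822080 576460752303423488 17870283321406128128 576460752303423488 = true := by decide +kernel

def tM25 : Tr := Tr.sk

theorem cM25 : run runM tM25 21905508587530092544 1152921504606846976 17293822569102704640 1152921504606846976 = true := by decide +kernel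

def tM26 : Tr := .s3 .sk .sk

theorem cM26 : run runM tM26 25364273101350633472 2305843009213693952 13835058055282163712 4611686018427387904 = true := by decide +kernel

def tM27 : Tr := Tr.sk

theorem cM27 : run runM tM27 32281802128991715328 4611686018427387904 9223372036854775808 9223372036854775808 = true := by decide +kernel

def tM28 : Tr := .s2 (.s3 (.s2 (.s3 (.s3 (.s2 (.s3 (.s2 (.s3 (.s2 (.s3 (.s2 (.s3 (.s2 (.s3 (.s2 .sk .sk) .sk) .sk) .sk) .sk) .sk) .sk) .sk) .sk) .sk) .sk) .sk) .sk) .sk) .sk) .sk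

theorem cM28 : run runM tM28 27670116110564327424 9223372036854775808 27670116110564327424 9223372036854775808 = true := by decide +kernel

end Vale.Agent.Lib.P154.Neg.Ck
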