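import Vale.Agent.Lib.P154.Neg.CkRuns

/-! Kernel evaluation, run R, part 15. -/

namespace Vale.Agent.Lib.P154.Neg.Ck

set_option maxRecDepth 100000

def tR157 : Tr := .s2 .lf .lf

theorem cR157 : run runR tR157 432345564227567616 144115188075855872 52776558133248 17592186044416 = true := by decide +kernel

def tR158 : Tr := .s2 .lf .lf

theorem cR158 : run runR tR158 432345564227567616 144115188075855872 105553116266496 35184372088832 = true := by decide +kernel

def tR159 : Tr := .s2 .lf .lf

theorem cR159 : run runR tR159 432345564227567616 144115188075855872 211106232532992 70368744177664 = true := by decide +kernel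

def tR160 : Tr := .s2 .lf .lf

theorem cR160 : run runR tR160 432345564227567616 144115188075855872 422212465065984 140737488355328 = true := by decide +kernel

def tR161 : Tr := .s2 .lf .lf

theorem cR161 : run runR tR161 432345564227567616 144115188075855872 844424930131968 281474976710656 = true := by decide +kernel

def tR162 : Tr := .s2 (.s2 .lf .lf) .lf

theorem cR162 : run runR tR162 432345564227567616 144115188075855872 1688849860263936 562949953421312 = true := by decide +kernel

def tR163 : Tr := .s2 (.s2 .lf .lf) (.s2 .lf .lf)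

theorem cR163 : run runR tR163 432345564227567616 144115188075855872 3377699720527872 1125899906842624 = true := by decide +kernel

def tR164 : Tr := .s2 (.s2 .lf .lf) (.s2 .lf (.s3 .lf .lf))

theorem cR164 : run runR tR164 432345564227567616 144115188075855872 6755399441055744 2251799813685248 = true := by decide +kernel

def tR165 : Tr := .s2 (.s2 (.s3 .lf .lf) (.s3 .lf .lf)) (.s2 (.s3 .lf .lf) (.s3 .lf .lf))

theorem cR165 : run runR tR165 432345564227567616 144115188075855872 13510798882111488 4503599627370496 = true := by decide +kernel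

def tR166 : Tr := .s2 (.s2 (.s3 .lf .lf) (.s3 .lf .lf)) (.s3 .lf .lf)

theorem cR166 : run runR tR166 432345564227567616 144115188075855872 27021597764222976 9007199254740992 = true := by decide +kernel

def tR167 : Tr := .s2 (.s2 (.s3 .lf .lf) (.s3 .lf .lf)) (.s3 .lf .lf)

theorem cR167 : run runR tR167 432345564227567616 144115188075855872 54043195528445952 18014398509481984 = true := by decide +kernel

def tR168 : Tr := .s2 (.s3 (.s2 .lf .lf) (.s2 .lf .lf)) (.s3 (.s2 .lf .lf) .lf)

theorem cR168 : run runR tR168 432345564227567616 144115188075855872 108086391056891904 36028797018963968 = true := by decide +kernel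

def tR169 : Tr := .s2 (.s3 (.s2 (.s3 .lf .lf) (.s3 .lf .lf)) (.s2 .lf .lf)) (.s3 (.s3 .lf .lf) (.s2 .lf .lf))

theorem cR169 : run runR tR169 432345564227567616 144115188075855872 216172782113783808 72057594037927936 = true := by decide +kernel

def tR170 : Tr := .s3 (.s2 (.s3 (.s2 .lf .lf) (.s2 .sk .lf)) (.s3 (.s2 .lf .lf) (.s2 .lf .lf))) (.s2 .sk (.s3 (.s2 .lf .lf) (.s2 .sk .lf)))

theorem cR170 : run runR tR170 432345564227567616 144115188075855872 432345564227567616 144115188075855872 = true := by decide +kernel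

def tR171 : Tr := Tr.sk

theorem cR171 : run runR tR171 288230376151711744 288230376151711744 864691128455135232 288230376151711744 = true := by decide +kernel

def tR172 : Tr := .s3 (.s3 (.s3 (.s3 (.s3 (.s3 (.s3 (.s3 (.s3 (.s3 (.s3 (.s3 (.s3 (.s3 (.s3 (.s3 (.s3 (.s3 (.s3 (.s2 (.s2 .lf .lf) .lf) (.s2 (.s2 .lf .lf) .lf)) (.s2 (.s2 .lf .lf) .lf)) (.s2 (.s2 .lf .lf) .lf)) (.s2 (.s2 .lf .lf) .lf)) (.s2 (.s2 .lf .lf) .lf)) (.s2 (.s2 .lf .lf) .lf)) (.s2 (.s2 .lf .lf) .lf)) (.s2 (.s2 .lf .lf) .lf)) (.s2 (.s2 .lf .lf) .lf)) (.s2 (.s2 .lf .lf) .lf)) (.s2 (.s2 .lf .lf) .lf)) (.s2 (.s2 .lf .lf) .lf)) (.s2 (.s2 .lf .lf) .lf)) (.s2 (.s2 .lf .lf) .lf)) (.s2 (.s2 .lf .lf) .lf)) (.s2 (.s2 .lf .lf) .lf)) (.s2 (.s2 .lf .lf) .lf)) (.s2 (.s2 .lf .lf) .lf)) (.s2 (.s2 .lf .lf) .lf)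

theorem cR172 : run runR tR172 864691128455135232 288230376151711744 17179869184 17179869184 = true := by decide +kernel

end Vale.Agent.Lib.P154.Neg.Ck
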