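import Vale.Agent.Lib.P154.Neg.CkRuns

/-! Kernel evaluation, run R, part 36. -/

namespace Vale.Agent.Lib.P154.Neg.Ck

set_option maxRecDepth 100000

def tR345 : Tr := .s2 (.s2 .lf .lf) (.s2 .lf .lf)

theorem cR345 : run runR tR345 23058430092136939520 4611686018427387904 1610612736 536870912 = true := by decide +kernel

def tR346 : Tr := .s2 (.s2 .lf .lf) (.s2 .lf .lf)

theorem cR346 : run runR tR346 23058430092136939520 4611686018427387904 3221225472 1073741824 = true := by decide +kernel

def tR347 : Tr := .s2 (.s2 .lf .lf) (.s2 .lf .lf)

theorem cR347 : run runR tR347 23058430092136939520 4611686018427387904 6442450944 2147483648 = true := by decide +kernel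

def tR348 : Tr := .s2 (.s2 .lf .lf) (.s2 .lf .lf)

theorem cR348 : run runR tR348 23058430092136939520 4611686018427387904 12884901888 4294967296 = true := by decide +kernel

def tR349 : Tr := .s2 (.s2 .lf .lf) (.s2 .lf .lf)

theorem cR349 : run runR tR349 23058430092136939520 4611686018427387904 25769803776 8589934592 = true := by decide +kernel

def tR350 : Tr := .s2 (.s2 .lf .lf) (.s2 .lf .lf)

theorem cR350 : run runR tR350 23058430092136939520 4611686018427387904 51539607552 17179869184 = true := by decide +kernel

def tR351 : Tr := .s2 (.s2 (.s2 .lf .lf) (.s2 .lf .lf)) (.s2 .lf .lf)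

theorem cR351 : run runR tR351 23058430092136939520 4611686018427387904 103079215104 34359738368 = true := by decide +kernel

def tR352 : Tr := .s2 (.s2 (.s2 .lf .lf) .lf) (.s2 .lf .lf)

theorem cR352 : run runR tR352 23058430092136939520 4611686018427387904 206158430208 68719476736 = true := by decide +kernel

def tR353 : Tr := .s2 (.s2 .lf .lf) (.s2 .lf .lf)

theorem cR353 : run runR tR353 23058430092136939520 4611686018427387904 412316860416 137438953472 = true := by decide +kernel

def tR354 : Tr := .s2 (.s2 .lf .lf) (.s2 .lf .lf)

theorem cR354 : run runR tR354 23058430092136939520 4611686018427387904 824633720832 274877906944 = true := by decide +kernel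

def tR355 : Tr := .s2 (.s2 .lf .lf) (.s2 .lf .lf)

theorem cR355 : run runR tR355 23058430092136939520 4611686018427387904 1649267441664 549755813888 = true := by decide +kernel

def tR356 : Tr := .s2 (.s2 .lf .lf) (.s2 .lf .lf)

theorem cR356 : run runR tR356 23058430092136939520 4611686018427387904 3298534883328 1099511627776 = true := by decide +kernel

def tR357 : Tr := .s2 (.s2 .lf .lf) (.s2 .lf .lf)

theorem cR357 : run runR tR357 23058430092136939520 4611686018427387904 6597069766656 2199023255552 = true := by decide +kernel

def tR358 : Tr := .s2 (.s2 .lf .lf) .lf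

theorem cR358 : run runR tR358 23058430092136939520 4611686018427387904 13194139533312 4398046511104 = true := by decide +kernel

def tR359 : Tr := .s2 .lf .lf

theorem cR359 : run runR tR359 23058430092136939520 4611686018427387904 26388279066624 8796093022208 = true := by decide +kernel

def tR360 : Tr := .s2 .lf .lf

theorem cR360 : run runR tR360 23058430092136939520 4611686018427387904 52776558133248 17592186044416 = true := by decide +kernel

def tR361 : Tr := .s2 .lf .lf

theorem cR361 : run runR tR361 23058430092136939520 4611686018427387904 105553116266496 35184372088832 = true := by decide +kernel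

def tR362 : Tr := .s2 .lf .lf

theorem cR362 : run runR tR362 23058430092136939520 4611686018427387904 211106232532992 70368744177664 = true := by decide +kernel

def tR363 : Tr := .s2 .lf .lf

theorem cR363 : run runR tR363 23058430092136939520 4611686018427387904 422212465065984 140737488355328 = true := by decide +kernel

def tR364 : Tr := .s2 (.s2 .lf .lf) (.s2 .lf .lf)

theorem cR364 : run runR tR364 23058430092136939520 4611686018427387904 844424930131968 281474976710656 = true := by decide +kernel

def tR365 : Tr := .s2 (.s2 (.s2 (.s2 .lf .lf) (.s2 .lf .lf)) (.s2 (.s2 .lf .lf) (.s2 .lf .lf))) (.s2 (.s2 (.s2 .lf .lf) (.s2 .lf .lf)) (.s2 (.s2 .lf .lf) (.s2 .lf .lf)))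

theorem cR365 : run runR tR365 23058430092136939520 4611686018427387904 1688849860263936 562949953421312 = true := by decide +kernel

end Vale.Agent.Lib.P154.Neg.Ck
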