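import Vale.Agent.Lib.P154.Neg.CkHolds
import Vale.Agent.Lib.P154.Neg.CkFacts
import Vale.Agent.Lib.P154.Neg.CkNear

/-! Direct certificates and the link between the two reference functionals. -/

namespace Vale.Agent.Lib.P154.Neg.Ck

open scoped BigOperators

/-- the integer identities between a direct certificate and its task -/
def rel4 (n : Nd) (t : Tk) : Bool :=
  (t.p0 + n.W0 * 0 + 4 * (n.G0 + n.G1 + n.G2 + n.G3 + n.G4) + 1073741824 + 4 * n.nun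
      == t.n0 + (n.W0 + n.W1 + n.W2 + n.W3 + n.W4) + 4 * n.nup + n.m0) &&
  (t.p1 + n.W0 == t.n1) && (t.p2 + n.W1 == t.n2) && (t.p3 + n.W2 == t.n3) &&
  (t.p4 + n.W3 == t.n4) && (t.p5 + n.W4 == t.n5) && (t.p6 == t.n6 + 1073741824) &&
  (t.p7 == t.n7 + 4 * n.G0) && (t.p8 == t.n8 + 4 * n.G1) && (t.p9 == t.n9 + 4 * n.G2) &&
  (t.p10 == t.n10 + 4 * n.G3) && (t.p11 == t.n11 + 4 * n.G4) &&
  (t.p12 + 4 * n.nup == t.n12 + 4 * n.nun)

theorem nd4_rel : (nd4.all fun n => tsR.any fun t => rel4 n t) = true := by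
  decide +kernel

theorem chan_half {y : Fin 3 → ℝ} (hy : Sx y) :
    chan 3 (-(1 / 2)) y = fun i => (3 - y i) / 2 := by
  have hs : y 0 + y 1 + y 2 = 3 := by have := hy.2; rwa [Fin.sum_univ_three] at this
  funext i
  unfold chan potts
  rw [Fin.sum_univ_three]
  fin_cases i <;> simp <;> linarith

theorem runR_val (t : Tk) (y : Fin 3 → ℝ) : runR.val t y =
    ((t.p0 : ℝ) - t.n0) * 1 + ((t.p1 : ℝ) - t.n1) * Fn (8, 4) y + ((t.p2 : ℝ) - t.n2) * Fn (8, 6) y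
    + ((t.p3 : ℝ) - t.n3) * Fn (8, 16) y + ((t.p4 : ℝ) - t.n4) * Fn (6, 8) y
    + ((t.p5 : ℝ) - t.n5) * Fn (7, 8) y + ((t.p6 : ℝ) - t.n6) * Fn (6, 7) y
    + ((t.p7 : ℝ) - t.n7) * Fn (8, 4) (fun i => (3 - y i) / 2)
    + ((t.p8 : ℝ) - t.n8) * Fn (8, 6) (fun i => (3 - y i) / 2)
    + ((t.p9 : ℝ) - t.n9) * Fn (8, 16) (fun i => (3 - y i) / 2)
    + ((t.p10 : ℝ) - t.n10) * Fn (6, 8) (fun i => (3 - y i) / 2)
    + ((t.p11 : ℝ) - t.n11) * Fn (7, 8) (fun i => (3 - y i) / 2)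
    + ((t.p12 : ℝ) - t.n12) * Fn (6, 7) (fun i => (3 - y i) / 2) := by
  rfl

theorem sx_le3 {y : Fin 3 → ℝ} (hy : Sx y) (i : Fin 3) : y i ≤ 3 := by
  have h1 := hy.2
  rw [Fin.sum_univ_three] at h1
  have a0 := hy.1 0
  have a1 := hy.1 1
  have a2 := hy.1 2
  fin_cases i
  · show y 0 ≤ 3
    linarith
  · show y 1 ≤ 3
    linarith
  · show y 2 ≤ 3
    linarith

theorem regR {y : Fin 3 → ℝ} (hy : Sx y) : runR.Reg y := by
  have e1 : ((runR.ymax : ℕ) : ℝ) = 3 * 2 ^ 64 := by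
    show ((55340232221128654848 : ℕ) : ℝ) = 3 * 2 ^ 64
    norm_num
  have e2 : ((runR.rlo : ℕ) : ℝ) = 0 := by
    show ((0 : ℕ) : ℝ) = 0
    norm_num
  have e3 : ((runR.rhi : ℕ) : ℝ) = 3 * 2 ^ 64 := by
    show ((55340232221128654848 : ℕ) : ℝ) = 3 * 2 ^ 64
    norm_num
  refine ⟨hy, fun i => ?_, ⟨0, ?_⟩, fun i => ?_⟩
  · rw [e1]
    exact mul_le_mul_of_nonneg_right (sx_le3 hy i) (by positivity)
  · rw [e2]
    positivity
  · rw [e3]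
    refine mul_le_mul_of_nonneg_right ?_ (by positivity)
    rw [abs_le]
    constructor <;> linarith [hy.1 i, sx_le3 hy i]

/-- the real form of the identities -/
theorem four_alg {p0 n0 p1 n1 p2 n2 p3 n3 p4 n4 p5 n5 p6 n6 p7 n7 p8 n8 p9 n9 p10 n10 p11 n11
    p12 n12 W0 W1 W2 W3 W4 G0 G1 G2 G3 G4 nup nun m0 a b c d e f a' b' c' d' e' f' : ℝ}
    (c0 : p0 + W0 * 0 + 4 * (G0 + G1 + G2 + G3 + G4) + 1073741824 + 4 * nun
      = n0 + (W0 + W1 + W2 + W3 + W4) + 4 * nup + m0)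
    (c1 : p1 + W0 = n1) (c2 : p2 + W1 = n2) (c3 : p3 + W2 = n3) (c4 : p4 + W3 = n4)
    (c5 : p5 + W4 = n5) (c6 : p6 = n6 + 1073741824) (c7 : p7 = n7 + 4 * G0)
    (c8 : p8 = n8 + 4 * G1) (c9 : p9 = n9 + 4 * G2) (c10 : p10 = n10 + 4 * G3)
    (c11 : p11 = n11 + 4 * G4) (c12 : p12 + 4 * nup = n12 + 4 * nun)
    (h2 : 0 ≤ (p0 - n0) * 1 + (p1 - n1) * a + (p2 - n2) * b + (p3 - n3) * c + (p4 - n4) * d
      + (p5 - n5) * e + (p6 - n6) * f + (p7 - n7) * a' + (p8 - n8) * b' + (p9 - n9) * c'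
      + (p10 - n10) * d' + (p11 - n11) * e' + (p12 - n12) * f') :
    0 ≤ W0 / 2 ^ 30 * (1 - a) + W1 / 2 ^ 30 * (1 - b) + W2 / 2 ^ 30 * (1 - c)
      + W3 / 2 ^ 30 * (1 - d) + W4 / 2 ^ 30 * (1 - e) - (1 - f) + m0 / 2 ^ 30
      - 4 * (G0 / 2 ^ 30 * (1 - a') + G1 / 2 ^ 30 * (1 - b') + G2 / 2 ^ 30 * (1 - c')
      + G3 / 2 ^ 30 * (1 - d') + G4 / 2 ^ 30 * (1 - e') - (nup - nun) / 2 ^ 30 * (1 - f')) := by
  have d0 : p0 = n0 + (W0 + W1 + W2 + W3 + W4) + 4 * nup + m0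
      - 4 * (G0 + G1 + G2 + G3 + G4) - 1073741824 - 4 * nun := by linarith
  have d12 : p12 = n12 + 4 * nun - 4 * nup := by linarith
  subst c6 c7 c8 c9 c10 c11 d12
  rw [← c1, ← c2, ← c3, ← c4, ← c5, d0] at h2
  have h3 := div_nonneg h2 (by norm_num : (0 : ℝ) ≤ 2 ^ 30)
  refine le_of_le_of_eq h3 ?_
  ring

/-- direct certificates -/
theorem good_four (hR : runR.Holds) : ∀ n ∈ nd4, Good4 n.ct := by
  intro n hn y hy
  have h1 := List.all_eq_true.1 nd4_rel n hn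
  obtain ⟨t, ht, hrel⟩ := List.any_eq_true.1 h1
  have h2 := hR t ht y (regR hy)
  rw [runR_val] at h2
  simp only [rel4, Bool.and_eq_true, beq_iff_eq] at hrel
  obtain ⟨⟨⟨⟨⟨⟨⟨⟨⟨⟨⟨⟨r0, r1⟩, r2⟩, r3⟩, r4⟩, r5⟩, r6⟩, r7⟩, r8⟩, r9⟩, r10⟩, r11⟩, r12⟩ := hrel
  have c0 : (t.p0 : ℝ) + n.W0 * 0 + 4 * (n.G0 + n.G1 + n.G2 + n.G3 + n.G4) + 1073741824 + 4 * n.nun
      = t.n0 + (n.W0 + n.W1 + n.W2 + n.W3 + n.W4) + 4 * n.nup + n.m0 := by exact_mod_cast r0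
  have c1 : (t.p1 : ℝ) + n.W0 = t.n1 := by exact_mod_cast r1
  have c2 : (t.p2 : ℝ) + n.W1 = t.n2 := by exact_mod_cast r2
  have c3 : (t.p3 : ℝ) + n.W2 = t.n3 := by exact_mod_cast r3
  have c4 : (t.p4 : ℝ) + n.W3 = t.n4 := by exact_mod_cast r4
  have c5 : (t.p5 : ℝ) + n.W4 = t.n5 := by exact_mod_cast r5
  have c6 : (t.p6 : ℝ) = t.n6 + 1073741824 := by exact_mod_cast r6
  have c7 : (t.p7 : ℝ) = t.n7 + 4 * n.G0 := by exact_mod_cast r7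
  have c8 : (t.p8 : ℝ) = t.n8 + 4 * n.G1 := by exact_mod_cast r8
  have c9 : (t.p9 : ℝ) = t.n9 + 4 * n.G2 := by exact_mod_cast r9
  have c10 : (t.p10 : ℝ) = t.n10 + 4 * n.G3 := by exact_mod_cast r10
  have c11 : (t.p11 : ℝ) = t.n11 + 4 * n.G4 := by exact_mod_cast r11
  have c12 : (t.p12 : ℝ) + 4 * n.nup = t.n12 + 4 * n.nun := by exact_mod_cast r12
  have key := four_alg c0 c1 c2 c3 c4 c5 c6 c7 c8 c9 c10 c11 c12 h2
  rw [chan_half hy, Fin.sum_univ_five, Fin.sum_univ_five]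
  exact key

/-- bounds near the centre -/
theorem near_QR {y : Fin 3 → ℝ} {m : ℝ} (hy : ∀ i, |y i - 1| ≤ m) (hs : ∑ i, y i = 3)
    (hm : ∃ i, |y i - 1| = m) : m ^ 2 / 4 ≤ QQ y ∧ |Neg.RR y| ≤ 3 * m * QQ y := by
  rw [Fin.sum_univ_three] at hs
  obtain ⟨u, hu⟩ : ∃ u, u = y 0 - 1 := ⟨_, rfl⟩
  obtain ⟨v, hv⟩ : ∃ v, v = y 1 - 1 := ⟨_, rfl⟩
  obtain ⟨w, hw⟩ : ∃ w, w = y 2 - 1 := ⟨_, rfl⟩
  have h0 : u + v + w = 0 := by linarith
  have hQ : QQ y = (u ^ 2 + v ^ 2 + w ^ 2) / 6 := by unfold QQ; rw [hu, hv, hw]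
  have hR : Neg.RR y = u * v * w := by unfold Neg.RR; rw [hu, hv, hw]
  have a0 : |u| ≤ m := by rw [hu]; exact hy 0
  have a1 : |v| ≤ m := by rw [hv]; exact hy 1
  have a2 : |w| ≤ m := by rw [hw]; exact hy 2
  have hm0 : 0 ≤ m := (abs_nonneg _).trans a0
  have b0 := sq_abs u
  have b1 := sq_abs v
  have b2 := sq_abs w
  constructor
  · rw [hQ]
    obtain ⟨i, hi⟩ := hm
    have hcase : |u| = m ∨ |v| = m ∨ |w| = m := by
      fin_cases i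
      · left; rw [hu]; exact hi
      · right; left; rw [hv]; exact hi
      · right; right; rw [hw]; exact hi
    rcases hcase with h | h | h
    · rw [h] at b0
      have : w = -u - v := by linarith
      subst this
      nlinarith [sq_nonneg (v + (u + v)), sq_nonneg (2 * v + u)]
    · rw [h] at b1
      have : w = -u - v := by linarith
      subst this
      nlinarith [sq_nonneg (2 * u + v)]
    · rw [h] at b2
      have : u = -v - w := by linarith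
      subst this
      nlinarith [sq_nonneg (2 * v + w)]
  · rw [hQ, hR, abs_mul, abs_mul]
    have h1 : |u| * |v| ≤ (u ^ 2 + v ^ 2) / 2 := by nlinarith [sq_nonneg (|u| - |v|)]
    have h2 : |u| * |v| * |w| ≤ (u ^ 2 + v ^ 2) / 2 * m :=
      mul_le_mul h1 a2 (abs_nonneg _) (by positivity)
    nlinarith [mul_nonneg hm0 (sq_nonneg w)]

theorem exists_max3 (f : Fin 3 → ℝ) : ∃ i, ∀ j, f j ≤ f i := by
  obtain ⟨i, -, hi⟩ := Finset.exists_max_image (Finset.univ : Finset (Fin 3)) f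
    ⟨0, Finset.mem_univ _⟩
  exact ⟨i, fun j => hi j (Finset.mem_univ j)⟩

/-- link between the two reference functionals -/
theorem link67 (hK : runK.Holds) (y : Fin 3 → ℝ) (hy : Sx y) (h : ∀ i, y i ≤ 3 / 2) :
    88 / 100 * (1 - Fn (6, 8) y) ≤ 1 - Fn (6, 7) y ∧ -(1 / 3) ≤ Fn (6, 7) y := by
  by_cases hc : ∃ i, (1 : ℝ) / 128 ≤ |y i - 1|
  · have e1 : ((runK.ymax : ℕ) : ℝ) = 3 / 2 * 2 ^ 64 := by
      show ((27670116110564327424 : ℕ) : ℝ) = 3 / 2 * 2 ^ 64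
      norm_num
    have e2 : ((runK.rlo : ℕ) : ℝ) = 1 / 128 * 2 ^ 64 := by
      show ((144115188075855872 : ℕ) : ℝ) = 1 / 128 * 2 ^ 64
      norm_num
    have e3 : ((runK.rhi : ℕ) : ℝ) = 3 * 2 ^ 64 := by
      show ((55340232221128654848 : ℕ) : ℝ) = 3 * 2 ^ 64
      norm_num
    have hreg : runK.Reg y := by
      obtain ⟨i, hi⟩ := hc
      refine ⟨hy, fun i => ?_, ⟨i, ?_⟩, fun i => ?_⟩
      · rw [e1]
        exact mul_le_mul_of_nonneg_right (h i) (by positivity)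
      · rw [e2]
        exact mul_le_mul_of_nonneg_right hi (by positivity)
      · rw [e3]
        refine mul_le_mul_of_nonneg_right ?_ (by positivity)
        rw [abs_le]
        constructor <;> linarith [hy.1 i, sx_le3 hy i]
    have hval : ∀ t : Tk, runK.val t y = ((t.p0 : ℝ) - t.n0) * 1 + ((t.p1 : ℝ) - t.n1) * Fn (6, 7) y
        + ((t.p2 : ℝ) - t.n2) * Fn (6, 8) y + ((t.p3 : ℝ) - t.n3) * QQ y
        + ((t.p4 : ℝ) - t.n4) * Neg.RR y + ((t.p5 : ℝ) - t.n5) * QQ y ^ 2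
        + ((t.p6 : ℝ) - t.n6) * QQ y ^ 4 + ((t.p7 : ℝ) - t.n7) * 0 + ((t.p8 : ℝ) - t.n8) * 0
        + ((t.p9 : ℝ) - t.n9) * 0 + ((t.p10 : ℝ) - t.n10) * 0 + ((t.p11 : ℝ) - t.n11) * 0
        + ((t.p12 : ℝ) - t.n12) * 0 := fun t => rfl
    have k1 := hK ⟨12, 0, 0, 100, 88, 0, 0, 0, 0, 0, 0, 0, 0, 0, 0, 0, 0, 0, 0, 0, 0, 0, 0, 0, 0, 0⟩
      (List.mem_cons_self) y hreg
    have k2 := hK ⟨1, 0, 3, 0, 0, 0, 0, 0, 0, 0, 0, 0, 0, 0, 0, 0, 0, 0, 0, 0, 0, 0, 0, 0, 0, 0⟩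
      (List.mem_cons_of_mem _ List.mem_cons_self) y hreg
    rw [hval] at k1 k2
    push_cast at k1 k2
    constructor <;> linarith
  · push Not at hc
    obtain ⟨i, hi⟩ := exists_max3 (fun i => |y i - 1|)
    have hi' : ∀ j, |y j - 1| ≤ |y i - 1| := hi
    obtain ⟨m, hm⟩ : ∃ m, m = |y i - 1| := ⟨_, rfl⟩
    have hm1 : m < 1 / 128 := by rw [hm]; exact hc i
    have hm0 : 0 ≤ m := by rw [hm]; exact abs_nonneg _
    rw [← hm] at hi'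
    obtain ⟨q1, q2⟩ := near_QR hi' hy.2 ⟨i, hm.symm⟩
    have n7 := near_expand ((6, 7), 399/256, -2361/4096, 396255/262144, -4220193/4194304, 16)
      (by unfold nearTab; simp) y m (by linarith) hi' hy.2
    have n8 := near_expand ((6, 8), 111/64, -669/1024, 26895/16384, -284133/262144, 16)
      (by unfold nearTab; simp) y m (by linarith) hi' hy.2
    push_cast at n7 n8
    obtain ⟨Q, hQ⟩ : ∃ Q, Q = QQ y := ⟨_, rfl⟩
    obtain ⟨R, hR⟩ : ∃ R, R = Neg.RR y := ⟨_, rfl⟩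
    obtain ⟨f7, hf7⟩ : ∃ f, f = Fn (6, 7) y := ⟨_, rfl⟩
    obtain ⟨f8, hf8⟩ : ∃ f, f = Fn (6, 8) y := ⟨_, rfl⟩
    simp only [← hQ, ← hR, ← hf7, ← hf8] at n7 n8 q1 q2 ⊢
    have hQ0 : 0 ≤ Q := le_trans (by positivity) q1
    have hR1 : |R| ≤ 3 / 128 * Q := q2.trans (by nlinarith)
    have hQ1 : Q ≤ 1 / 32768 := by
      rw [hQ]
      unfold QQ
      have b0 : (y 0 - 1) ^ 2 ≤ (1 / 128) ^ 2 := by
        rw [← sq_abs]
        exact pow_le_pow_left₀ (abs_nonneg _) (hc 0).le 2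
      have b1 : (y 1 - 1) ^ 2 ≤ (1 / 128) ^ 2 := by
        rw [← sq_abs]
        exact pow_le_pow_left₀ (abs_nonneg _) (hc 1).le 2
      have b2 : (y 2 - 1) ^ 2 ≤ (1 / 128) ^ 2 := by
        rw [← sq_abs]
        exact pow_le_pow_left₀ (abs_nonneg _) (hc 2).le 2
      linarith
    have hm6 : m ^ 6 ≤ 4 / 268435456 * Q := by
      have h1 : m ^ 2 ≤ 4 * Q := by linarith
      have h2 : m ^ 4 ≤ (1 / 128) ^ 4 := pow_le_pow_left₀ hm0 hm1.le 4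
      have h3 : m ^ 6 = m ^ 4 * m ^ 2 := by ring
      rw [h3]
      calc m ^ 4 * m ^ 2 ≤ (1 / 128) ^ 4 * (4 * Q) :=
            mul_le_mul h2 h1 (by positivity) (by positivity)
        _ = 4 / 268435456 * Q := by ring
    have hQR : |Q * R| ≤ 3 / 128 * Q * Q := by
      rw [abs_mul, abs_of_nonneg hQ0]
      nlinarith
    have hQQ : Q * Q ≤ 1 / 32768 * Q := mul_le_mul_of_nonneg_right hQ1 hQ0
    rw [abs_le] at n7 n8 hR1 hQR
    have hQ2 : Q ^ 2 = Q * Q := by ring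
    rw [hQ2] at n7 n8
    have hQQ0 : 0 ≤ Q * Q := mul_nonneg hQ0 hQ0
    have hq3 : 3 / 128 * Q * Q = 3 / 128 * (Q * Q) := by ring
    rw [hq3] at hQR
    constructor
    · linarith [n7.1, n7.2, n8.1, n8.2, hR1.1, hR1.2, hQR.1, hQR.2]
    · linarith [n7.1, n7.2, n8.1, n8.2, hR1.1, hR1.2, hQR.1, hQR.2]

end Vale.Agent.Lib.P154.Neg.Ck
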