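import Vale.Agent.Lib.P154.Neg.CkLinkY
import Vale.Agent.Lib.P154.Neg.CkLinkS
import Vale.Agent.Lib.P154.Neg.CkLink4

/-!
From the runs to the inequalities of the certificates: `good_half`, `good_five` (CkLinkY),
`good_small` (CkLinkS), `good_four`, `link67` (CkLink4).  The hypotheses are the outcomes of the
kernel evaluations (`Run.Holds`, CkHolds).
-/
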