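import Vale.Agent.Lib.P154.Neg.CkCode

/-!
Checker for the scalar inequalities (code only).  `d = 0` stands for the Poisson model,
`Phi' x = exp (-x)`; otherwise `Phi' x = (1 - x/(d-1))^(d-1)`, `Phi 0 = 0`.
All fixed point numbers have scale `2^64`, certificates have scale `2^30`.
-/

namespace Vale.Agent.Lib.P154.Neg.Ck

open Bl

/-- certificate, all entries times `2^30`; `nu = nup - nun`, `p2 = p2p - p2n` -/
structure Nd where
  W0 : Nat
  W1 : Nat
  W2 : Nat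
  W3 : Nat
  W4 : Nat
  G0 : Nat
  G1 : Nat
  G2 : Nat
  G3 : Nat
  G4 : Nat
  nup : Nat
  nun : Nat
  m0 : Nat
  p1 : Nat
  p2p : Nat
  p2n : Nat
  p3 : Nat
  p4 : Nat

/-- mixture with weights 32-k and k (only the entries used by the scalar check) -/
def Nd.mix (n m : Nd) (k : Nat) : Nd :=
  let j := Nat.sub 32 k
  let f := fun a b => Nat.add (Nat.mul j a) (Nat.mul k b)
  ⟨f n.W0 m.W0, f n.W1 m.W1, f n.W2 m.W2, f n.W3 m.W3, f n.W4 m.W4,
   f n.G0 m.G0, f n.G1 m.G1, f n.G2 m.G2, f n.G3 m.G3, f n.G4 m.G4,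
   f n.nup m.nup, f n.nun m.nun, f n.m0 m.m0, 0, 0, 0, 0, 0⟩

/-- `exp (-x)`, `x ≤ 4` -/
def expN (x : Nat) : Bl := sq (sq (sq (sq (exps ⟨0, Nat.div x 16, 1⟩))))

/-- `1 - x/e` -/
def base (x e : Nat) : Bl := ⟨Nat.sub 18446744073709551616 (Nat.div x e), 0, 1⟩

/-- `Phi' x` -/
def dphi (d x : Nat) : Bl :=
  bif Nat.beq d 0 then expN x else pw (base x (Nat.sub d 1)) 8 (Nat.sub d 1)

/-- upper bound of 1 - (d/(d-1)) Phi x, that is of the d-th power of 1-x/(d-1), or exp (-x) -/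
def tail (d x : Nat) : Nat :=
  let b := bif Nat.beq d 0 then expN x else pw (base x (Nat.sub d 1)) 8 d
  Nat.add b.p b.e

/-- `W Phi' x ≤ G` -/
def slopeOk (d W G x : Nat) : Bool :=
  let E := dphi d x
  Nat.ble (Nat.mul W (Nat.add E.p E.e)) (Nat.shiftLeft G 64)

/-- upper bound of `W (1 - Phi'(x)(1+x))`, scale `2^94` (times 32 after mixing) -/
def icpt (d W x : Nat) : Nat :=
  let E := dphi d x
  Nat.mul W (Nat.add (Nat.sub 18446744073709551616 (Nat.shiftRight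
    (Nat.mul (Nat.sub E.p (Nat.add E.n E.e)) (Nat.add 18446744073709551616 x)) 64)) 1)

/-- piece: upper end `B`, certificates `i, i+1` mixed with weight `k/32`, tangent points -/
structure Pc where
  B : Nat
  i : Nat
  k : Nat
  x0 : Nat
  x1 : Nat
  x2 : Nat
  x3 : Nat
  x4 : Nat

/-- multiply by (d-1)/d, rounded down -/
def fd (d x : Nat) : Nat := bif Nat.beq d 0 then x else Nat.div (Nat.mul (Nat.sub d 1) x) d
/-- multiply by (d-1)/d, rounded up -/
def fu (d x : Nat) : Nat :=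
  bif Nat.beq d 0 then x else Nat.add (Nat.div (Nat.mul (Nat.sub d 1) x) d) 1

/-- the inequality at `B`: `Phi_{d1} B - nu B > (1-1/d2) m0 + sum intercepts` -/
def endOk (d1 d2 : Nat) (c : Nd) (K B : Nat) : Bool :=
  Nat.ble (Nat.add (Nat.add (Nat.mul c.nup B) (Nat.add (fu d2 (Nat.shiftLeft c.m0 64)) K)) 1)
    (Nat.add (Nat.mul 34359738368 (fd d1 (Nat.sub 18446744073709551616 (tail d1 B))))
      (Nat.mul c.nun B))

def zNd : Nd := ⟨0, 0, 0, 0, 0, 0, 0, 0, 0, 0, 0, 0, 0, 0, 0, 0, 0, 0⟩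

def nthN : List Nd → Nat → Nd
  | [], _ => zNd
  | a :: l, n => bif Nat.beq n 0 then a else nthN l (Nat.sub n 1)

/-- one piece `[B, p.B]`, all `d` with `d1 ≤ d ≤ d2` (`d2 = 0` is infinity) -/
def pcOk (d1 d2 : Nat) (L : List Nd) (B : Nat) (p : Pc) : Bool :=
  let c := Nd.mix (nthN L p.i) (nthN L (Nat.add p.i 1)) p.k
  let K := fu d2 (Nat.add (Nat.add (Nat.add (icpt d2 c.W0 p.x0) (icpt d2 c.W1 p.x1))
    (Nat.add (icpt d2 c.W2 p.x2) (icpt d2 c.W3 p.x3))) (icpt d2 c.W4 p.x4))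
  and (and (and (slopeOk d2 c.W0 c.G0 p.x0) (slopeOk d2 c.W1 c.G1 p.x1))
      (and (slopeOk d2 c.W2 c.G2 p.x2)
        (and (slopeOk d2 c.W3 c.G3 p.x3) (slopeOk d2 c.W4 c.G4 p.x4))))
    (and (and (Nat.ble B p.B) (and (Nat.ble p.k 32) (Nat.ble (Nat.add p.i 2) L.length))) (and (endOk d1 d2 c K B) (endOk d1 d2 c K p.B)))

/-- the certificate of the last piece has `nu ≤ 0` (then it works for all larger `B`) -/
def lastOk (L : List Nd) (p : Pc) : Bool :=
  let c := Nd.mix (nthN L p.i) (nthN L (Nat.add p.i 1)) p.k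
  Nat.ble c.nup c.nun

/-- all pieces, starting at `B`; `fin = true`: the last one covers all larger `B` -/
def scOk (d1 d2 : Nat) (L : List Nd) (fin : Bool) : List Pc → Nat → Bool
  | [], _ => true
  | p :: l, B => and (pcOk d1 d2 L B p)
      (and (match l with
        | [] => or (not fin) (lastOk L p)
        | _ :: _ => true) (scOk d1 d2 L fin l p.B))

/-- for `d = 4` and `3 ≤ B ≤ 4`: `Phi ≥ 3/4 * 80/81`, the certificate of the piece `p` works -/
def tail4 (L : List Nd) (p : Pc) : Bool :=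
  let c := Nd.mix (nthN L p.i) (nthN L (Nat.add p.i 1)) p.k
  let K := fu 4 (Nat.add (Nat.add (Nat.add (icpt 4 c.W0 p.x0) (icpt 4 c.W1 p.x1))
    (Nat.add (icpt 4 c.W2 p.x2) (icpt 4 c.W3 p.x3))) (icpt 4 c.W4 p.x4))
  and (and (and (slopeOk 4 c.W0 c.G0 p.x0) (slopeOk 4 c.W1 c.G1 p.x1))
      (and (slopeOk 4 c.W2 c.G2 p.x2)
        (and (slopeOk 4 c.W3 c.G3 p.x3) (slopeOk 4 c.W4 c.G4 p.x4))))
    (and (and (Nat.ble p.k 32) (Nat.ble (Nat.add p.i 2) L.length)) (and (Nat.ble c.nup c.nun)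
      (Nat.ble (Nat.add (Nat.add (Nat.mul c.nup 55340232221128654848)
          (Nat.add (fu 4 (Nat.shiftLeft c.m0 64)) K)) 1)
        (Nat.add (Nat.mul 34359738368 13664254869414482678)
          (Nat.mul c.nun 55340232221128654848)))))

end Vale.Agent.Lib.P154.Neg.Ck
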