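import Vale.Agent.Lib.P154.Neg.CkGA0
import Vale.Agent.Lib.P154.Neg.CkGA1
import Vale.Agent.Lib.P154.Neg.CkGA2
import Vale.Agent.Lib.P154.Neg.CkGA3
import Vale.Agent.Lib.P154.Neg.CkGA4
import Vale.Agent.Lib.P154.Neg.CkGA5
import Vale.Agent.Lib.P154.Neg.CkGA6
import Vale.Agent.Lib.P154.Neg.CkGA7
import Vale.Agent.Lib.P154.Neg.CkGA8
import Vale.Agent.Lib.P154.Neg.CkGA9
import Vale.Agent.Lib.P154.Neg.CkGA10
import Vale.Agent.Lib.P154.Neg.CkGA11
import Vale.Agent.Lib.P154.Neg.CkGA12
import Vale.Agent.Lib.P154.Neg.CkTopAux

/-! Assembly of run A. -/

namespace Vale.Agent.Lib.P154.Neg.Ck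

def TA0 : Tr := .s2 tA0 tA1
theorem CA0 : run runA TA0 4398046511104 4398046511104 4398046511104 4398046511104 = true :=
  run_s2' tA0 tA1 (by decide) cA0 cA1

def TA1 : Tr := .s3 TA0 tA2
theorem CA1 : run runA TA1 4398046511104 4398046511104 8796093022208 8796093022208 = true :=
  run_s3' TA0 tA2 (by decide) CA0 cA2

def TA2 : Tr := .s2 TA1 tA3
theorem CA2 : run runA TA2 8796093022208 8796093022208 8796093022208 8796093022208 = true :=
  run_s2' TA1 tA3 (by decide) CA1 cA3

def TA3 : Tr := .s3 TA2 tA4
theorem CA3 : run runA TA3 8796093022208 8796093022208 17592186044416 17592186044416 = true :=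
  run_s3' TA2 tA4 (by decide) CA2 cA4

def TA4 : Tr := .s2 TA3 tA5
theorem CA4 : run runA TA4 17592186044416 17592186044416 17592186044416 17592186044416 = true :=
  run_s2' TA3 tA5 (by decide) CA3 cA5

def TA5 : Tr := .s3 TA4 tA6
theorem CA5 : run runA TA5 17592186044416 17592186044416 35184372088832 35184372088832 = true :=
  run_s3' TA4 tA6 (by decide) CA4 cA6

def TA6 : Tr := .s2 TA5 tA7
theorem CA6 : run runA TA6 35184372088832 35184372088832 35184372088832 35184372088832 = true :=
  run_s2' TA5 tA7 (by decide) CA5 cA7

def TA7 : Tr := .s3 TA6 tA8
theorem CA7 : run runA TA7 35184372088832 35184372088832 70368744177664 70368744177664 = true :=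
  run_s3' TA6 tA8 (by decide) CA6 cA8

def TA8 : Tr := .s2 TA7 tA9
theorem CA8 : run runA TA8 70368744177664 70368744177664 70368744177664 70368744177664 = true :=
  run_s2' TA7 tA9 (by decide) CA7 cA9

def TA9 : Tr := .s3 TA8 tA10
theorem CA9 : run runA TA9 70368744177664 70368744177664 140737488355328 140737488355328 = true :=
  run_s3' TA8 tA10 (by decide) CA8 cA10

def TA10 : Tr := .s2 TA9 tA11
theorem CA10 : run runA TA10 140737488355328 140737488355328 140737488355328 140737488355328 = true :=
  run_s2' TA9 tA11 (by decide) CA9 cA11

def TA11 : Tr := .s3 TA10 tA12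
theorem CA11 : run runA TA11 140737488355328 140737488355328 281474976710656 281474976710656 = true :=
  run_s3' TA10 tA12 (by decide) CA10 cA12

def TA12 : Tr := .s2 TA11 tA13
theorem CA12 : run runA TA12 281474976710656 281474976710656 281474976710656 281474976710656 = true :=
  run_s2' TA11 tA13 (by decide) CA11 cA13

def TA13 : Tr := .s3 TA12 tA14
theorem CA13 : run runA TA13 281474976710656 281474976710656 562949953421312 562949953421312 = true :=
  run_s3' TA12 tA14 (by decide) CA12 cA14

def TA14 : Tr := .s2 TA13 tA15
theorem CA14 : run runA TA14 562949953421312 562949953421312 562949953421312 562949953421312 = true :=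
  run_s2' TA13 tA15 (by decide) CA13 cA15

def TA15 : Tr := .s3 TA14 tA16
theorem CA15 : run runA TA15 562949953421312 562949953421312 1125899906842624 1125899906842624 = true :=
  run_s3' TA14 tA16 (by decide) CA14 cA16

def TA16 : Tr := .s2 TA15 tA17
theorem CA16 : run runA TA16 1125899906842624 1125899906842624 1125899906842624 1125899906842624 = true :=
  run_s2' TA15 tA17 (by decide) CA15 cA17

def TA17 : Tr := .s3 TA16 tA18
theorem CA17 : run runA TA17 1125899906842624 1125899906842624 2251799813685248 2251799813685248 = true :=
  run_s3' TA16 tA18 (by decide) CA16 cA18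

def TA18 : Tr := .s2 TA17 tA19
theorem CA18 : run runA TA18 2251799813685248 2251799813685248 2251799813685248 2251799813685248 = true :=
  run_s2' TA17 tA19 (by decide) CA17 cA19

def TA19 : Tr := .s3 TA18 tA20
theorem CA19 : run runA TA19 2251799813685248 2251799813685248 4503599627370496 4503599627370496 = true :=
  run_s3' TA18 tA20 (by decide) CA18 cA20

def TA20 : Tr := .s2 TA19 tA21
theorem CA20 : run runA TA20 4503599627370496 4503599627370496 4503599627370496 4503599627370496 = true :=
  run_s2' TA19 tA21 (by decide) CA19 cA21

def TA21 : Tr := .s3 TA20 tA22
theorem CA21 : run runA TA21 4503599627370496 4503599627370496 9007199254740992 9007199254740992 = true :=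
  run_s3' TA20 tA22 (by decide) CA20 cA22

def TA22 : Tr := .s2 TA21 tA23
theorem CA22 : run runA TA22 9007199254740992 9007199254740992 9007199254740992 9007199254740992 = true :=
  run_s2' TA21 tA23 (by decide) CA21 cA23

def TA23 : Tr := .s3 TA22 tA24
theorem CA23 : run runA TA23 9007199254740992 9007199254740992 18014398509481984 18014398509481984 = true :=
  run_s3' TA22 tA24 (by decide) CA22 cA24

def TA24 : Tr := .s2 TA23 tA25
theorem CA24 : run runA TA24 18014398509481984 18014398509481984 18014398509481984 18014398509481984 = true :=
  run_s2' TA23 tA25 (by decide) CA23 cA25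

def TA25 : Tr := .s3 TA24 tA26
theorem CA25 : run runA TA25 18014398509481984 18014398509481984 36028797018963968 36028797018963968 = true :=
  run_s3' TA24 tA26 (by decide) CA24 cA26

def TA26 : Tr := .s2 TA25 tA27
theorem CA26 : run runA TA26 36028797018963968 36028797018963968 36028797018963968 36028797018963968 = true :=
  run_s2' TA25 tA27 (by decide) CA25 cA27

def TA27 : Tr := .s3 TA26 tA28
theorem CA27 : run runA TA27 36028797018963968 36028797018963968 72057594037927936 72057594037927936 = true :=
  run_s3' TA26 tA28 (by decide) CA26 cA28

def TA28 : Tr := .s2 TA27 tA29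
theorem CA28 : run runA TA28 72057594037927936 72057594037927936 72057594037927936 72057594037927936 = true :=
  run_s2' TA27 tA29 (by decide) CA27 cA29

def TA29 : Tr := .s3 TA28 tA30
theorem CA29 : run runA TA29 72057594037927936 72057594037927936 144115188075855872 144115188075855872 = true :=
  run_s3' TA28 tA30 (by decide) CA28 cA30

def TA30 : Tr := .s2 TA29 tA31
theorem CA30 : run runA TA30 144115188075855872 144115188075855872 144115188075855872 144115188075855872 = true :=
  run_s2' TA29 tA31 (by decide) CA29 cA31

def TA31 : Tr := .s3 TA30 tA32
theorem CA31 : run runA TA31 144115188075855872 144115188075855872 288230376151711744 288230376151711744 = true :=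
  run_s3' TA30 tA32 (by decide) CA30 cA32

def TA32 : Tr := .s2 TA31 tA33
theorem CA32 : run runA TA32 288230376151711744 288230376151711744 288230376151711744 288230376151711744 = true :=
  run_s2' TA31 tA33 (by decide) CA31 cA33

def TA33 : Tr := .s3 TA32 tA34
theorem CA33 : run runA TA33 288230376151711744 288230376151711744 576460752303423488 576460752303423488 = true :=
  run_s3' TA32 tA34 (by decide) CA32 cA34

def TA34 : Tr := .s2 TA33 tA35
theorem CA34 : run runA TA34 576460752303423488 576460752303423488 576460752303423488 576460752303423488 = true :=
  run_s2' TA33 tA35 (by decide) CA33 cA35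

def TA35 : Tr := .s3 TA34 tA36
theorem CA35 : run runA TA35 576460752303423488 576460752303423488 1152921504606846976 1152921504606846976 = true :=
  run_s3' TA34 tA36 (by decide) CA34 cA36

def TA36 : Tr := .s3 tA37 tA38
theorem CA36 : run runA TA36 1729382256910270464 576460752303423488 35184372088832 35184372088832 = true :=
  run_s3' tA37 tA38 (by decide) cA37 cA38

def TA37 : Tr := .s3 TA36 tA39
theorem CA37 : run runA TA37 1729382256910270464 576460752303423488 70368744177664 70368744177664 = true :=
  run_s3' TA36 tA39 (by decide) CA36 cA39

def TA38 : Tr := .s3 TA37 tA40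
theorem CA38 : run runA TA38 1729382256910270464 576460752303423488 140737488355328 140737488355328 = true :=
  run_s3' TA37 tA40 (by decide) CA37 cA40

def TA39 : Tr := .s3 TA38 tA41
theorem CA39 : run runA TA39 1729382256910270464 576460752303423488 281474976710656 281474976710656 = true :=
  run_s3' TA38 tA41 (by decide) CA38 cA41

def TA40 : Tr := .s3 TA39 tA42
theorem CA40 : run runA TA40 1729382256910270464 576460752303423488 562949953421312 562949953421312 = true :=
  run_s3' TA39 tA42 (by decide) CA39 cA42

def TA41 : Tr := .s3 TA40 tA43
theorem CA41 : run runA TA41 1729382256910270464 576460752303423488 1125899906842624 1125899906842624 = true :=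
  run_s3' TA40 tA43 (by decide) CA40 cA43

def TA42 : Tr := .s3 TA41 tA44
theorem CA42 : run runA TA42 1729382256910270464 576460752303423488 2251799813685248 2251799813685248 = true :=
  run_s3' TA41 tA44 (by decide) CA41 cA44

def TA43 : Tr := .s3 TA42 tA45
theorem CA43 : run runA TA43 1729382256910270464 576460752303423488 4503599627370496 4503599627370496 = true :=
  run_s3' TA42 tA45 (by decide) CA42 cA45

def TA44 : Tr := .s3 TA43 tA46
theorem CA44 : run runA TA44 1729382256910270464 576460752303423488 9007199254740992 9007199254740992 = true :=
  run_s3' TA43 tA46 (by decide) CA43 cA46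

def TA45 : Tr := .s3 TA44 tA47
theorem CA45 : run runA TA45 1729382256910270464 576460752303423488 18014398509481984 18014398509481984 = true :=
  run_s3' TA44 tA47 (by decide) CA44 cA47

def TA46 : Tr := .s3 TA45 tA48
theorem CA46 : run runA TA46 1729382256910270464 576460752303423488 36028797018963968 36028797018963968 = true :=
  run_s3' TA45 tA48 (by decide) CA45 cA48

def TA47 : Tr := .s3 TA46 tA49
theorem CA47 : run runA TA47 1729382256910270464 576460752303423488 72057594037927936 72057594037927936 = true :=
  run_s3' TA46 tA49 (by decide) CA46 cA49

def TA48 : Tr := .s3 TA47 tA50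
theorem CA48 : run runA TA48 1729382256910270464 576460752303423488 144115188075855872 144115188075855872 = true :=
  run_s3' TA47 tA50 (by decide) CA47 cA50

def TA49 : Tr := .s3 TA48 tA51
theorem CA49 : run runA TA49 1729382256910270464 576460752303423488 288230376151711744 288230376151711744 = true :=
  run_s3' TA48 tA51 (by decide) CA48 cA51

def TA50 : Tr := .s3 TA49 tA52
theorem CA50 : run runA TA50 1729382256910270464 576460752303423488 576460752303423488 576460752303423488 = true :=
  run_s3' TA49 tA52 (by decide) CA49 cA52

def TA51 : Tr := .s3 TA50 tA53
theorem CA51 : run runA TA51 1729382256910270464 576460752303423488 1152921504606846976 1152921504606846976 = true :=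
  run_s3' TA50 tA53 (by decide) CA50 cA53

def TA52 : Tr := .s2 TA35 TA51
theorem CA52 : run runA TA52 1152921504606846976 1152921504606846976 1152921504606846976 1152921504606846976 = true :=
  run_s2' TA35 TA51 (by decide) CA35 CA51

def TA53 : Tr := .s3 TA52 tA54
theorem CA53 : run runA TA53 1152921504606846976 1152921504606846976 2305843009213693952 2305843009213693952 = true :=
  run_s3' TA52 tA54 (by decide) CA52 cA54

def TA54 : Tr := .s3 tA55 tA56
theorem CA54 : run runA TA54 3458764513820540928 1152921504606846976 35184372088832 35184372088832 = true :=
  run_s3' tA55 tA56 (by decide) cA55 cA56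

def TA55 : Tr := .s3 TA54 tA57
theorem CA55 : run runA TA55 3458764513820540928 1152921504606846976 70368744177664 70368744177664 = true :=
  run_s3' TA54 tA57 (by decide) CA54 cA57

def TA56 : Tr := .s3 TA55 tA58
theorem CA56 : run runA TA56 3458764513820540928 1152921504606846976 140737488355328 140737488355328 = true :=
  run_s3' TA55 tA58 (by decide) CA55 cA58

def TA57 : Tr := .s3 TA56 tA59
theorem CA57 : run runA TA57 3458764513820540928 1152921504606846976 281474976710656 281474976710656 = true :=
  run_s3' TA56 tA59 (by decide) CA56 cA59

def TA58 : Tr := .s3 TA57 tA60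
theorem CA58 : run runA TA58 3458764513820540928 1152921504606846976 562949953421312 562949953421312 = true :=
  run_s3' TA57 tA60 (by decide) CA57 cA60

def TA59 : Tr := .s3 TA58 tA61
theorem CA59 : run runA TA59 3458764513820540928 1152921504606846976 1125899906842624 1125899906842624 = true :=
  run_s3' TA58 tA61 (by decide) CA58 cA61

def TA60 : Tr := .s3 TA59 tA62
theorem CA60 : run runA TA60 3458764513820540928 1152921504606846976 2251799813685248 2251799813685248 = true :=
  run_s3' TA59 tA62 (by decide) CA59 cA62

def TA61 : Tr := .s3 TA60 tA63
theorem CA61 : run runA TA61 3458764513820540928 1152921504606846976 4503599627370496 4503599627370496 = true :=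
  run_s3' TA60 tA63 (by decide) CA60 cA63

def TA62 : Tr := .s3 TA61 tA64
theorem CA62 : run runA TA62 3458764513820540928 1152921504606846976 9007199254740992 9007199254740992 = true :=
  run_s3' TA61 tA64 (by decide) CA61 cA64

def TA63 : Tr := .s3 TA62 tA65
theorem CA63 : run runA TA63 3458764513820540928 1152921504606846976 18014398509481984 18014398509481984 = true :=
  run_s3' TA62 tA65 (by decide) CA62 cA65

def TA64 : Tr := .s3 TA63 tA66
theorem CA64 : run runA TA64 3458764513820540928 1152921504606846976 36028797018963968 36028797018963968 = true :=
  run_s3' TA63 tA66 (by decide) CA63 cA66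

def TA65 : Tr := .s3 TA64 tA67
theorem CA65 : run runA TA65 3458764513820540928 1152921504606846976 72057594037927936 72057594037927936 = true :=
  run_s3' TA64 tA67 (by decide) CA64 cA67

def TA66 : Tr := .s3 TA65 tA68
theorem CA66 : run runA TA66 3458764513820540928 1152921504606846976 144115188075855872 144115188075855872 = true :=
  run_s3' TA65 tA68 (by decide) CA65 cA68

def TA67 : Tr := .s3 TA66 tA69
theorem CA67 : run runA TA67 3458764513820540928 1152921504606846976 288230376151711744 288230376151711744 = true :=
  run_s3' TA66 tA69 (by decide) CA66 cA69

def TA68 : Tr := .s3 TA67 tA70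
theorem CA68 : run runA TA68 3458764513820540928 1152921504606846976 576460752303423488 576460752303423488 = true :=
  run_s3' TA67 tA70 (by decide) CA67 cA70

def TA69 : Tr := .s3 TA68 tA71
theorem CA69 : run runA TA69 3458764513820540928 1152921504606846976 1152921504606846976 1152921504606846976 = true :=
  run_s3' TA68 tA71 (by decide) CA68 cA71

def TA70 : Tr := .s3 TA69 tA72
theorem CA70 : run runA TA70 3458764513820540928 1152921504606846976 2305843009213693952 2305843009213693952 = true :=
  run_s3' TA69 tA72 (by decide) CA69 cA72

def TA71 : Tr := .s2 TA53 TA70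
theorem CA71 : run runA TA71 2305843009213693952 2305843009213693952 2305843009213693952 2305843009213693952 = true :=
  run_s2' TA53 TA70 (by decide) CA53 CA70

def TA72 : Tr := .s3 TA71 tA73
theorem CA72 : run runA TA72 2305843009213693952 2305843009213693952 4611686018427387904 4611686018427387904 = true :=
  run_s3' TA71 tA73 (by decide) CA71 cA73

def TA73 : Tr := .s3 tA74 tA75
theorem CA73 : run runA TA73 6917529027641081856 2305843009213693952 35184372088832 35184372088832 = true :=
  run_s3' tA74 tA75 (by decide) cA74 cA75

def TA74 : Tr := .s3 TA73 tA76
theorem CA74 : run runA TA74 6917529027641081856 2305843009213693952 70368744177664 70368744177664 = true :=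
  run_s3' TA73 tA76 (by decide) CA73 cA76

def TA75 : Tr := .s3 TA74 tA77
theorem CA75 : run runA TA75 6917529027641081856 2305843009213693952 140737488355328 140737488355328 = true :=
  run_s3' TA74 tA77 (by decide) CA74 cA77

def TA76 : Tr := .s3 TA75 tA78
theorem CA76 : run runA TA76 6917529027641081856 2305843009213693952 281474976710656 281474976710656 = true :=
  run_s3' TA75 tA78 (by decide) CA75 cA78

def TA77 : Tr := .s3 TA76 tA79
theorem CA77 : run runA TA77 6917529027641081856 2305843009213693952 562949953421312 562949953421312 = true :=
  run_s3' TA76 tA79 (by decide) CA76 cA79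

def TA78 : Tr := .s3 TA77 tA80
theorem CA78 : run runA TA78 6917529027641081856 2305843009213693952 1125899906842624 1125899906842624 = true :=
  run_s3' TA77 tA80 (by decide) CA77 cA80

def TA79 : Tr := .s3 TA78 tA81
theorem CA79 : run runA TA79 6917529027641081856 2305843009213693952 2251799813685248 2251799813685248 = true :=
  run_s3' TA78 tA81 (by decide) CA78 cA81

def TA80 : Tr := .s3 TA79 tA82
theorem CA80 : run runA TA80 6917529027641081856 2305843009213693952 4503599627370496 4503599627370496 = true :=
  run_s3' TA79 tA82 (by decide) CA79 cA82

def TA81 : Tr := .s3 TA80 tA83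
theorem CA81 : run runA TA81 6917529027641081856 2305843009213693952 9007199254740992 9007199254740992 = true :=
  run_s3' TA80 tA83 (by decide) CA80 cA83

def TA82 : Tr := .s3 TA81 tA84
theorem CA82 : run runA TA82 6917529027641081856 2305843009213693952 18014398509481984 18014398509481984 = true :=
  run_s3' TA81 tA84 (by decide) CA81 cA84

def TA83 : Tr := .s3 TA82 tA85
theorem CA83 : run runA TA83 6917529027641081856 2305843009213693952 36028797018963968 36028797018963968 = true :=
  run_s3' TA82 tA85 (by decide) CA82 cA85

def TA84 : Tr := .s3 TA83 tA86
theorem CA84 : run runA TA84 6917529027641081856 2305843009213693952 72057594037927936 72057594037927936 = true :=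
  run_s3' TA83 tA86 (by decide) CA83 cA86

def TA85 : Tr := .s3 TA84 tA87
theorem CA85 : run runA TA85 6917529027641081856 2305843009213693952 144115188075855872 144115188075855872 = true :=
  run_s3' TA84 tA87 (by decide) CA84 cA87

def TA86 : Tr := .s3 TA85 tA88
theorem CA86 : run runA TA86 6917529027641081856 2305843009213693952 288230376151711744 288230376151711744 = true :=
  run_s3' TA85 tA88 (by decide) CA85 cA88

def TA87 : Tr := .s3 TA86 tA89
theorem CA87 : run runA TA87 6917529027641081856 2305843009213693952 576460752303423488 576460752303423488 = true :=
  run_s3' TA86 tA89 (by decide) CA86 cA89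

def TA88 : Tr := .s3 TA87 tA90
theorem CA88 : run runA TA88 6917529027641081856 2305843009213693952 1152921504606846976 1152921504606846976 = true :=
  run_s3' TA87 tA90 (by decide) CA87 cA90

def TA89 : Tr := .s3 TA88 tA91
theorem CA89 : run runA TA89 6917529027641081856 2305843009213693952 2305843009213693952 2305843009213693952 = true :=
  run_s3' TA88 tA91 (by decide) CA88 cA91

def TA90 : Tr := .s3 TA89 tA92
theorem CA90 : run runA TA90 6917529027641081856 2305843009213693952 4611686018427387904 4611686018427387904 = true :=
  run_s3' TA89 tA92 (by decide) CA89 cA92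

def TA91 : Tr := .s2 TA72 TA90
theorem CA91 : run runA TA91 4611686018427387904 4611686018427387904 4611686018427387904 4611686018427387904 = true :=
  run_s2' TA72 TA90 (by decide) CA72 CA90

def TA92 : Tr := .s3 TA91 tA93
theorem CA92 : run runA TA92 4611686018427387904 4611686018427387904 9223372036854775808 9223372036854775808 = true :=
  run_s3' TA91 tA93 (by decide) CA91 cA93

def TA93 : Tr := .s3 tA94 tA95
theorem CA93 : run runA TA93 13835058055282163712 4611686018427387904 1099511627776 1099511627776 = true :=
  run_s3' tA94 tA95 (by decide) cA94 cA95

def TA94 : Tr := .s3 TA93 tA96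
theorem CA94 : run runA TA94 13835058055282163712 4611686018427387904 2199023255552 2199023255552 = true :=
  run_s3' TA93 tA96 (by decide) CA93 cA96

def TA95 : Tr := .s3 TA94 tA97
theorem CA95 : run runA TA95 13835058055282163712 4611686018427387904 4398046511104 4398046511104 = true :=
  run_s3' TA94 tA97 (by decide) CA94 cA97

def TA96 : Tr := .s3 TA95 tA98
theorem CA96 : run runA TA96 13835058055282163712 4611686018427387904 8796093022208 8796093022208 = true :=
  run_s3' TA95 tA98 (by decide) CA95 cA98

def TA97 : Tr := .s3 TA96 tA99
theorem CA97 : run runA TA97 13835058055282163712 4611686018427387904 17592186044416 17592186044416 = true :=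
  run_s3' TA96 tA99 (by decide) CA96 cA99

def TA98 : Tr := .s3 TA97 tA100
theorem CA98 : run runA TA98 13835058055282163712 4611686018427387904 35184372088832 35184372088832 = true :=
  run_s3' TA97 tA100 (by decide) CA97 cA100

def TA99 : Tr := .s3 TA98 tA101
theorem CA99 : run runA TA99 13835058055282163712 4611686018427387904 70368744177664 70368744177664 = true :=
  run_s3' TA98 tA101 (by decide) CA98 cA101

def TA100 : Tr := .s3 TA99 tA102
theorem CA100 : run runA TA100 13835058055282163712 4611686018427387904 140737488355328 140737488355328 = true :=
  run_s3' TA99 tA102 (by decide) CA99 cA102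

def TA101 : Tr := .s3 TA100 tA103
theorem CA101 : run runA TA101 13835058055282163712 4611686018427387904 281474976710656 281474976710656 = true :=
  run_s3' TA100 tA103 (by decide) CA100 cA103

def TA102 : Tr := .s3 TA101 tA104
theorem CA102 : run runA TA102 13835058055282163712 4611686018427387904 562949953421312 562949953421312 = true :=
  run_s3' TA101 tA104 (by decide) CA101 cA104

def TA103 : Tr := .s3 TA102 tA105
theorem CA103 : run runA TA103 13835058055282163712 4611686018427387904 1125899906842624 1125899906842624 = true :=
  run_s3' TA102 tA105 (by decide) CA102 cA105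

def TA104 : Tr := .s3 TA103 tA106
theorem CA104 : run runA TA104 13835058055282163712 4611686018427387904 2251799813685248 2251799813685248 = true :=
  run_s3' TA103 tA106 (by decide) CA103 cA106

def TA105 : Tr := .s3 TA104 tA107
theorem CA105 : run runA TA105 13835058055282163712 4611686018427387904 4503599627370496 4503599627370496 = true :=
  run_s3' TA104 tA107 (by decide) CA104 cA107

def TA106 : Tr := .s3 TA105 tA108
theorem CA106 : run runA TA106 13835058055282163712 4611686018427387904 9007199254740992 9007199254740992 = true :=
  run_s3' TA105 tA108 (by decide) CA105 cA108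

def TA107 : Tr := .s3 TA106 tA109
theorem CA107 : run runA TA107 13835058055282163712 4611686018427387904 18014398509481984 18014398509481984 = true :=
  run_s3' TA106 tA109 (by decide) CA106 cA109

def TA108 : Tr := .s3 TA107 tA110
theorem CA108 : run runA TA108 13835058055282163712 4611686018427387904 36028797018963968 36028797018963968 = true :=
  run_s3' TA107 tA110 (by decide) CA107 cA110

def TA109 : Tr := .s3 TA108 tA111
theorem CA109 : run runA TA109 13835058055282163712 4611686018427387904 72057594037927936 72057594037927936 = true :=
  run_s3' TA108 tA111 (by decide) CA108 cA111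

def TA110 : Tr := .s3 TA109 tA112
theorem CA110 : run runA TA110 13835058055282163712 4611686018427387904 144115188075855872 144115188075855872 = true :=
  run_s3' TA109 tA112 (by decide) CA109 cA112

def TA111 : Tr := .s3 TA110 tA113
theorem CA111 : run runA TA111 13835058055282163712 4611686018427387904 288230376151711744 288230376151711744 = true :=
  run_s3' TA110 tA113 (by decide) CA110 cA113

def TA112 : Tr := .s3 TA111 tA114
theorem CA112 : run runA TA112 13835058055282163712 4611686018427387904 576460752303423488 576460752303423488 = true :=
  run_s3' TA111 tA114 (by decide) CA111 cA114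

def TA113 : Tr := .s3 TA112 tA115
theorem CA113 : run runA TA113 13835058055282163712 4611686018427387904 1152921504606846976 1152921504606846976 = true :=
  run_s3' TA112 tA115 (by decide) CA112 cA115

def TA114 : Tr := .s3 TA113 tA116
theorem CA114 : run runA TA114 13835058055282163712 4611686018427387904 2305843009213693952 2305843009213693952 = true :=
  run_s3' TA113 tA116 (by decide) CA113 cA116

def TA115 : Tr := .s3 TA114 tA117
theorem CA115 : run runA TA115 13835058055282163712 4611686018427387904 4611686018427387904 4611686018427387904 = true :=
  run_s3' TA114 tA117 (by decide) CA114 cA117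

def TA116 : Tr := .s2 tA118 tA119
theorem CA116 : run runA TA116 13835058055282163712 4611686018427387904 11529215046068469760 2305843009213693952 = true :=
  run_s2' tA118 tA119 (by decide) cA118 cA119

def TA117 : Tr := .s3 TA116 tA120
theorem CA117 : run runA TA117 13835058055282163712 4611686018427387904 13835058055282163712 4611686018427387904 = true :=
  run_s3' TA116 tA120 (by decide) CA116 cA120

def TA118 : Tr := .s3 TA115 TA117
theorem CA118 : run runA TA118 13835058055282163712 4611686018427387904 9223372036854775808 9223372036854775808 = true :=
  run_s3' TA115 TA117 (by decide) CA115 CA117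

def TA119 : Tr := .s2 TA92 TA118
theorem CA119 : run runA TA119 9223372036854775808 9223372036854775808 9223372036854775808 9223372036854775808 = true :=
  run_s2' TA92 TA118 (by decide) CA92 CA118

def TA120 : Tr := .s3 TA119 tA121
theorem CA120 : run runA TA120 9223372036854775808 9223372036854775808 18446744073709551616 18446744073709551616 = true :=
  run_s3' TA119 tA121 (by decide) CA119 cA121

def TA121 : Tr := .s3 tA122 tA123
theorem CA121 : run runA TA121 23058430092136939520 4611686018427387904 34359738368 34359738368 = true :=
  run_s3' tA122 tA123 (by decide) cA122 cA123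

def TA122 : Tr := .s3 TA121 tA124
theorem CA122 : run runA TA122 23058430092136939520 4611686018427387904 68719476736 68719476736 = true :=
  run_s3' TA121 tA124 (by decide) CA121 cA124

def TA123 : Tr := .s3 TA122 tA125
theorem CA123 : run runA TA123 23058430092136939520 4611686018427387904 137438953472 137438953472 = true :=
  run_s3' TA122 tA125 (by decide) CA122 cA125

def TA124 : Tr := .s3 TA123 tA126
theorem CA124 : run runA TA124 23058430092136939520 4611686018427387904 274877906944 274877906944 = true :=
  run_s3' TA123 tA126 (by decide) CA123 cA126

def TA125 : Tr := .s3 TA124 tA127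
theorem CA125 : run runA TA125 23058430092136939520 4611686018427387904 549755813888 549755813888 = true :=
  run_s3' TA124 tA127 (by decide) CA124 cA127

def TA126 : Tr := .s3 TA125 tA128
theorem CA126 : run runA TA126 23058430092136939520 4611686018427387904 1099511627776 1099511627776 = true :=
  run_s3' TA125 tA128 (by decide) CA125 cA128

def TA127 : Tr := .s3 TA126 tA129
theorem CA127 : run runA TA127 23058430092136939520 4611686018427387904 2199023255552 2199023255552 = true :=
  run_s3' TA126 tA129 (by decide) CA126 cA129

def TA128 : Tr := .s3 TA127 tA130
theorem CA128 : run runA TA128 23058430092136939520 4611686018427387904 4398046511104 4398046511104 = true :=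
  run_s3' TA127 tA130 (by decide) CA127 cA130

def TA129 : Tr := .s3 TA128 tA131
theorem CA129 : run runA TA129 23058430092136939520 4611686018427387904 8796093022208 8796093022208 = true :=
  run_s3' TA128 tA131 (by decide) CA128 cA131

def TA130 : Tr := .s3 TA129 tA132
theorem CA130 : run runA TA130 23058430092136939520 4611686018427387904 17592186044416 17592186044416 = true :=
  run_s3' TA129 tA132 (by decide) CA129 cA132

def TA131 : Tr := .s3 TA130 tA133
theorem CA131 : run runA TA131 23058430092136939520 4611686018427387904 35184372088832 35184372088832 = true :=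
  run_s3' TA130 tA133 (by decide) CA130 cA133

def TA132 : Tr := .s3 TA131 tA134
theorem CA132 : run runA TA132 23058430092136939520 4611686018427387904 70368744177664 70368744177664 = true :=
  run_s3' TA131 tA134 (by decide) CA131 cA134

def TA133 : Tr := .s3 TA132 tA135
theorem CA133 : run runA TA133 23058430092136939520 4611686018427387904 140737488355328 140737488355328 = true :=
  run_s3' TA132 tA135 (by decide) CA132 cA135

def TA134 : Tr := .s3 TA133 tA136
theorem CA134 : run runA TA134 23058430092136939520 4611686018427387904 281474976710656 281474976710656 = true :=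
  run_s3' TA133 tA136 (by decide) CA133 cA136

def TA135 : Tr := .s3 TA134 tA137
theorem CA135 : run runA TA135 23058430092136939520 4611686018427387904 562949953421312 562949953421312 = true :=
  run_s3' TA134 tA137 (by decide) CA134 cA137

def TA136 : Tr := .s3 TA135 tA138
theorem CA136 : run runA TA136 23058430092136939520 4611686018427387904 1125899906842624 1125899906842624 = true :=
  run_s3' TA135 tA138 (by decide) CA135 cA138

def TA137 : Tr := .s3 TA136 tA139
theorem CA137 : run runA TA137 23058430092136939520 4611686018427387904 2251799813685248 2251799813685248 = true :=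
  run_s3' TA136 tA139 (by decide) CA136 cA139

def TA138 : Tr := .s3 TA137 tA140
theorem CA138 : run runA TA138 23058430092136939520 4611686018427387904 4503599627370496 4503599627370496 = true :=
  run_s3' TA137 tA140 (by decide) CA137 cA140

def TA139 : Tr := .s3 TA138 tA141
theorem CA139 : run runA TA139 23058430092136939520 4611686018427387904 9007199254740992 9007199254740992 = true :=
  run_s3' TA138 tA141 (by decide) CA138 cA141

def TA140 : Tr := .s3 TA139 tA142
theorem CA140 : run runA TA140 23058430092136939520 4611686018427387904 18014398509481984 18014398509481984 = true :=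
  run_s3' TA139 tA142 (by decide) CA139 cA142

def TA141 : Tr := .s3 TA140 tA143
theorem CA141 : run runA TA141 23058430092136939520 4611686018427387904 36028797018963968 36028797018963968 = true :=
  run_s3' TA140 tA143 (by decide) CA140 cA143

def TA142 : Tr := .s3 TA141 tA144
theorem CA142 : run runA TA142 23058430092136939520 4611686018427387904 72057594037927936 72057594037927936 = true :=
  run_s3' TA141 tA144 (by decide) CA141 cA144

def TA143 : Tr := .s3 TA142 tA145
theorem CA143 : run runA TA143 23058430092136939520 4611686018427387904 144115188075855872 144115188075855872 = true :=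
  run_s3' TA142 tA145 (by decide) CA142 cA145

def TA144 : Tr := .s3 TA143 tA146
theorem CA144 : run runA TA144 23058430092136939520 4611686018427387904 288230376151711744 288230376151711744 = true :=
  run_s3' TA143 tA146 (by decide) CA143 cA146

def TA145 : Tr := .s3 TA144 tA147
theorem CA145 : run runA TA145 23058430092136939520 4611686018427387904 576460752303423488 576460752303423488 = true :=
  run_s3' TA144 tA147 (by decide) CA144 cA147

def TA146 : Tr := .s3 TA145 tA148
theorem CA146 : run runA TA146 23058430092136939520 4611686018427387904 1152921504606846976 1152921504606846976 = true :=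
  run_s3' TA145 tA148 (by decide) CA145 cA148

def TA147 : Tr := .s3 TA146 tA149
theorem CA147 : run runA TA147 23058430092136939520 4611686018427387904 2305843009213693952 2305843009213693952 = true :=
  run_s3' TA146 tA149 (by decide) CA146 cA149

def TA148 : Tr := .s3 TA147 tA150
theorem CA148 : run runA TA148 23058430092136939520 4611686018427387904 4611686018427387904 4611686018427387904 = true :=
  run_s3' TA147 tA150 (by decide) CA147 cA150

def TA149 : Tr := .s3 tA151 tA152
theorem CA149 : run runA TA149 20752587082923245568 2305843009213693952 11529215046068469760 2305843009213693952 = true :=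
  run_s3' tA151 tA152 (by decide) cA151 cA152

def TA150 : Tr := .s3 TA149 tA153
theorem CA150 : run runA TA150 20752587082923245568 2305843009213693952 13835058055282163712 4611686018427387904 = true :=
  run_s3' TA149 tA153 (by decide) CA149 cA153

def TA151 : Tr := .s2 TA150 tA154
theorem CA151 : run runA TA151 23058430092136939520 4611686018427387904 13835058055282163712 4611686018427387904 = true :=
  run_s2' TA150 tA154 (by decide) CA150 cA154

def TA152 : Tr := .s3 TA148 TA151
theorem CA152 : run runA TA152 23058430092136939520 4611686018427387904 9223372036854775808 9223372036854775808 = true :=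
  run_s3' TA148 TA151 (by decide) CA148 CA151

def TA153 : Tr := .s2 TA152 tA155
theorem CA153 : run runA TA153 27670116110564327424 9223372036854775808 9223372036854775808 9223372036854775808 = true :=
  run_s2' TA152 tA155 (by decide) CA152 cA155

def TA154 : Tr := .s3 TA153 tA156
theorem CA154 : run runA TA154 27670116110564327424 9223372036854775808 18446744073709551616 18446744073709551616 = true :=
  run_s3' TA153 tA156 (by decide) CA153 cA156

def TA155 : Tr := .s2 TA120 TA154
theorem CA155 : run runA TA155 18446744073709551616 18446744073709551616 18446744073709551616 18446744073709551616 = true :=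
  run_s2' TA120 TA154 (by decide) CA120 CA154

/-- the complete run -/
theorem allA : run runA TA155 one64 one64 one64 one64 = true := CA155

end Vale.Agent.Lib.P154.Neg.Ck
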