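import Vale.Agent.Lib.P154.Neg.CkGC0
import Vale.Agent.Lib.P154.Neg.CkGC1
import Vale.Agent.Lib.P154.Neg.CkGC2
import Vale.Agent.Lib.P154.Neg.CkGC3
import Vale.Agent.Lib.P154.Neg.CkGC4
import Vale.Agent.Lib.P154.Neg.CkGC5
import Vale.Agent.Lib.P154.Neg.CkGC6
import Vale.Agent.Lib.P154.Neg.CkGC7
import Vale.Agent.Lib.P154.Neg.CkGC8
import Vale.Agent.Lib.P154.Neg.CkGC9
import Vale.Agent.Lib.P154.Neg.CkGC10
import Vale.Agent.Lib.P154.Neg.CkGC11
import Vale.Agent.Lib.P154.Neg.CkGC12
import Vale.Agent.Lib.P154.Neg.CkGC13
import Vale.Agent.Lib.P154.Neg.CkGC14
import Vale.Agent.Lib.P154.Neg.CkGC15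
import Vale.Agent.Lib.P154.Neg.CkGC16
import Vale.Agent.Lib.P154.Neg.CkGC17
import Vale.Agent.Lib.P154.Neg.CkGC18
import Vale.Agent.Lib.P154.Neg.CkGC19
import Vale.Agent.Lib.P154.Neg.CkGC20
import Vale.Agent.Lib.P154.Neg.CkGC21
import Vale.Agent.Lib.P154.Neg.CkGC22
import Vale.Agent.Lib.P154.Neg.CkGC23
import Vale.Agent.Lib.P154.Neg.CkGC24
import Vale.Agent.Lib.P154.Neg.CkGC25
import Vale.Agent.Lib.P154.Neg.CkGC26
import Vale.Agent.Lib.P154.Neg.CkTopAux

/-! Assembly of run C. -/

namespace Vale.Agent.Lib.P154.Neg.Ck

def TC0 : Tr := .s2 tC6 tC7
theorem CC0 : run runC TC0 17293822569102704640 1152921504606846976 15564440312192434176 576460752303423488 = true :=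
  run_s2' tC6 tC7 (by decide) cC6 cC7

def TC1 : Tr := .s3 tC5 TC0
theorem CC1 : run runC TC1 17293822569102704640 1152921504606846976 14987979559889010688 1152921504606846976 = true :=
  run_s3' tC5 TC0 (by decide) cC5 CC0

def TC2 : Tr := .s2 tC4 TC1
theorem CC2 : run runC TC2 16140901064495857664 2305843009213693952 14987979559889010688 1152921504606846976 = true :=
  run_s2' tC4 TC1 (by decide) cC4 CC1

def TC3 : Tr := .s3 tC12 tC13
theorem CC3 : run runC TC3 18158513697557839872 288230376151711744 17005592192950992896 288230376151711744 = true :=
  run_s3' tC12 tC13 (by decide) cC12 cC13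

def TC4 : Tr := .s2 tC11 TC3
theorem CC4 : run runC TC4 17870283321406128128 576460752303423488 17005592192950992896 288230376151711744 = true :=
  run_s2' tC11 TC3 (by decide) cC11 CC3

def TC5 : Tr := .s3 tC10 TC4
theorem CC5 : run runC TC5 17870283321406128128 576460752303423488 16717361816799281152 576460752303423488 = true :=
  run_s3' tC10 TC4 (by decide) cC10 CC4

def TC6 : Tr := .s2 tC9 TC5
theorem CC6 : run runC TC6 17293822569102704640 1152921504606846976 16717361816799281152 576460752303423488 = true :=
  run_s2' tC9 TC5 (by decide) cC9 CC5

def TC7 : Tr := .s2 tC16 tC17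
theorem CC7 : run runC TC7 18158513697557839872 288230376151711744 17437937757178560512 144115188075855872 = true :=
  run_s2' tC16 tC17 (by decide) cC16 cC17

def TC8 : Tr := .s2 tC20 tC21
theorem CC8 : run runC TC8 18302628885633695744 144115188075855872 17798225727368200192 72057594037927936 = true :=
  run_s2' tC20 tC21 (by decide) cC20 cC21

def TC9 : Tr := .s3 tC19 TC8
theorem CC9 : run runC TC9 18302628885633695744 144115188075855872 17726168133330272256 144115188075855872 = true :=
  run_s3' tC19 TC8 (by decide) cC19 CC8

def TC10 : Tr := .s2 tC18 TC9
theorem CC10 : run runC TC10 18158513697557839872 288230376151711744 17726168133330272256 144115188075855872 = true :=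
  run_s2' tC18 TC9 (by decide) cC18 CC9

def TC11 : Tr := .s3 TC7 TC10
theorem CC11 : run runC TC11 18158513697557839872 288230376151711744 17582052945254416384 288230376151711744 = true :=
  run_s3' TC7 TC10 (by decide) CC7 CC10

def TC12 : Tr := .s2 tC15 TC11
theorem CC12 : run runC TC12 17870283321406128128 576460752303423488 17582052945254416384 288230376151711744 = true :=
  run_s2' tC15 TC11 (by decide) cC15 CC11

def TC13 : Tr := .s3 tC23 tC24
theorem CC13 : run runC TC13 18014398509481984000 144115188075855872 18014398509481984000 144115188075855872 = true :=
  run_s3' tC23 tC24 (by decide) cC23 cC24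

def TC14 : Tr := .s3 tC26 tC27
theorem CC14 : run runC TC14 18374686479671623680 72057594037927936 17942340915444056064 72057594037927936 = true :=
  run_s3' tC26 tC27 (by decide) cC26 cC27

def TC15 : Tr := .s2 tC25 TC14
theorem CC15 : run runC TC15 18302628885633695744 144115188075855872 17942340915444056064 72057594037927936 = true :=
  run_s2' tC25 TC14 (by decide) cC25 CC14

def TC16 : Tr := .s3 tC28 tC29
theorem CC16 : run runC TC16 18230571291595767808 72057594037927936 18086456103519911936 72057594037927936 = true :=
  run_s3' tC28 tC29 (by decide) cC28 cC29

def TC17 : Tr := .s2 tC30 tC31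
theorem CC17 : run runC TC17 18374686479671623680 72057594037927936 18050427306500947968 36028797018963968 = true :=
  run_s2' tC30 tC31 (by decide) cC30 cC31

def TC18 : Tr := .s3 tC33 tC34
theorem CC18 : run runC TC18 18410715276690587648 36028797018963968 18122484900538875904 36028797018963968 = true :=
  run_s3' tC33 tC34 (by decide) cC33 cC34

def TC19 : Tr := .s2 tC32 TC18
theorem CC19 : run runC TC19 18374686479671623680 72057594037927936 18122484900538875904 36028797018963968 = true :=
  run_s2' tC32 TC18 (by decide) cC32 CC18

def TC20 : Tr := .s3 TC17 TC19
theorem CC20 : run runC TC20 18374686479671623680 72057594037927936 18086456103519911936 72057594037927936 = true :=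
  run_s3' TC17 TC19 (by decide) CC17 CC19

def TC21 : Tr := .s2 TC16 TC20
theorem CC21 : run runC TC21 18302628885633695744 144115188075855872 18086456103519911936 72057594037927936 = true :=
  run_s2' TC16 TC20 (by decide) CC16 CC20

def TC22 : Tr := .s3 TC15 TC21
theorem CC22 : run runC TC22 18302628885633695744 144115188075855872 18014398509481984000 144115188075855872 = true :=
  run_s3' TC15 TC21 (by decide) CC15 CC21

def TC23 : Tr := .s2 TC13 TC22
theorem CC23 : run runC TC23 18158513697557839872 288230376151711744 18014398509481984000 144115188075855872 = true :=
  run_s2' TC13 TC22 (by decide) CC13 CC22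

def TC24 : Tr := .s2 tC36 tC37
theorem CC24 : run runC TC24 18230571291595767808 72057594037927936 18194542494576803840 36028797018963968 = true :=
  run_s2' tC36 tC37 (by decide) cC36 cC37

def TC25 : Tr := .s3 TC24 tC38
theorem CC25 : run runC TC25 18230571291595767808 72057594037927936 18230571291595767808 72057594037927936 = true :=
  run_s3' TC24 tC38 (by decide) CC24 cC38

def TC26 : Tr := .s3 tC39 tC40
theorem CC26 : run runC TC26 18338657682652659712 36028797018963968 18194542494576803840 36028797018963968 = true :=
  run_s3' tC39 tC40 (by decide) cC39 cC40

def TC27 : Tr := .s2 tC42 tC43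
theorem CC27 : run runC TC27 18410715276690587648 36028797018963968 18212556893086285824 18014398509481984 = true :=
  run_s2' tC42 tC43 (by decide) cC42 cC43

def TC28 : Tr := .s3 tC41 TC27
theorem CC28 : run runC TC28 18410715276690587648 36028797018963968 18194542494576803840 36028797018963968 = true :=
  run_s3' tC41 TC27 (by decide) cC41 CC27

def TC29 : Tr := .s2 TC26 TC28
theorem CC29 : run runC TC29 18374686479671623680 72057594037927936 18194542494576803840 36028797018963968 = true :=
  run_s2' TC26 TC28 (by decide) CC26 CC28

def TC30 : Tr := .s2 tC45 tC46
theorem CC30 : run runC TC30 18338657682652659712 36028797018963968 18284614487124213760 18014398509481984 = true :=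
  run_s2' tC45 tC46 (by decide) cC45 cC46

def TC31 : Tr := .s3 tC44 TC30
theorem CC31 : run runC TC31 18338657682652659712 36028797018963968 18266600088614731776 36028797018963968 = true :=
  run_s3' tC44 TC30 (by decide) cC44 CC30

def TC32 : Tr := .s3 tC48 tC49
theorem CC32 : run runC TC32 18428729675200069632 18014398509481984 18248585690105249792 18014398509481984 = true :=
  run_s3' tC48 tC49 (by decide) cC48 cC49

def TC33 : Tr := .s2 tC47 TC32
theorem CC33 : run runC TC33 18410715276690587648 36028797018963968 18248585690105249792 18014398509481984 = true :=
  run_s2' tC47 TC32 (by decide) cC47 CC32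

def TC34 : Tr := .s3 tC50 tC51
theorem CC34 : run runC TC34 18392700878181105664 18014398509481984 18284614487124213760 18014398509481984 = true :=
  run_s3' tC50 tC51 (by decide) cC50 cC51

def TC35 : Tr := .s3 tC52 tC53
theorem CC35 : run runC TC35 18428729675200069632 18014398509481984 18284614487124213760 18014398509481984 = true :=
  run_s3' tC52 tC53 (by decide) cC52 cC53

def TC36 : Tr := .s2 TC34 TC35
theorem CC36 : run runC TC36 18410715276690587648 36028797018963968 18284614487124213760 18014398509481984 = true :=
  run_s2' TC34 TC35 (by decide) CC34 CC35

def TC37 : Tr := .s3 TC33 TC36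
theorem CC37 : run runC TC37 18410715276690587648 36028797018963968 18266600088614731776 36028797018963968 = true :=
  run_s3' TC33 TC36 (by decide) CC33 CC36

def TC38 : Tr := .s2 TC31 TC37
theorem CC38 : run runC TC38 18374686479671623680 72057594037927936 18266600088614731776 36028797018963968 = true :=
  run_s2' TC31 TC37 (by decide) CC31 CC37

def TC39 : Tr := .s3 TC29 TC38
theorem CC39 : run runC TC39 18374686479671623680 72057594037927936 18230571291595767808 72057594037927936 = true :=
  run_s3' TC29 TC38 (by decide) CC29 CC38

def TC40 : Tr := .s2 TC25 TC39
theorem CC40 : run runC TC40 18302628885633695744 144115188075855872 18230571291595767808 72057594037927936 = true :=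
  run_s2' TC25 TC39 (by decide) CC25 CC39

def TC41 : Tr := .s3 tC56 tC57
theorem CC41 : run runC TC41 18356672081162141696 18014398509481984 18320643284143177728 18014398509481984 = true :=
  run_s3' tC56 tC57 (by decide) cC56 cC57

def TC42 : Tr := .s2 tC55 TC41
theorem CC42 : run runC TC42 18338657682652659712 36028797018963968 18320643284143177728 18014398509481984 = true :=
  run_s2' tC55 TC41 (by decide) cC55 CC41

def TC43 : Tr := .s3 tC59 tC60
theorem CC43 : run runC TC43 18356672081162141696 18014398509481984 18356672081162141696 18014398509481984 = true :=
  run_s3' tC59 tC60 (by decide) cC59 cC60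

def TC44 : Tr := .s2 tC58 TC43
theorem CC44 : run runC TC44 18338657682652659712 36028797018963968 18356672081162141696 18014398509481984 = true :=
  run_s2' tC58 TC43 (by decide) cC58 CC43

def TC45 : Tr := .s3 TC42 TC44
theorem CC45 : run runC TC45 18338657682652659712 36028797018963968 18338657682652659712 36028797018963968 = true :=
  run_s3' TC42 TC44 (by decide) CC42 CC44

def TC46 : Tr := .s2 tC62 tC63
theorem CC46 : run runC TC46 18392700878181105664 18014398509481984 18329650483397918720 9007199254740992 = true :=
  run_s2' tC62 tC63 (by decide) cC62 cC63

def TC47 : Tr := .s3 tC61 TC46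
theorem CC47 : run runC TC47 18392700878181105664 18014398509481984 18320643284143177728 18014398509481984 = true :=
  run_s3' tC61 TC46 (by decide) cC61 CC46

def TC48 : Tr := .s3 tC64 tC65
theorem CC48 : run runC TC48 18428729675200069632 18014398509481984 18320643284143177728 18014398509481984 = true :=
  run_s3' tC64 tC65 (by decide) cC64 cC65

def TC49 : Tr := .s2 TC47 TC48
theorem CC49 : run runC TC49 18410715276690587648 36028797018963968 18320643284143177728 18014398509481984 = true :=
  run_s2' TC47 TC48 (by decide) CC47 CC48

def TC50 : Tr := .s2 tC66 tC67
theorem CC50 : run runC TC50 18392700878181105664 18014398509481984 18347664881907400704 9007199254740992 = true :=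
  run_s2' tC66 tC67 (by decide) cC66 cC67

def TC51 : Tr := .s3 TC50 tC68
theorem CC51 : run runC TC51 18392700878181105664 18014398509481984 18356672081162141696 18014398509481984 = true :=
  run_s3' TC50 tC68 (by decide) CC50 cC68

def TC52 : Tr := .s2 TC51 tC69
theorem CC52 : run runC TC52 18410715276690587648 36028797018963968 18356672081162141696 18014398509481984 = true :=
  run_s2' TC51 tC69 (by decide) CC51 cC69

def TC53 : Tr := .s3 TC49 TC52
theorem CC53 : run runC TC53 18410715276690587648 36028797018963968 18338657682652659712 36028797018963968 = true :=
  run_s3' TC49 TC52 (by decide) CC49 CC52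

def TC54 : Tr := .s2 TC45 TC53
theorem CC54 : run runC TC54 18374686479671623680 72057594037927936 18338657682652659712 36028797018963968 = true :=
  run_s2' TC45 TC53 (by decide) CC45 CC53

def TC55 : Tr := .s3 TC54 tC70
theorem CC55 : run runC TC55 18374686479671623680 72057594037927936 18374686479671623680 72057594037927936 = true :=
  run_s3' TC54 tC70 (by decide) CC54 cC70

def TC56 : Tr := .s2 tC54 TC55
theorem CC56 : run runC TC56 18302628885633695744 144115188075855872 18374686479671623680 72057594037927936 = true :=
  run_s2' tC54 TC55 (by decide) cC54 CC55

def TC57 : Tr := .s3 TC40 TC56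
theorem CC57 : run runC TC57 18302628885633695744 144115188075855872 18302628885633695744 144115188075855872 = true :=
  run_s3' TC40 TC56 (by decide) CC40 CC56

def TC58 : Tr := .s2 tC35 TC57
theorem CC58 : run runC TC58 18158513697557839872 288230376151711744 18302628885633695744 144115188075855872 = true :=
  run_s2' tC35 TC57 (by decide) cC35 CC57

def TC59 : Tr := .s3 TC23 TC58
theorem CC59 : run runC TC59 18158513697557839872 288230376151711744 18158513697557839872 288230376151711744 = true :=
  run_s3' TC23 TC58 (by decide) CC23 CC58

def TC60 : Tr := .s2 tC22 TC59
theorem CC60 : run runC TC60 17870283321406128128 576460752303423488 18158513697557839872 288230376151711744 = true :=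
  run_s2' tC22 TC59 (by decide) cC22 CC59

def TC61 : Tr := .s3 TC12 TC60
theorem CC61 : run runC TC61 17870283321406128128 576460752303423488 17870283321406128128 576460752303423488 = true :=
  run_s3' TC12 TC60 (by decide) CC12 CC60

def TC62 : Tr := .s2 tC14 TC61
theorem CC62 : run runC TC62 17293822569102704640 1152921504606846976 17870283321406128128 576460752303423488 = true :=
  run_s2' tC14 TC61 (by decide) cC14 CC61

def TC63 : Tr := .s3 TC6 TC62
theorem CC63 : run runC TC63 17293822569102704640 1152921504606846976 17293822569102704640 1152921504606846976 = true :=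
  run_s3' TC6 TC62 (by decide) CC6 CC62

def TC64 : Tr := .s2 tC8 TC63
theorem CC64 : run runC TC64 16140901064495857664 2305843009213693952 17293822569102704640 1152921504606846976 = true :=
  run_s2' tC8 TC63 (by decide) cC8 CC63

def TC65 : Tr := .s3 TC2 TC64
theorem CC65 : run runC TC65 16140901064495857664 2305843009213693952 16140901064495857664 2305843009213693952 = true :=
  run_s3' TC2 TC64 (by decide) CC2 CC64

def TC66 : Tr := .s2 tC3 TC65
theorem CC66 : run runC TC66 13835058055282163712 4611686018427387904 16140901064495857664 2305843009213693952 = true :=
  run_s2' tC3 TC65 (by decide) cC3 CC65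

def TC67 : Tr := .s3 tC2 TC66
theorem CC67 : run runC TC67 13835058055282163712 4611686018427387904 13835058055282163712 4611686018427387904 = true :=
  run_s3' tC2 TC66 (by decide) cC2 CC66

def TC68 : Tr := .s3 tC1 TC67
theorem CC68 : run runC TC68 13835058055282163712 4611686018427387904 9223372036854775808 9223372036854775808 = true :=
  run_s3' tC1 TC67 (by decide) cC1 CC67

def TC69 : Tr := .s2 tC0 TC68
theorem CC69 : run runC TC69 9223372036854775808 9223372036854775808 9223372036854775808 9223372036854775808 = true :=
  run_s2' tC0 TC68 (by decide) cC0 CC68

def TC70 : Tr := .s3 TC69 tC71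
theorem CC70 : run runC TC70 9223372036854775808 9223372036854775808 18446744073709551616 18446744073709551616 = true :=
  run_s3' TC69 tC71 (by decide) CC69 cC71

def TC71 : Tr := .s3 tC75 tC76
theorem CC71 : run runC TC71 19023204826012975104 576460752303423488 15564440312192434176 576460752303423488 = true :=
  run_s3' tC75 tC76 (by decide) cC75 cC76

def TC72 : Tr := .s2 TC71 tC77
theorem CC72 : run runC TC72 19599665578316398592 1152921504606846976 15564440312192434176 576460752303423488 = true :=
  run_s2' TC71 tC77 (by decide) CC71 cC77

def TC73 : Tr := .s3 tC74 TC72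
theorem CC73 : run runC TC73 19599665578316398592 1152921504606846976 14987979559889010688 1152921504606846976 = true :=
  run_s3' tC74 TC72 (by decide) cC74 CC72

def TC74 : Tr := .s2 TC73 tC78
theorem CC74 : run runC TC74 20752587082923245568 2305843009213693952 14987979559889010688 1152921504606846976 = true :=
  run_s2' TC73 tC78 (by decide) CC73 cC78

def TC75 : Tr := .s2 tC79 tC80
theorem CC75 : run runC TC75 19023204826012975104 576460752303423488 16429131440647569408 288230376151711744 = true :=
  run_s2' tC79 tC80 (by decide) cC79 cC80

def TC76 : Tr := .s2 tC82 tC83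
theorem CC76 : run runC TC76 18734974449861263360 288230376151711744 17149707381026848768 144115188075855872 = true :=
  run_s2' tC82 tC83 (by decide) cC82 cC83

def TC77 : Tr := .s3 tC81 TC76
theorem CC77 : run runC TC77 18734974449861263360 288230376151711744 17005592192950992896 288230376151711744 = true :=
  run_s3' tC81 TC76 (by decide) cC81 CC76

def TC78 : Tr := .s2 TC77 tC84
theorem CC78 : run runC TC78 19023204826012975104 576460752303423488 17005592192950992896 288230376151711744 = true :=
  run_s2' TC77 tC84 (by decide) CC77 cC84

def TC79 : Tr := .s3 TC75 TC78
theorem CC79 : run runC TC79 19023204826012975104 576460752303423488 16717361816799281152 576460752303423488 = true :=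
  run_s3' TC75 TC78 (by decide) CC75 CC78

def TC80 : Tr := .s2 TC79 tC85
theorem CC80 : run runC TC80 19599665578316398592 1152921504606846976 16717361816799281152 576460752303423488 = true :=
  run_s2' TC79 tC85 (by decide) CC79 cC85

def TC81 : Tr := .s3 tC86 tC87
theorem CC81 : run runC TC81 18590859261785407488 144115188075855872 17437937757178560512 144115188075855872 = true :=
  run_s3' tC86 tC87 (by decide) cC86 cC87

def TC82 : Tr := .s3 tC88 tC89
theorem CC82 : run runC TC82 18879089637937119232 144115188075855872 17437937757178560512 144115188075855872 = true :=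
  run_s3' tC88 tC89 (by decide) cC88 cC89

def TC83 : Tr := .s2 TC81 TC82
theorem CC83 : run runC TC83 18734974449861263360 288230376151711744 17437937757178560512 144115188075855872 = true :=
  run_s2' TC81 TC82 (by decide) CC81 CC82

def TC84 : Tr := .s2 tC90 tC91
theorem CC84 : run runC TC84 18590859261785407488 144115188075855872 17654110539292344320 72057594037927936 = true :=
  run_s2' tC90 tC91 (by decide) cC90 cC91

def TC85 : Tr := .s3 tC93 tC94
theorem CC85 : run runC TC85 18662916855823335424 72057594037927936 17798225727368200192 72057594037927936 = true :=
  run_s3' tC93 tC94 (by decide) cC93 cC94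

def TC86 : Tr := .s2 tC92 TC85
theorem CC86 : run runC TC86 18590859261785407488 144115188075855872 17798225727368200192 72057594037927936 = true :=
  run_s2' tC92 TC85 (by decide) cC92 CC85

def TC87 : Tr := .s3 TC84 TC86
theorem CC87 : run runC TC87 18590859261785407488 144115188075855872 17726168133330272256 144115188075855872 = true :=
  run_s3' TC84 TC86 (by decide) CC84 CC86

def TC88 : Tr := .s2 TC87 tC95
theorem CC88 : run runC TC88 18734974449861263360 288230376151711744 17726168133330272256 144115188075855872 = true :=
  run_s2' TC87 tC95 (by decide) CC87 cC95

def TC89 : Tr := .s3 TC83 TC88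
theorem CC89 : run runC TC89 18734974449861263360 288230376151711744 17582052945254416384 288230376151711744 = true :=
  run_s3' TC83 TC88 (by decide) CC83 CC88

def TC90 : Tr := .s2 TC89 tC96
theorem CC90 : run runC TC90 19023204826012975104 576460752303423488 17582052945254416384 288230376151711744 = true :=
  run_s2' TC89 tC96 (by decide) CC89 cC96

def TC91 : Tr := .s2 tC98 tC99
theorem CC91 : run runC TC91 18518801667747479552 72057594037927936 17978369712463020032 36028797018963968 = true :=
  run_s2' tC98 tC99 (by decide) cC98 cC99

def TC92 : Tr := .s3 tC97 TC91
theorem CC92 : run runC TC92 18518801667747479552 72057594037927936 17942340915444056064 72057594037927936 = true :=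
  run_s3' tC97 TC91 (by decide) cC97 CC91

def TC93 : Tr := .s3 tC100 tC101
theorem CC93 : run runC TC93 18662916855823335424 72057594037927936 17942340915444056064 72057594037927936 = true :=
  run_s3' tC100 tC101 (by decide) cC100 cC101

def TC94 : Tr := .s2 TC92 TC93
theorem CC94 : run runC TC94 18590859261785407488 144115188075855872 17942340915444056064 72057594037927936 = true :=
  run_s2' TC92 TC93 (by decide) CC92 CC93

def TC95 : Tr := .s3 tC103 tC104
theorem CC95 : run runC TC95 18554830464766443520 36028797018963968 18050427306500947968 36028797018963968 = true :=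
  run_s3' tC103 tC104 (by decide) cC103 cC104

def TC96 : Tr := .s2 tC102 TC95
theorem CC96 : run runC TC96 18518801667747479552 72057594037927936 18050427306500947968 36028797018963968 = true :=
  run_s2' tC102 TC95 (by decide) cC102 CC95

def TC97 : Tr := .s3 tC105 tC106
theorem CC97 : run runC TC97 18482772870728515584 36028797018963968 18122484900538875904 36028797018963968 = true :=
  run_s3' tC105 tC106 (by decide) cC105 cC106

def TC98 : Tr := .s2 tC108 tC109
theorem CC98 : run runC TC98 18554830464766443520 36028797018963968 18140499299048357888 18014398509481984 = true :=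
  run_s2' tC108 tC109 (by decide) cC108 cC109

def TC99 : Tr := .s3 tC107 TC98
theorem CC99 : run runC TC99 18554830464766443520 36028797018963968 18122484900538875904 36028797018963968 = true :=
  run_s3' tC107 TC98 (by decide) cC107 CC98

def TC100 : Tr := .s2 TC97 TC99
theorem CC100 : run runC TC100 18518801667747479552 72057594037927936 18122484900538875904 36028797018963968 = true :=
  run_s2' TC97 TC99 (by decide) CC97 CC99

def TC101 : Tr := .s3 TC96 TC100
theorem CC101 : run runC TC101 18518801667747479552 72057594037927936 18086456103519911936 72057594037927936 = true :=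
  run_s3' TC96 TC100 (by decide) CC96 CC100

def TC102 : Tr := .s3 tC110 tC111
theorem CC102 : run runC TC102 18662916855823335424 72057594037927936 18086456103519911936 72057594037927936 = true :=
  run_s3' tC110 tC111 (by decide) cC110 cC111

def TC103 : Tr := .s2 TC101 TC102
theorem CC103 : run runC TC103 18590859261785407488 144115188075855872 18086456103519911936 72057594037927936 = true :=
  run_s2' TC101 TC102 (by decide) CC101 CC102

def TC104 : Tr := .s3 TC94 TC103
theorem CC104 : run runC TC104 18590859261785407488 144115188075855872 18014398509481984000 144115188075855872 = true :=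
  run_s3' TC94 TC103 (by decide) CC94 CC103

def TC105 : Tr := .s2 TC104 tC112
theorem CC105 : run runC TC105 18734974449861263360 288230376151711744 18014398509481984000 144115188075855872 = true :=
  run_s2' TC104 tC112 (by decide) CC104 cC112

def TC106 : Tr := .s2 tC113 tC114
theorem CC106 : run runC TC106 18482772870728515584 36028797018963968 18176528096067321856 18014398509481984 = true :=
  run_s2' tC113 tC114 (by decide) cC113 cC114

def TC107 : Tr := .s3 tC116 tC117
theorem CC107 : run runC TC107 18500787269237997568 18014398509481984 18212556893086285824 18014398509481984 = true :=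
  run_s3' tC116 tC117 (by decide) cC116 cC117

def TC108 : Tr := .s2 tC115 TC107
theorem CC108 : run runC TC108 18482772870728515584 36028797018963968 18212556893086285824 18014398509481984 = true :=
  run_s2' tC115 TC107 (by decide) cC115 CC107

def TC109 : Tr := .s3 TC106 TC108
theorem CC109 : run runC TC109 18482772870728515584 36028797018963968 18194542494576803840 36028797018963968 = true :=
  run_s3' TC106 TC108 (by decide) CC106 CC108

def TC110 : Tr := .s2 tC118 tC119
theorem CC110 : run runC TC110 18554830464766443520 36028797018963968 18176528096067321856 18014398509481984 = true :=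
  run_s2' tC118 tC119 (by decide) cC118 cC119

def TC111 : Tr := .s3 tC120 tC121
theorem CC111 : run runC TC111 18536816066256961536 18014398509481984 18212556893086285824 18014398509481984 = true :=
  run_s3' tC120 tC121 (by decide) cC120 cC121

def TC112 : Tr := .s2 TC111 tC122
theorem CC112 : run runC TC112 18554830464766443520 36028797018963968 18212556893086285824 18014398509481984 = true :=
  run_s2' TC111 tC122 (by decide) CC111 cC122

def TC113 : Tr := .s3 TC110 TC112
theorem CC113 : run runC TC113 18554830464766443520 36028797018963968 18194542494576803840 36028797018963968 = true :=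
  run_s3' TC110 TC112 (by decide) CC110 CC112

def TC114 : Tr := .s2 TC109 TC113
theorem CC114 : run runC TC114 18518801667747479552 72057594037927936 18194542494576803840 36028797018963968 = true :=
  run_s2' TC109 TC113 (by decide) CC109 CC113

def TC115 : Tr := .s3 tC123 tC124
theorem CC115 : run runC TC115 18464758472219033600 18014398509481984 18248585690105249792 18014398509481984 = true :=
  run_s3' tC123 tC124 (by decide) cC123 cC124

def TC116 : Tr := .s3 tC125 tC126
theorem CC116 : run runC TC116 18500787269237997568 18014398509481984 18248585690105249792 18014398509481984 = true :=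
  run_s3' tC125 tC126 (by decide) cC125 cC126

def TC117 : Tr := .s2 TC115 TC116
theorem CC117 : run runC TC117 18482772870728515584 36028797018963968 18248585690105249792 18014398509481984 = true :=
  run_s2' TC115 TC116 (by decide) CC115 CC116

def TC118 : Tr := .s2 tC128 tC129
theorem CC118 : run runC TC118 18464758472219033600 18014398509481984 18293621686378954752 9007199254740992 = true :=
  run_s2' tC128 tC129 (by decide) cC128 cC129

def TC119 : Tr := .s3 tC127 TC118
theorem CC119 : run runC TC119 18464758472219033600 18014398509481984 18284614487124213760 18014398509481984 = true :=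
  run_s3' tC127 TC118 (by decide) cC127 CC118

def TC120 : Tr := .s2 tC130 tC131
theorem CC120 : run runC TC120 18500787269237997568 18014398509481984 18275607287869472768 9007199254740992 = true :=
  run_s2' tC130 tC131 (by decide) cC130 cC131

def TC121 : Tr := .s2 tC132 tC133
theorem CC121 : run runC TC121 18500787269237997568 18014398509481984 18293621686378954752 9007199254740992 = true :=
  run_s2' tC132 tC133 (by decide) cC132 cC133

def TC122 : Tr := .s3 TC120 TC121
theorem CC122 : run runC TC122 18500787269237997568 18014398509481984 18284614487124213760 18014398509481984 = true :=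
  run_s3' TC120 TC121 (by decide) CC120 CC121

def TC123 : Tr := .s2 TC119 TC122
theorem CC123 : run runC TC123 18482772870728515584 36028797018963968 18284614487124213760 18014398509481984 = true :=
  run_s2' TC119 TC122 (by decide) CC119 CC122

def TC124 : Tr := .s3 TC117 TC123
theorem CC124 : run runC TC124 18482772870728515584 36028797018963968 18266600088614731776 36028797018963968 = true :=
  run_s3' TC117 TC123 (by decide) CC117 CC123

def TC125 : Tr := .s3 tC134 tC135
theorem CC125 : run runC TC125 18536816066256961536 18014398509481984 18248585690105249792 18014398509481984 = true :=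
  run_s3' tC134 tC135 (by decide) cC134 cC135

def TC126 : Tr := .s2 TC125 tC136
theorem CC126 : run runC TC126 18554830464766443520 36028797018963968 18248585690105249792 18014398509481984 = true :=
  run_s2' TC125 tC136 (by decide) CC125 cC136

def TC127 : Tr := .s3 TC126 tC137
theorem CC127 : run runC TC127 18554830464766443520 36028797018963968 18266600088614731776 36028797018963968 = true :=
  run_s3' TC126 tC137 (by decide) CC126 cC137

def TC128 : Tr := .s2 TC124 TC127
theorem CC128 : run runC TC128 18518801667747479552 72057594037927936 18266600088614731776 36028797018963968 = true :=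
  run_s2' TC124 TC127 (by decide) CC124 CC127

def TC129 : Tr := .s3 TC114 TC128
theorem CC129 : run runC TC129 18518801667747479552 72057594037927936 18230571291595767808 72057594037927936 = true :=
  run_s3' TC114 TC128 (by decide) CC114 CC128

def TC130 : Tr := .s2 TC129 tC138
theorem CC130 : run runC TC130 18590859261785407488 144115188075855872 18230571291595767808 72057594037927936 = true :=
  run_s2' TC129 tC138 (by decide) CC129 cC138

def TC131 : Tr := .s3 TC130 tC139
theorem CC131 : run runC TC131 18590859261785407488 144115188075855872 18302628885633695744 144115188075855872 = true :=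
  run_s3' TC130 tC139 (by decide) CC130 cC139

def TC132 : Tr := .s2 TC131 tC140
theorem CC132 : run runC TC132 18734974449861263360 288230376151711744 18302628885633695744 144115188075855872 = true :=
  run_s2' TC131 tC140 (by decide) CC131 cC140

def TC133 : Tr := .s3 TC105 TC132
theorem CC133 : run runC TC133 18734974449861263360 288230376151711744 18158513697557839872 288230376151711744 = true :=
  run_s3' TC105 TC132 (by decide) CC105 CC132

def TC134 : Tr := .s2 TC133 tC141
theorem CC134 : run runC TC134 19023204826012975104 576460752303423488 18158513697557839872 288230376151711744 = true :=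
  run_s2' TC133 tC141 (by decide) CC133 cC141

def TC135 : Tr := .s3 TC90 TC134
theorem CC135 : run runC TC135 19023204826012975104 576460752303423488 17870283321406128128 576460752303423488 = true :=
  run_s3' TC90 TC134 (by decide) CC90 CC134

def TC136 : Tr := .s2 TC135 tC142
theorem CC136 : run runC TC136 19599665578316398592 1152921504606846976 17870283321406128128 576460752303423488 = true :=
  run_s2' TC135 tC142 (by decide) CC135 cC142

def TC137 : Tr := .s3 TC80 TC136
theorem CC137 : run runC TC137 19599665578316398592 1152921504606846976 17293822569102704640 1152921504606846976 = true :=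
  run_s3' TC80 TC136 (by decide) CC80 CC136

def TC138 : Tr := .s2 TC137 tC143
theorem CC138 : run runC TC138 20752587082923245568 2305843009213693952 17293822569102704640 1152921504606846976 = true :=
  run_s2' TC137 tC143 (by decide) CC137 cC143

def TC139 : Tr := .s3 TC74 TC138
theorem CC139 : run runC TC139 20752587082923245568 2305843009213693952 16140901064495857664 2305843009213693952 = true :=
  run_s3' TC74 TC138 (by decide) CC74 CC138

def TC140 : Tr := .s3 tC73 TC139
theorem CC140 : run runC TC140 20752587082923245568 2305843009213693952 13835058055282163712 4611686018427387904 = true :=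
  run_s3' tC73 TC139 (by decide) cC73 CC139

def TC141 : Tr := .s2 TC140 tC144
theorem CC141 : run runC TC141 23058430092136939520 4611686018427387904 13835058055282163712 4611686018427387904 = true :=
  run_s2' TC140 tC144 (by decide) CC140 cC144

def TC142 : Tr := .s3 tC72 TC141
theorem CC142 : run runC TC142 23058430092136939520 4611686018427387904 9223372036854775808 9223372036854775808 = true :=
  run_s3' tC72 TC141 (by decide) cC72 CC141

def TC143 : Tr := .s2 TC142 tC145
theorem CC143 : run runC TC143 27670116110564327424 9223372036854775808 9223372036854775808 9223372036854775808 = true :=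
  run_s2' TC142 tC145 (by decide) CC142 cC145

def TC144 : Tr := .s3 TC143 tC146
theorem CC144 : run runC TC144 27670116110564327424 9223372036854775808 18446744073709551616 18446744073709551616 = true :=
  run_s3' TC143 tC146 (by decide) CC143 cC146

def TC145 : Tr := .s2 TC70 TC144
theorem CC145 : run runC TC145 18446744073709551616 18446744073709551616 18446744073709551616 18446744073709551616 = true :=
  run_s2' TC70 TC144 (by decide) CC70 CC144

/-- the complete run -/
theorem allC : run runC TC145 one64 one64 one64 one64 = true := CC145

end Vale.Agent.Lib.P154.Neg.Ck
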