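import Vale.Agent.Lib.P154.Neg.CkGM0
import Vale.Agent.Lib.P154.Neg.CkGM1
import Vale.Agent.Lib.P154.Neg.CkGM2
import Vale.Agent.Lib.P154.Neg.CkTopAux

/-! Assembly of run M. -/

namespace Vale.Agent.Lib.P154.Neg.Ck

def TM0 : Tr := .s2 tM6 tM7
theorem CM0 : run runM TM0 17293822569102704640 1152921504606846976 16717361816799281152 576460752303423488 = true :=
  run_s2' tM6 tM7 (by decide) cM6 cM7

def TM1 : Tr := .s3 tM11 tM12
theorem CM1 : run runM TM1 18158513697557839872 288230376151711744 18158513697557839872 288230376151711744 = true :=
  run_s3' tM11 tM12 (by decide) cM11 cM12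

def TM2 : Tr := .s2 tM10 TM1
theorem CM2 : run runM TM2 17870283321406128128 576460752303423488 18158513697557839872 288230376151711744 = true :=
  run_s2' tM10 TM1 (by decide) cM10 CM1

def TM3 : Tr := .s3 tM9 TM2
theorem CM3 : run runM TM3 17870283321406128128 576460752303423488 17870283321406128128 576460752303423488 = true :=
  run_s3' tM9 TM2 (by decide) cM9 CM2

def TM4 : Tr := .s2 tM8 TM3
theorem CM4 : run runM TM4 17293822569102704640 1152921504606846976 17870283321406128128 576460752303423488 = true :=
  run_s2' tM8 TM3 (by decide) cM8 CM3

def TM5 : Tr := .s3 TM0 TM4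
theorem CM5 : run runM TM5 17293822569102704640 1152921504606846976 17293822569102704640 1152921504606846976 = true :=
  run_s3' TM0 TM4 (by decide) CM0 CM4

def TM6 : Tr := .s2 tM5 TM5
theorem CM6 : run runM TM6 16140901064495857664 2305843009213693952 17293822569102704640 1152921504606846976 = true :=
  run_s2' tM5 TM5 (by decide) cM5 CM5

def TM7 : Tr := .s3 tM4 TM6
theorem CM7 : run runM TM7 16140901064495857664 2305843009213693952 16140901064495857664 2305843009213693952 = true :=
  run_s3' tM4 TM6 (by decide) cM4 CM6

def TM8 : Tr := .s2 tM3 TM7
theorem CM8 : run runM TM8 13835058055282163712 4611686018427387904 16140901064495857664 2305843009213693952 = true :=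
  run_s2' tM3 TM7 (by decide) cM3 CM7

def TM9 : Tr := .s3 tM2 TM8
theorem CM9 : run runM TM9 13835058055282163712 4611686018427387904 13835058055282163712 4611686018427387904 = true :=
  run_s3' tM2 TM8 (by decide) cM2 CM8

def TM10 : Tr := .s3 tM1 TM9
theorem CM10 : run runM TM10 13835058055282163712 4611686018427387904 9223372036854775808 9223372036854775808 = true :=
  run_s3' tM1 TM9 (by decide) cM1 CM9

def TM11 : Tr := .s2 tM0 TM10
theorem CM11 : run runM TM11 9223372036854775808 9223372036854775808 9223372036854775808 9223372036854775808 = true :=
  run_s2' tM0 TM10 (by decide) cM0 CM10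

def TM12 : Tr := .s3 TM11 tM13
theorem CM12 : run runM TM12 9223372036854775808 9223372036854775808 18446744073709551616 18446744073709551616 = true :=
  run_s3' TM11 tM13 (by decide) CM11 cM13

def TM13 : Tr := .s3 tM16 tM17
theorem CM13 : run runM TM13 19599665578316398592 1152921504606846976 14987979559889010688 1152921504606846976 = true :=
  run_s3' tM16 tM17 (by decide) cM16 cM17

def TM14 : Tr := .s2 TM13 tM18
theorem CM14 : run runM TM14 20752587082923245568 2305843009213693952 14987979559889010688 1152921504606846976 = true :=
  run_s2' TM13 tM18 (by decide) CM13 cM18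

def TM15 : Tr := .s3 tM19 tM20
theorem CM15 : run runM TM15 19023204826012975104 576460752303423488 16717361816799281152 576460752303423488 = true :=
  run_s3' tM19 tM20 (by decide) cM19 cM20

def TM16 : Tr := .s2 TM15 tM21
theorem CM16 : run runM TM16 19599665578316398592 1152921504606846976 16717361816799281152 576460752303423488 = true :=
  run_s2' TM15 tM21 (by decide) CM15 cM21

def TM17 : Tr := .s3 tM22 tM23
theorem CM17 : run runM TM17 19023204826012975104 576460752303423488 17870283321406128128 576460752303423488 = true :=
  run_s3' tM22 tM23 (by decide) cM22 cM23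

def TM18 : Tr := .s2 TM17 tM24
theorem CM18 : run runM TM18 19599665578316398592 1152921504606846976 17870283321406128128 576460752303423488 = true :=
  run_s2' TM17 tM24 (by decide) CM17 cM24

def TM19 : Tr := .s3 TM16 TM18
theorem CM19 : run runM TM19 19599665578316398592 1152921504606846976 17293822569102704640 1152921504606846976 = true :=
  run_s3' TM16 TM18 (by decide) CM16 CM18

def TM20 : Tr := .s2 TM19 tM25
theorem CM20 : run runM TM20 20752587082923245568 2305843009213693952 17293822569102704640 1152921504606846976 = true :=
  run_s2' TM19 tM25 (by decide) CM19 cM25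

def TM21 : Tr := .s3 TM14 TM20
theorem CM21 : run runM TM21 20752587082923245568 2305843009213693952 16140901064495857664 2305843009213693952 = true :=
  run_s3' TM14 TM20 (by decide) CM14 CM20

def TM22 : Tr := .s3 tM15 TM21
theorem CM22 : run runM TM22 20752587082923245568 2305843009213693952 13835058055282163712 4611686018427387904 = true :=
  run_s3' tM15 TM21 (by decide) cM15 CM21

def TM23 : Tr := .s2 TM22 tM26
theorem CM23 : run runM TM23 23058430092136939520 4611686018427387904 13835058055282163712 4611686018427387904 = true :=
  run_s2' TM22 tM26 (by decide) CM22 cM26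

def TM24 : Tr := .s3 tM14 TM23
theorem CM24 : run runM TM24 23058430092136939520 4611686018427387904 9223372036854775808 9223372036854775808 = true :=
  run_s3' tM14 TM23 (by decide) cM14 CM23

def TM25 : Tr := .s2 TM24 tM27
theorem CM25 : run runM TM25 27670116110564327424 9223372036854775808 9223372036854775808 9223372036854775808 = true :=
  run_s2' TM24 tM27 (by decide) CM24 cM27

def TM26 : Tr := .s3 TM25 tM28
theorem CM26 : run runM TM26 27670116110564327424 9223372036854775808 18446744073709551616 18446744073709551616 = true :=
  run_s3' TM25 tM28 (by decide) CM25 cM28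

def TM27 : Tr := .s2 TM12 TM26
theorem CM27 : run runM TM27 18446744073709551616 18446744073709551616 18446744073709551616 18446744073709551616 = true :=
  run_s2' TM12 TM26 (by decide) CM12 CM26

/-- the complete run -/
theorem allM : run runM TM27 one64 one64 one64 one64 = true := CM27

end Vale.Agent.Lib.P154.Neg.Ck
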