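import Vale.Agent.Lib.P154.Neg.CkGR0
import Vale.Agent.Lib.P154.Neg.CkGR1
import Vale.Agent.Lib.P154.Neg.CkGR2
import Vale.Agent.Lib.P154.Neg.CkGR3
import Vale.Agent.Lib.P154.Neg.CkGR4
import Vale.Agent.Lib.P154.Neg.CkGR5
import Vale.Agent.Lib.P154.Neg.CkGR6
import Vale.Agent.Lib.P154.Neg.CkGR7
import Vale.Agent.Lib.P154.Neg.CkGR8
import Vale.Agent.Lib.P154.Neg.CkGR9
import Vale.Agent.Lib.P154.Neg.CkGR10
import Vale.Agent.Lib.P154.Neg.CkGR11
import Vale.Agent.Lib.P154.Neg.CkGR12
import Vale.Agent.Lib.P154.Neg.CkGR13
import Vale.Agent.Lib.P154.Neg.CkGR14
import Vale.Agent.Lib.P154.Neg.CkGR15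
import Vale.Agent.Lib.P154.Neg.CkGR16
import Vale.Agent.Lib.P154.Neg.CkGR17
import Vale.Agent.Lib.P154.Neg.CkGR18
import Vale.Agent.Lib.P154.Neg.CkGR19
import Vale.Agent.Lib.P154.Neg.CkGR20
import Vale.Agent.Lib.P154.Neg.CkGR21
import Vale.Agent.Lib.P154.Neg.CkGR22
import Vale.Agent.Lib.P154.Neg.CkGR23
import Vale.Agent.Lib.P154.Neg.CkGR24
import Vale.Agent.Lib.P154.Neg.CkGR25
import Vale.Agent.Lib.P154.Neg.CkGR26
import Vale.Agent.Lib.P154.Neg.CkGR27
import Vale.Agent.Lib.P154.Neg.CkGR28
import Vale.Agent.Lib.P154.Neg.CkGR29
import Vale.Agent.Lib.P154.Neg.CkGR30
import Vale.Agent.Lib.P154.Neg.CkGR31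
import Vale.Agent.Lib.P154.Neg.CkGR32
import Vale.Agent.Lib.P154.Neg.CkGR33
import Vale.Agent.Lib.P154.Neg.CkGR34
import Vale.Agent.Lib.P154.Neg.CkGR35
import Vale.Agent.Lib.P154.Neg.CkGR36
import Vale.Agent.Lib.P154.Neg.CkGR37
import Vale.Agent.Lib.P154.Neg.CkGR38
import Vale.Agent.Lib.P154.Neg.CkGR39
import Vale.Agent.Lib.P154.Neg.CkGR40
import Vale.Agent.Lib.P154.Neg.CkTopAux

/-! Assembly of run R. -/

namespace Vale.Agent.Lib.P154.Neg.Ck

def TR0 : Tr := .s2 tR0 tR1
theorem CR0 : run runR TR0 16777216 16777216 16777216 16777216 = true :=
  run_s2' tR0 tR1 (by decide) cR0 cR1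

def TR1 : Tr := .s3 TR0 tR2
theorem CR1 : run runR TR1 16777216 16777216 33554432 33554432 = true :=
  run_s3' TR0 tR2 (by decide) CR0 cR2

def TR2 : Tr := .s2 TR1 tR3
theorem CR2 : run runR TR2 33554432 33554432 33554432 33554432 = true :=
  run_s2' TR1 tR3 (by decide) CR1 cR3

def TR3 : Tr := .s3 TR2 tR4
theorem CR3 : run runR TR3 33554432 33554432 67108864 67108864 = true :=
  run_s3' TR2 tR4 (by decide) CR2 cR4

def TR4 : Tr := .s2 TR3 tR5
theorem CR4 : run runR TR4 67108864 67108864 67108864 67108864 = true :=
  run_s2' TR3 tR5 (by decide) CR3 cR5

def TR5 : Tr := .s3 TR4 tR6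
theorem CR5 : run runR TR5 67108864 67108864 134217728 134217728 = true :=
  run_s3' TR4 tR6 (by decide) CR4 cR6

def TR6 : Tr := .s2 TR5 tR7
theorem CR6 : run runR TR6 134217728 134217728 134217728 134217728 = true :=
  run_s2' TR5 tR7 (by decide) CR5 cR7

def TR7 : Tr := .s3 TR6 tR8
theorem CR7 : run runR TR7 134217728 134217728 268435456 268435456 = true :=
  run_s3' TR6 tR8 (by decide) CR6 cR8

def TR8 : Tr := .s2 TR7 tR9
theorem CR8 : run runR TR8 268435456 268435456 268435456 268435456 = true :=
  run_s2' TR7 tR9 (by decide) CR7 cR9

def TR9 : Tr := .s3 TR8 tR10
theorem CR9 : run runR TR9 268435456 268435456 536870912 536870912 = true :=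
  run_s3' TR8 tR10 (by decide) CR8 cR10

def TR10 : Tr := .s2 TR9 tR11
theorem CR10 : run runR TR10 536870912 536870912 536870912 536870912 = true :=
  run_s2' TR9 tR11 (by decide) CR9 cR11

def TR11 : Tr := .s3 TR10 tR12
theorem CR11 : run runR TR11 536870912 536870912 1073741824 1073741824 = true :=
  run_s3' TR10 tR12 (by decide) CR10 cR12

def TR12 : Tr := .s2 TR11 tR13
theorem CR12 : run runR TR12 1073741824 1073741824 1073741824 1073741824 = true :=
  run_s2' TR11 tR13 (by decide) CR11 cR13

def TR13 : Tr := .s3 TR12 tR14
theorem CR13 : run runR TR13 1073741824 1073741824 2147483648 2147483648 = true :=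
  run_s3' TR12 tR14 (by decide) CR12 cR14

def TR14 : Tr := .s2 TR13 tR15
theorem CR14 : run runR TR14 2147483648 2147483648 2147483648 2147483648 = true :=
  run_s2' TR13 tR15 (by decide) CR13 cR15

def TR15 : Tr := .s3 TR14 tR16
theorem CR15 : run runR TR15 2147483648 2147483648 4294967296 4294967296 = true :=
  run_s3' TR14 tR16 (by decide) CR14 cR16

def TR16 : Tr := .s2 TR15 tR17
theorem CR16 : run runR TR16 4294967296 4294967296 4294967296 4294967296 = true :=
  run_s2' TR15 tR17 (by decide) CR15 cR17

def TR17 : Tr := .s3 TR16 tR18
theorem CR17 : run runR TR17 4294967296 4294967296 8589934592 8589934592 = true :=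
  run_s3' TR16 tR18 (by decide) CR16 cR18

def TR18 : Tr := .s2 TR17 tR19
theorem CR18 : run runR TR18 8589934592 8589934592 8589934592 8589934592 = true :=
  run_s2' TR17 tR19 (by decide) CR17 cR19

def TR19 : Tr := .s3 TR18 tR20
theorem CR19 : run runR TR19 8589934592 8589934592 17179869184 17179869184 = true :=
  run_s3' TR18 tR20 (by decide) CR18 cR20

def TR20 : Tr := .s2 TR19 tR21
theorem CR20 : run runR TR20 17179869184 17179869184 17179869184 17179869184 = true :=
  run_s2' TR19 tR21 (by decide) CR19 cR21

def TR21 : Tr := .s3 TR20 tR22
theorem CR21 : run runR TR21 17179869184 17179869184 34359738368 34359738368 = true :=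
  run_s3' TR20 tR22 (by decide) CR20 cR22

def TR22 : Tr := .s2 TR21 tR23
theorem CR22 : run runR TR22 34359738368 34359738368 34359738368 34359738368 = true :=
  run_s2' TR21 tR23 (by decide) CR21 cR23

def TR23 : Tr := .s3 TR22 tR24
theorem CR23 : run runR TR23 34359738368 34359738368 68719476736 68719476736 = true :=
  run_s3' TR22 tR24 (by decide) CR22 cR24

def TR24 : Tr := .s2 TR23 tR25
theorem CR24 : run runR TR24 68719476736 68719476736 68719476736 68719476736 = true :=
  run_s2' TR23 tR25 (by decide) CR23 cR25

def TR25 : Tr := .s3 TR24 tR26
theorem CR25 : run runR TR25 68719476736 68719476736 137438953472 137438953472 = true :=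
  run_s3' TR24 tR26 (by decide) CR24 cR26

def TR26 : Tr := .s2 TR25 tR27
theorem CR26 : run runR TR26 137438953472 137438953472 137438953472 137438953472 = true :=
  run_s2' TR25 tR27 (by decide) CR25 cR27

def TR27 : Tr := .s3 TR26 tR28
theorem CR27 : run runR TR27 137438953472 137438953472 274877906944 274877906944 = true :=
  run_s3' TR26 tR28 (by decide) CR26 cR28

def TR28 : Tr := .s2 TR27 tR29
theorem CR28 : run runR TR28 274877906944 274877906944 274877906944 274877906944 = true :=
  run_s2' TR27 tR29 (by decide) CR27 cR29

def TR29 : Tr := .s3 TR28 tR30
theorem CR29 : run runR TR29 274877906944 274877906944 549755813888 549755813888 = true :=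
  run_s3' TR28 tR30 (by decide) CR28 cR30

def TR30 : Tr := .s2 TR29 tR31
theorem CR30 : run runR TR30 549755813888 549755813888 549755813888 549755813888 = true :=
  run_s2' TR29 tR31 (by decide) CR29 cR31

def TR31 : Tr := .s3 TR30 tR32
theorem CR31 : run runR TR31 549755813888 549755813888 1099511627776 1099511627776 = true :=
  run_s3' TR30 tR32 (by decide) CR30 cR32

def TR32 : Tr := .s2 TR31 tR33
theorem CR32 : run runR TR32 1099511627776 1099511627776 1099511627776 1099511627776 = true :=
  run_s2' TR31 tR33 (by decide) CR31 cR33

def TR33 : Tr := .s3 TR32 tR34
theorem CR33 : run runR TR33 1099511627776 1099511627776 2199023255552 2199023255552 = true :=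
  run_s3' TR32 tR34 (by decide) CR32 cR34

def TR34 : Tr := .s2 TR33 tR35
theorem CR34 : run runR TR34 2199023255552 2199023255552 2199023255552 2199023255552 = true :=
  run_s2' TR33 tR35 (by decide) CR33 cR35

def TR35 : Tr := .s3 TR34 tR36
theorem CR35 : run runR TR35 2199023255552 2199023255552 4398046511104 4398046511104 = true :=
  run_s3' TR34 tR36 (by decide) CR34 cR36

def TR36 : Tr := .s2 TR35 tR37
theorem CR36 : run runR TR36 4398046511104 4398046511104 4398046511104 4398046511104 = true :=
  run_s2' TR35 tR37 (by decide) CR35 cR37

def TR37 : Tr := .s3 TR36 tR38
theorem CR37 : run runR TR37 4398046511104 4398046511104 8796093022208 8796093022208 = true :=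
  run_s3' TR36 tR38 (by decide) CR36 cR38

def TR38 : Tr := .s2 TR37 tR39
theorem CR38 : run runR TR38 8796093022208 8796093022208 8796093022208 8796093022208 = true :=
  run_s2' TR37 tR39 (by decide) CR37 cR39

def TR39 : Tr := .s3 TR38 tR40
theorem CR39 : run runR TR39 8796093022208 8796093022208 17592186044416 17592186044416 = true :=
  run_s3' TR38 tR40 (by decide) CR38 cR40

def TR40 : Tr := .s2 TR39 tR41
theorem CR40 : run runR TR40 17592186044416 17592186044416 17592186044416 17592186044416 = true :=
  run_s2' TR39 tR41 (by decide) CR39 cR41

def TR41 : Tr := .s3 TR40 tR42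
theorem CR41 : run runR TR41 17592186044416 17592186044416 35184372088832 35184372088832 = true :=
  run_s3' TR40 tR42 (by decide) CR40 cR42

def TR42 : Tr := .s2 TR41 tR43
theorem CR42 : run runR TR42 35184372088832 35184372088832 35184372088832 35184372088832 = true :=
  run_s2' TR41 tR43 (by decide) CR41 cR43

def TR43 : Tr := .s3 TR42 tR44
theorem CR43 : run runR TR43 35184372088832 35184372088832 70368744177664 70368744177664 = true :=
  run_s3' TR42 tR44 (by decide) CR42 cR44

def TR44 : Tr := .s2 TR43 tR45
theorem CR44 : run runR TR44 70368744177664 70368744177664 70368744177664 70368744177664 = true :=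
  run_s2' TR43 tR45 (by decide) CR43 cR45

def TR45 : Tr := .s3 TR44 tR46
theorem CR45 : run runR TR45 70368744177664 70368744177664 140737488355328 140737488355328 = true :=
  run_s3' TR44 tR46 (by decide) CR44 cR46

def TR46 : Tr := .s3 tR47 tR48
theorem CR46 : run runR TR46 211106232532992 70368744177664 70368744177664 70368744177664 = true :=
  run_s3' tR47 tR48 (by decide) cR47 cR48

def TR47 : Tr := .s3 TR46 tR49
theorem CR47 : run runR TR47 211106232532992 70368744177664 140737488355328 140737488355328 = true :=
  run_s3' TR46 tR49 (by decide) CR46 cR49

def TR48 : Tr := .s2 TR45 TR47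
theorem CR48 : run runR TR48 140737488355328 140737488355328 140737488355328 140737488355328 = true :=
  run_s2' TR45 TR47 (by decide) CR45 CR47

def TR49 : Tr := .s3 TR48 tR50
theorem CR49 : run runR TR49 140737488355328 140737488355328 281474976710656 281474976710656 = true :=
  run_s3' TR48 tR50 (by decide) CR48 cR50

def TR50 : Tr := .s3 tR51 tR52
theorem CR50 : run runR TR50 422212465065984 140737488355328 35184372088832 35184372088832 = true :=
  run_s3' tR51 tR52 (by decide) cR51 cR52

def TR51 : Tr := .s3 TR50 tR53
theorem CR51 : run runR TR51 422212465065984 140737488355328 70368744177664 70368744177664 = true :=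
  run_s3' TR50 tR53 (by decide) CR50 cR53

def TR52 : Tr := .s3 TR51 tR54
theorem CR52 : run runR TR52 422212465065984 140737488355328 140737488355328 140737488355328 = true :=
  run_s3' TR51 tR54 (by decide) CR51 cR54

def TR53 : Tr := .s3 TR52 tR55
theorem CR53 : run runR TR53 422212465065984 140737488355328 281474976710656 281474976710656 = true :=
  run_s3' TR52 tR55 (by decide) CR52 cR55

def TR54 : Tr := .s2 TR49 TR53
theorem CR54 : run runR TR54 281474976710656 281474976710656 281474976710656 281474976710656 = true :=
  run_s2' TR49 TR53 (by decide) CR49 CR53

def TR55 : Tr := .s3 TR54 tR56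
theorem CR55 : run runR TR55 281474976710656 281474976710656 562949953421312 562949953421312 = true :=
  run_s3' TR54 tR56 (by decide) CR54 cR56

def TR56 : Tr := .s3 tR57 tR58
theorem CR56 : run runR TR56 844424930131968 281474976710656 35184372088832 35184372088832 = true :=
  run_s3' tR57 tR58 (by decide) cR57 cR58

def TR57 : Tr := .s3 TR56 tR59
theorem CR57 : run runR TR57 844424930131968 281474976710656 70368744177664 70368744177664 = true :=
  run_s3' TR56 tR59 (by decide) CR56 cR59

def TR58 : Tr := .s3 TR57 tR60
theorem CR58 : run runR TR58 844424930131968 281474976710656 140737488355328 140737488355328 = true :=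
  run_s3' TR57 tR60 (by decide) CR57 cR60

def TR59 : Tr := .s3 TR58 tR61
theorem CR59 : run runR TR59 844424930131968 281474976710656 281474976710656 281474976710656 = true :=
  run_s3' TR58 tR61 (by decide) CR58 cR61

def TR60 : Tr := .s3 TR59 tR62
theorem CR60 : run runR TR60 844424930131968 281474976710656 562949953421312 562949953421312 = true :=
  run_s3' TR59 tR62 (by decide) CR59 cR62

def TR61 : Tr := .s2 TR55 TR60
theorem CR61 : run runR TR61 562949953421312 562949953421312 562949953421312 562949953421312 = true :=
  run_s2' TR55 TR60 (by decide) CR55 CR60

def TR62 : Tr := .s3 TR61 tR63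
theorem CR62 : run runR TR62 562949953421312 562949953421312 1125899906842624 1125899906842624 = true :=
  run_s3' TR61 tR63 (by decide) CR61 cR63

def TR63 : Tr := .s3 tR64 tR65
theorem CR63 : run runR TR63 1688849860263936 562949953421312 35184372088832 35184372088832 = true :=
  run_s3' tR64 tR65 (by decide) cR64 cR65

def TR64 : Tr := .s3 TR63 tR66
theorem CR64 : run runR TR64 1688849860263936 562949953421312 70368744177664 70368744177664 = true :=
  run_s3' TR63 tR66 (by decide) CR63 cR66

def TR65 : Tr := .s3 TR64 tR67
theorem CR65 : run runR TR65 1688849860263936 562949953421312 140737488355328 140737488355328 = true :=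
  run_s3' TR64 tR67 (by decide) CR64 cR67

def TR66 : Tr := .s3 TR65 tR68
theorem CR66 : run runR TR66 1688849860263936 562949953421312 281474976710656 281474976710656 = true :=
  run_s3' TR65 tR68 (by decide) CR65 cR68

def TR67 : Tr := .s3 TR66 tR69
theorem CR67 : run runR TR67 1688849860263936 562949953421312 562949953421312 562949953421312 = true :=
  run_s3' TR66 tR69 (by decide) CR66 cR69

def TR68 : Tr := .s3 TR67 tR70
theorem CR68 : run runR TR68 1688849860263936 562949953421312 1125899906842624 1125899906842624 = true :=
  run_s3' TR67 tR70 (by decide) CR67 cR70

def TR69 : Tr := .s2 TR62 TR68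
theorem CR69 : run runR TR69 1125899906842624 1125899906842624 1125899906842624 1125899906842624 = true :=
  run_s2' TR62 TR68 (by decide) CR62 CR68

def TR70 : Tr := .s3 TR69 tR71
theorem CR70 : run runR TR70 1125899906842624 1125899906842624 2251799813685248 2251799813685248 = true :=
  run_s3' TR69 tR71 (by decide) CR69 cR71

def TR71 : Tr := .s3 tR72 tR73
theorem CR71 : run runR TR71 3377699720527872 1125899906842624 35184372088832 35184372088832 = true :=
  run_s3' tR72 tR73 (by decide) cR72 cR73

def TR72 : Tr := .s3 TR71 tR74
theorem CR72 : run runR TR72 3377699720527872 1125899906842624 70368744177664 70368744177664 = true :=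
  run_s3' TR71 tR74 (by decide) CR71 cR74

def TR73 : Tr := .s3 TR72 tR75
theorem CR73 : run runR TR73 3377699720527872 1125899906842624 140737488355328 140737488355328 = true :=
  run_s3' TR72 tR75 (by decide) CR72 cR75

def TR74 : Tr := .s3 TR73 tR76
theorem CR74 : run runR TR74 3377699720527872 1125899906842624 281474976710656 281474976710656 = true :=
  run_s3' TR73 tR76 (by decide) CR73 cR76

def TR75 : Tr := .s3 TR74 tR77
theorem CR75 : run runR TR75 3377699720527872 1125899906842624 562949953421312 562949953421312 = true :=
  run_s3' TR74 tR77 (by decide) CR74 cR77

def TR76 : Tr := .s3 TR75 tR78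
theorem CR76 : run runR TR76 3377699720527872 1125899906842624 1125899906842624 1125899906842624 = true :=
  run_s3' TR75 tR78 (by decide) CR75 cR78

def TR77 : Tr := .s3 TR76 tR79
theorem CR77 : run runR TR77 3377699720527872 1125899906842624 2251799813685248 2251799813685248 = true :=
  run_s3' TR76 tR79 (by decide) CR76 cR79

def TR78 : Tr := .s2 TR70 TR77
theorem CR78 : run runR TR78 2251799813685248 2251799813685248 2251799813685248 2251799813685248 = true :=
  run_s2' TR70 TR77 (by decide) CR70 CR77

def TR79 : Tr := .s3 TR78 tR80
theorem CR79 : run runR TR79 2251799813685248 2251799813685248 4503599627370496 4503599627370496 = true :=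
  run_s3' TR78 tR80 (by decide) CR78 cR80

def TR80 : Tr := .s3 tR81 tR82
theorem CR80 : run runR TR80 6755399441055744 2251799813685248 35184372088832 35184372088832 = true :=
  run_s3' tR81 tR82 (by decide) cR81 cR82

def TR81 : Tr := .s3 TR80 tR83
theorem CR81 : run runR TR81 6755399441055744 2251799813685248 70368744177664 70368744177664 = true :=
  run_s3' TR80 tR83 (by decide) CR80 cR83

def TR82 : Tr := .s3 TR81 tR84
theorem CR82 : run runR TR82 6755399441055744 2251799813685248 140737488355328 140737488355328 = true :=
  run_s3' TR81 tR84 (by decide) CR81 cR84

def TR83 : Tr := .s3 TR82 tR85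
theorem CR83 : run runR TR83 6755399441055744 2251799813685248 281474976710656 281474976710656 = true :=
  run_s3' TR82 tR85 (by decide) CR82 cR85

def TR84 : Tr := .s3 TR83 tR86
theorem CR84 : run runR TR84 6755399441055744 2251799813685248 562949953421312 562949953421312 = true :=
  run_s3' TR83 tR86 (by decide) CR83 cR86

def TR85 : Tr := .s3 TR84 tR87
theorem CR85 : run runR TR85 6755399441055744 2251799813685248 1125899906842624 1125899906842624 = true :=
  run_s3' TR84 tR87 (by decide) CR84 cR87

def TR86 : Tr := .s3 TR85 tR88
theorem CR86 : run runR TR86 6755399441055744 2251799813685248 2251799813685248 2251799813685248 = true :=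
  run_s3' TR85 tR88 (by decide) CR85 cR88

def TR87 : Tr := .s3 TR86 tR89
theorem CR87 : run runR TR87 6755399441055744 2251799813685248 4503599627370496 4503599627370496 = true :=
  run_s3' TR86 tR89 (by decide) CR86 cR89

def TR88 : Tr := .s2 TR79 TR87
theorem CR88 : run runR TR88 4503599627370496 4503599627370496 4503599627370496 4503599627370496 = true :=
  run_s2' TR79 TR87 (by decide) CR79 CR87

def TR89 : Tr := .s3 TR88 tR90
theorem CR89 : run runR TR89 4503599627370496 4503599627370496 9007199254740992 9007199254740992 = true :=
  run_s3' TR88 tR90 (by decide) CR88 cR90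

def TR90 : Tr := .s3 tR91 tR92
theorem CR90 : run runR TR90 13510798882111488 4503599627370496 35184372088832 35184372088832 = true :=
  run_s3' tR91 tR92 (by decide) cR91 cR92

def TR91 : Tr := .s3 TR90 tR93
theorem CR91 : run runR TR91 13510798882111488 4503599627370496 70368744177664 70368744177664 = true :=
  run_s3' TR90 tR93 (by decide) CR90 cR93

def TR92 : Tr := .s3 TR91 tR94
theorem CR92 : run runR TR92 13510798882111488 4503599627370496 140737488355328 140737488355328 = true :=
  run_s3' TR91 tR94 (by decide) CR91 cR94

def TR93 : Tr := .s3 TR92 tR95
theorem CR93 : run runR TR93 13510798882111488 4503599627370496 281474976710656 281474976710656 = true :=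
  run_s3' TR92 tR95 (by decide) CR92 cR95

def TR94 : Tr := .s3 TR93 tR96
theorem CR94 : run runR TR94 13510798882111488 4503599627370496 562949953421312 562949953421312 = true :=
  run_s3' TR93 tR96 (by decide) CR93 cR96

def TR95 : Tr := .s3 TR94 tR97
theorem CR95 : run runR TR95 13510798882111488 4503599627370496 1125899906842624 1125899906842624 = true :=
  run_s3' TR94 tR97 (by decide) CR94 cR97

def TR96 : Tr := .s3 TR95 tR98
theorem CR96 : run runR TR96 13510798882111488 4503599627370496 2251799813685248 2251799813685248 = true :=
  run_s3' TR95 tR98 (by decide) CR95 cR98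

def TR97 : Tr := .s3 TR96 tR99
theorem CR97 : run runR TR97 13510798882111488 4503599627370496 4503599627370496 4503599627370496 = true :=
  run_s3' TR96 tR99 (by decide) CR96 cR99

def TR98 : Tr := .s3 TR97 tR100
theorem CR98 : run runR TR98 13510798882111488 4503599627370496 9007199254740992 9007199254740992 = true :=
  run_s3' TR97 tR100 (by decide) CR97 cR100

def TR99 : Tr := .s2 TR89 TR98
theorem CR99 : run runR TR99 9007199254740992 9007199254740992 9007199254740992 9007199254740992 = true :=
  run_s2' TR89 TR98 (by decide) CR89 CR98

def TR100 : Tr := .s3 TR99 tR101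
theorem CR100 : run runR TR100 9007199254740992 9007199254740992 18014398509481984 18014398509481984 = true :=
  run_s3' TR99 tR101 (by decide) CR99 cR101

def TR101 : Tr := .s3 tR102 tR103
theorem CR101 : run runR TR101 27021597764222976 9007199254740992 35184372088832 35184372088832 = true :=
  run_s3' tR102 tR103 (by decide) cR102 cR103

def TR102 : Tr := .s3 TR101 tR104
theorem CR102 : run runR TR102 27021597764222976 9007199254740992 70368744177664 70368744177664 = true :=
  run_s3' TR101 tR104 (by decide) CR101 cR104

def TR103 : Tr := .s3 TR102 tR105
theorem CR103 : run runR TR103 27021597764222976 9007199254740992 140737488355328 140737488355328 = true :=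
  run_s3' TR102 tR105 (by decide) CR102 cR105

def TR104 : Tr := .s3 TR103 tR106
theorem CR104 : run runR TR104 27021597764222976 9007199254740992 281474976710656 281474976710656 = true :=
  run_s3' TR103 tR106 (by decide) CR103 cR106

def TR105 : Tr := .s3 TR104 tR107
theorem CR105 : run runR TR105 27021597764222976 9007199254740992 562949953421312 562949953421312 = true :=
  run_s3' TR104 tR107 (by decide) CR104 cR107

def TR106 : Tr := .s3 TR105 tR108
theorem CR106 : run runR TR106 27021597764222976 9007199254740992 1125899906842624 1125899906842624 = true :=
  run_s3' TR105 tR108 (by decide) CR105 cR108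

def TR107 : Tr := .s3 TR106 tR109
theorem CR107 : run runR TR107 27021597764222976 9007199254740992 2251799813685248 2251799813685248 = true :=
  run_s3' TR106 tR109 (by decide) CR106 cR109

def TR108 : Tr := .s3 TR107 tR110
theorem CR108 : run runR TR108 27021597764222976 9007199254740992 4503599627370496 4503599627370496 = true :=
  run_s3' TR107 tR110 (by decide) CR107 cR110

def TR109 : Tr := .s3 TR108 tR111
theorem CR109 : run runR TR109 27021597764222976 9007199254740992 9007199254740992 9007199254740992 = true :=
  run_s3' TR108 tR111 (by decide) CR108 cR111

def TR110 : Tr := .s3 TR109 tR112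
theorem CR110 : run runR TR110 27021597764222976 9007199254740992 18014398509481984 18014398509481984 = true :=
  run_s3' TR109 tR112 (by decide) CR109 cR112

def TR111 : Tr := .s2 TR100 TR110
theorem CR111 : run runR TR111 18014398509481984 18014398509481984 18014398509481984 18014398509481984 = true :=
  run_s2' TR100 TR110 (by decide) CR100 CR110

def TR112 : Tr := .s3 TR111 tR113
theorem CR112 : run runR TR112 18014398509481984 18014398509481984 36028797018963968 36028797018963968 = true :=
  run_s3' TR111 tR113 (by decide) CR111 cR113

def TR113 : Tr := .s3 tR114 tR115
theorem CR113 : run runR TR113 54043195528445952 18014398509481984 35184372088832 35184372088832 = true :=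
  run_s3' tR114 tR115 (by decide) cR114 cR115

def TR114 : Tr := .s3 TR113 tR116
theorem CR114 : run runR TR114 54043195528445952 18014398509481984 70368744177664 70368744177664 = true :=
  run_s3' TR113 tR116 (by decide) CR113 cR116

def TR115 : Tr := .s3 TR114 tR117
theorem CR115 : run runR TR115 54043195528445952 18014398509481984 140737488355328 140737488355328 = true :=
  run_s3' TR114 tR117 (by decide) CR114 cR117

def TR116 : Tr := .s3 TR115 tR118
theorem CR116 : run runR TR116 54043195528445952 18014398509481984 281474976710656 281474976710656 = true :=
  run_s3' TR115 tR118 (by decide) CR115 cR118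

def TR117 : Tr := .s3 TR116 tR119
theorem CR117 : run runR TR117 54043195528445952 18014398509481984 562949953421312 562949953421312 = true :=
  run_s3' TR116 tR119 (by decide) CR116 cR119

def TR118 : Tr := .s3 TR117 tR120
theorem CR118 : run runR TR118 54043195528445952 18014398509481984 1125899906842624 1125899906842624 = true :=
  run_s3' TR117 tR120 (by decide) CR117 cR120

def TR119 : Tr := .s3 TR118 tR121
theorem CR119 : run runR TR119 54043195528445952 18014398509481984 2251799813685248 2251799813685248 = true :=
  run_s3' TR118 tR121 (by decide) CR118 cR121

def TR120 : Tr := .s3 TR119 tR122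
theorem CR120 : run runR TR120 54043195528445952 18014398509481984 4503599627370496 4503599627370496 = true :=
  run_s3' TR119 tR122 (by decide) CR119 cR122

def TR121 : Tr := .s3 TR120 tR123
theorem CR121 : run runR TR121 54043195528445952 18014398509481984 9007199254740992 9007199254740992 = true :=
  run_s3' TR120 tR123 (by decide) CR120 cR123

def TR122 : Tr := .s3 TR121 tR124
theorem CR122 : run runR TR122 54043195528445952 18014398509481984 18014398509481984 18014398509481984 = true :=
  run_s3' TR121 tR124 (by decide) CR121 cR124

def TR123 : Tr := .s3 TR122 tR125
theorem CR123 : run runR TR123 54043195528445952 18014398509481984 36028797018963968 36028797018963968 = true :=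
  run_s3' TR122 tR125 (by decide) CR122 cR125

def TR124 : Tr := .s2 TR112 TR123
theorem CR124 : run runR TR124 36028797018963968 36028797018963968 36028797018963968 36028797018963968 = true :=
  run_s2' TR112 TR123 (by decide) CR112 CR123

def TR125 : Tr := .s3 TR124 tR126
theorem CR125 : run runR TR125 36028797018963968 36028797018963968 72057594037927936 72057594037927936 = true :=
  run_s3' TR124 tR126 (by decide) CR124 cR126

def TR126 : Tr := .s3 tR127 tR128
theorem CR126 : run runR TR126 108086391056891904 36028797018963968 35184372088832 35184372088832 = true :=
  run_s3' tR127 tR128 (by decide) cR127 cR128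

def TR127 : Tr := .s3 TR126 tR129
theorem CR127 : run runR TR127 108086391056891904 36028797018963968 70368744177664 70368744177664 = true :=
  run_s3' TR126 tR129 (by decide) CR126 cR129

def TR128 : Tr := .s3 TR127 tR130
theorem CR128 : run runR TR128 108086391056891904 36028797018963968 140737488355328 140737488355328 = true :=
  run_s3' TR127 tR130 (by decide) CR127 cR130

def TR129 : Tr := .s3 TR128 tR131
theorem CR129 : run runR TR129 108086391056891904 36028797018963968 281474976710656 281474976710656 = true :=
  run_s3' TR128 tR131 (by decide) CR128 cR131

def TR130 : Tr := .s3 TR129 tR132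
theorem CR130 : run runR TR130 108086391056891904 36028797018963968 562949953421312 562949953421312 = true :=
  run_s3' TR129 tR132 (by decide) CR129 cR132

def TR131 : Tr := .s3 TR130 tR133
theorem CR131 : run runR TR131 108086391056891904 36028797018963968 1125899906842624 1125899906842624 = true :=
  run_s3' TR130 tR133 (by decide) CR130 cR133

def TR132 : Tr := .s3 TR131 tR134
theorem CR132 : run runR TR132 108086391056891904 36028797018963968 2251799813685248 2251799813685248 = true :=
  run_s3' TR131 tR134 (by decide) CR131 cR134

def TR133 : Tr := .s3 TR132 tR135
theorem CR133 : run runR TR133 108086391056891904 36028797018963968 4503599627370496 4503599627370496 = true :=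
  run_s3' TR132 tR135 (by decide) CR132 cR135

def TR134 : Tr := .s3 TR133 tR136
theorem CR134 : run runR TR134 108086391056891904 36028797018963968 9007199254740992 9007199254740992 = true :=
  run_s3' TR133 tR136 (by decide) CR133 cR136

def TR135 : Tr := .s3 TR134 tR137
theorem CR135 : run runR TR135 108086391056891904 36028797018963968 18014398509481984 18014398509481984 = true :=
  run_s3' TR134 tR137 (by decide) CR134 cR137

def TR136 : Tr := .s3 TR135 tR138
theorem CR136 : run runR TR136 108086391056891904 36028797018963968 36028797018963968 36028797018963968 = true :=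
  run_s3' TR135 tR138 (by decide) CR135 cR138

def TR137 : Tr := .s3 TR136 tR139
theorem CR137 : run runR TR137 108086391056891904 36028797018963968 72057594037927936 72057594037927936 = true :=
  run_s3' TR136 tR139 (by decide) CR136 cR139

def TR138 : Tr := .s2 TR125 TR137
theorem CR138 : run runR TR138 72057594037927936 72057594037927936 72057594037927936 72057594037927936 = true :=
  run_s2' TR125 TR137 (by decide) CR125 CR137

def TR139 : Tr := .s3 TR138 tR140
theorem CR139 : run runR TR139 72057594037927936 72057594037927936 144115188075855872 144115188075855872 = true :=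
  run_s3' TR138 tR140 (by decide) CR138 cR140

def TR140 : Tr := .s3 tR141 tR142
theorem CR140 : run runR TR140 216172782113783808 72057594037927936 35184372088832 35184372088832 = true :=
  run_s3' tR141 tR142 (by decide) cR141 cR142

def TR141 : Tr := .s3 TR140 tR143
theorem CR141 : run runR TR141 216172782113783808 72057594037927936 70368744177664 70368744177664 = true :=
  run_s3' TR140 tR143 (by decide) CR140 cR143

def TR142 : Tr := .s3 TR141 tR144
theorem CR142 : run runR TR142 216172782113783808 72057594037927936 140737488355328 140737488355328 = true :=
  run_s3' TR141 tR144 (by decide) CR141 cR144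

def TR143 : Tr := .s3 TR142 tR145
theorem CR143 : run runR TR143 216172782113783808 72057594037927936 281474976710656 281474976710656 = true :=
  run_s3' TR142 tR145 (by decide) CR142 cR145

def TR144 : Tr := .s3 TR143 tR146
theorem CR144 : run runR TR144 216172782113783808 72057594037927936 562949953421312 562949953421312 = true :=
  run_s3' TR143 tR146 (by decide) CR143 cR146

def TR145 : Tr := .s3 TR144 tR147
theorem CR145 : run runR TR145 216172782113783808 72057594037927936 1125899906842624 1125899906842624 = true :=
  run_s3' TR144 tR147 (by decide) CR144 cR147

def TR146 : Tr := .s3 TR145 tR148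
theorem CR146 : run runR TR146 216172782113783808 72057594037927936 2251799813685248 2251799813685248 = true :=
  run_s3' TR145 tR148 (by decide) CR145 cR148

def TR147 : Tr := .s3 TR146 tR149
theorem CR147 : run runR TR147 216172782113783808 72057594037927936 4503599627370496 4503599627370496 = true :=
  run_s3' TR146 tR149 (by decide) CR146 cR149

def TR148 : Tr := .s3 TR147 tR150
theorem CR148 : run runR TR148 216172782113783808 72057594037927936 9007199254740992 9007199254740992 = true :=
  run_s3' TR147 tR150 (by decide) CR147 cR150

def TR149 : Tr := .s3 TR148 tR151
theorem CR149 : run runR TR149 216172782113783808 72057594037927936 18014398509481984 18014398509481984 = true :=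
  run_s3' TR148 tR151 (by decide) CR148 cR151

def TR150 : Tr := .s3 TR149 tR152
theorem CR150 : run runR TR150 216172782113783808 72057594037927936 36028797018963968 36028797018963968 = true :=
  run_s3' TR149 tR152 (by decide) CR149 cR152

def TR151 : Tr := .s3 TR150 tR153
theorem CR151 : run runR TR151 216172782113783808 72057594037927936 72057594037927936 72057594037927936 = true :=
  run_s3' TR150 tR153 (by decide) CR150 cR153

def TR152 : Tr := .s3 TR151 tR154
theorem CR152 : run runR TR152 216172782113783808 72057594037927936 144115188075855872 144115188075855872 = true :=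
  run_s3' TR151 tR154 (by decide) CR151 cR154

def TR153 : Tr := .s2 TR139 TR152
theorem CR153 : run runR TR153 144115188075855872 144115188075855872 144115188075855872 144115188075855872 = true :=
  run_s2' TR139 TR152 (by decide) CR139 CR152

def TR154 : Tr := .s3 TR153 tR155
theorem CR154 : run runR TR154 144115188075855872 144115188075855872 288230376151711744 288230376151711744 = true :=
  run_s3' TR153 tR155 (by decide) CR153 cR155

def TR155 : Tr := .s3 tR156 tR157
theorem CR155 : run runR TR155 432345564227567616 144115188075855872 35184372088832 35184372088832 = true :=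
  run_s3' tR156 tR157 (by decide) cR156 cR157

def TR156 : Tr := .s3 TR155 tR158
theorem CR156 : run runR TR156 432345564227567616 144115188075855872 70368744177664 70368744177664 = true :=
  run_s3' TR155 tR158 (by decide) CR155 cR158

def TR157 : Tr := .s3 TR156 tR159
theorem CR157 : run runR TR157 432345564227567616 144115188075855872 140737488355328 140737488355328 = true :=
  run_s3' TR156 tR159 (by decide) CR156 cR159

def TR158 : Tr := .s3 TR157 tR160
theorem CR158 : run runR TR158 432345564227567616 144115188075855872 281474976710656 281474976710656 = true :=
  run_s3' TR157 tR160 (by decide) CR157 cR160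

def TR159 : Tr := .s3 TR158 tR161
theorem CR159 : run runR TR159 432345564227567616 144115188075855872 562949953421312 562949953421312 = true :=
  run_s3' TR158 tR161 (by decide) CR158 cR161

def TR160 : Tr := .s3 TR159 tR162
theorem CR160 : run runR TR160 432345564227567616 144115188075855872 1125899906842624 1125899906842624 = true :=
  run_s3' TR159 tR162 (by decide) CR159 cR162

def TR161 : Tr := .s3 TR160 tR163
theorem CR161 : run runR TR161 432345564227567616 144115188075855872 2251799813685248 2251799813685248 = true :=
  run_s3' TR160 tR163 (by decide) CR160 cR163

def TR162 : Tr := .s3 TR161 tR164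
theorem CR162 : run runR TR162 432345564227567616 144115188075855872 4503599627370496 4503599627370496 = true :=
  run_s3' TR161 tR164 (by decide) CR161 cR164

def TR163 : Tr := .s3 TR162 tR165
theorem CR163 : run runR TR163 432345564227567616 144115188075855872 9007199254740992 9007199254740992 = true :=
  run_s3' TR162 tR165 (by decide) CR162 cR165

def TR164 : Tr := .s3 TR163 tR166
theorem CR164 : run runR TR164 432345564227567616 144115188075855872 18014398509481984 18014398509481984 = true :=
  run_s3' TR163 tR166 (by decide) CR163 cR166

def TR165 : Tr := .s3 TR164 tR167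
theorem CR165 : run runR TR165 432345564227567616 144115188075855872 36028797018963968 36028797018963968 = true :=
  run_s3' TR164 tR167 (by decide) CR164 cR167

def TR166 : Tr := .s3 TR165 tR168
theorem CR166 : run runR TR166 432345564227567616 144115188075855872 72057594037927936 72057594037927936 = true :=
  run_s3' TR165 tR168 (by decide) CR165 cR168

def TR167 : Tr := .s3 TR166 tR169
theorem CR167 : run runR TR167 432345564227567616 144115188075855872 144115188075855872 144115188075855872 = true :=
  run_s3' TR166 tR169 (by decide) CR166 cR169

def TR168 : Tr := .s3 TR167 tR170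
theorem CR168 : run runR TR168 432345564227567616 144115188075855872 288230376151711744 288230376151711744 = true :=
  run_s3' TR167 tR170 (by decide) CR167 cR170

def TR169 : Tr := .s2 TR154 TR168
theorem CR169 : run runR TR169 288230376151711744 288230376151711744 288230376151711744 288230376151711744 = true :=
  run_s2' TR154 TR168 (by decide) CR154 CR168

def TR170 : Tr := .s3 TR169 tR171
theorem CR170 : run runR TR170 288230376151711744 288230376151711744 576460752303423488 576460752303423488 = true :=
  run_s3' TR169 tR171 (by decide) CR169 cR171

def TR171 : Tr := .s3 tR172 tR173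
theorem CR171 : run runR TR171 864691128455135232 288230376151711744 34359738368 34359738368 = true :=
  run_s3' tR172 tR173 (by decide) cR172 cR173

def TR172 : Tr := .s3 TR171 tR174
theorem CR172 : run runR TR172 864691128455135232 288230376151711744 68719476736 68719476736 = true :=
  run_s3' TR171 tR174 (by decide) CR171 cR174

def TR173 : Tr := .s3 TR172 tR175
theorem CR173 : run runR TR173 864691128455135232 288230376151711744 137438953472 137438953472 = true :=
  run_s3' TR172 tR175 (by decide) CR172 cR175

def TR174 : Tr := .s3 TR173 tR176
theorem CR174 : run runR TR174 864691128455135232 288230376151711744 274877906944 274877906944 = true :=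
  run_s3' TR173 tR176 (by decide) CR173 cR176

def TR175 : Tr := .s3 TR174 tR177
theorem CR175 : run runR TR175 864691128455135232 288230376151711744 549755813888 549755813888 = true :=
  run_s3' TR174 tR177 (by decide) CR174 cR177

def TR176 : Tr := .s3 TR175 tR178
theorem CR176 : run runR TR176 864691128455135232 288230376151711744 1099511627776 1099511627776 = true :=
  run_s3' TR175 tR178 (by decide) CR175 cR178

def TR177 : Tr := .s3 TR176 tR179
theorem CR177 : run runR TR177 864691128455135232 288230376151711744 2199023255552 2199023255552 = true :=
  run_s3' TR176 tR179 (by decide) CR176 cR179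

def TR178 : Tr := .s3 TR177 tR180
theorem CR178 : run runR TR178 864691128455135232 288230376151711744 4398046511104 4398046511104 = true :=
  run_s3' TR177 tR180 (by decide) CR177 cR180

def TR179 : Tr := .s3 TR178 tR181
theorem CR179 : run runR TR179 864691128455135232 288230376151711744 8796093022208 8796093022208 = true :=
  run_s3' TR178 tR181 (by decide) CR178 cR181

def TR180 : Tr := .s3 TR179 tR182
theorem CR180 : run runR TR180 864691128455135232 288230376151711744 17592186044416 17592186044416 = true :=
  run_s3' TR179 tR182 (by decide) CR179 cR182

def TR181 : Tr := .s3 TR180 tR183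
theorem CR181 : run runR TR181 864691128455135232 288230376151711744 35184372088832 35184372088832 = true :=
  run_s3' TR180 tR183 (by decide) CR180 cR183

def TR182 : Tr := .s3 TR181 tR184
theorem CR182 : run runR TR182 864691128455135232 288230376151711744 70368744177664 70368744177664 = true :=
  run_s3' TR181 tR184 (by decide) CR181 cR184

def TR183 : Tr := .s3 TR182 tR185
theorem CR183 : run runR TR183 864691128455135232 288230376151711744 140737488355328 140737488355328 = true :=
  run_s3' TR182 tR185 (by decide) CR182 cR185

def TR184 : Tr := .s3 TR183 tR186
theorem CR184 : run runR TR184 864691128455135232 288230376151711744 281474976710656 281474976710656 = true :=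
  run_s3' TR183 tR186 (by decide) CR183 cR186

def TR185 : Tr := .s3 TR184 tR187
theorem CR185 : run runR TR185 864691128455135232 288230376151711744 562949953421312 562949953421312 = true :=
  run_s3' TR184 tR187 (by decide) CR184 cR187

def TR186 : Tr := .s3 TR185 tR188
theorem CR186 : run runR TR186 864691128455135232 288230376151711744 1125899906842624 1125899906842624 = true :=
  run_s3' TR185 tR188 (by decide) CR185 cR188

def TR187 : Tr := .s3 TR186 tR189
theorem CR187 : run runR TR187 864691128455135232 288230376151711744 2251799813685248 2251799813685248 = true :=
  run_s3' TR186 tR189 (by decide) CR186 cR189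

def TR188 : Tr := .s3 TR187 tR190
theorem CR188 : run runR TR188 864691128455135232 288230376151711744 4503599627370496 4503599627370496 = true :=
  run_s3' TR187 tR190 (by decide) CR187 cR190

def TR189 : Tr := .s3 TR188 tR191
theorem CR189 : run runR TR189 864691128455135232 288230376151711744 9007199254740992 9007199254740992 = true :=
  run_s3' TR188 tR191 (by decide) CR188 cR191

def TR190 : Tr := .s3 TR189 tR192
theorem CR190 : run runR TR190 864691128455135232 288230376151711744 18014398509481984 18014398509481984 = true :=
  run_s3' TR189 tR192 (by decide) CR189 cR192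

def TR191 : Tr := .s3 TR190 tR193
theorem CR191 : run runR TR191 864691128455135232 288230376151711744 36028797018963968 36028797018963968 = true :=
  run_s3' TR190 tR193 (by decide) CR190 cR193

def TR192 : Tr := .s3 TR191 tR194
theorem CR192 : run runR TR192 864691128455135232 288230376151711744 72057594037927936 72057594037927936 = true :=
  run_s3' TR191 tR194 (by decide) CR191 cR194

def TR193 : Tr := .s3 TR192 tR195
theorem CR193 : run runR TR193 864691128455135232 288230376151711744 144115188075855872 144115188075855872 = true :=
  run_s3' TR192 tR195 (by decide) CR192 cR195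

def TR194 : Tr := .s3 TR193 tR196
theorem CR194 : run runR TR194 864691128455135232 288230376151711744 288230376151711744 288230376151711744 = true :=
  run_s3' TR193 tR196 (by decide) CR193 cR196

def TR195 : Tr := .s3 TR194 tR197
theorem CR195 : run runR TR195 864691128455135232 288230376151711744 576460752303423488 576460752303423488 = true :=
  run_s3' TR194 tR197 (by decide) CR194 cR197

def TR196 : Tr := .s2 TR170 TR195
theorem CR196 : run runR TR196 576460752303423488 576460752303423488 576460752303423488 576460752303423488 = true :=
  run_s2' TR170 TR195 (by decide) CR170 CR195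

def TR197 : Tr := .s3 TR196 tR198
theorem CR197 : run runR TR197 576460752303423488 576460752303423488 1152921504606846976 1152921504606846976 = true :=
  run_s3' TR196 tR198 (by decide) CR196 cR198

def TR198 : Tr := .s3 tR199 tR200
theorem CR198 : run runR TR198 1729382256910270464 576460752303423488 1073741824 1073741824 = true :=
  run_s3' tR199 tR200 (by decide) cR199 cR200

def TR199 : Tr := .s3 TR198 tR201
theorem CR199 : run runR TR199 1729382256910270464 576460752303423488 2147483648 2147483648 = true :=
  run_s3' TR198 tR201 (by decide) CR198 cR201

def TR200 : Tr := .s3 TR199 tR202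
theorem CR200 : run runR TR200 1729382256910270464 576460752303423488 4294967296 4294967296 = true :=
  run_s3' TR199 tR202 (by decide) CR199 cR202

def TR201 : Tr := .s3 TR200 tR203
theorem CR201 : run runR TR201 1729382256910270464 576460752303423488 8589934592 8589934592 = true :=
  run_s3' TR200 tR203 (by decide) CR200 cR203

def TR202 : Tr := .s3 TR201 tR204
theorem CR202 : run runR TR202 1729382256910270464 576460752303423488 17179869184 17179869184 = true :=
  run_s3' TR201 tR204 (by decide) CR201 cR204

def TR203 : Tr := .s3 TR202 tR205
theorem CR203 : run runR TR203 1729382256910270464 576460752303423488 34359738368 34359738368 = true :=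
  run_s3' TR202 tR205 (by decide) CR202 cR205

def TR204 : Tr := .s3 TR203 tR206
theorem CR204 : run runR TR204 1729382256910270464 576460752303423488 68719476736 68719476736 = true :=
  run_s3' TR203 tR206 (by decide) CR203 cR206

def TR205 : Tr := .s3 TR204 tR207
theorem CR205 : run runR TR205 1729382256910270464 576460752303423488 137438953472 137438953472 = true :=
  run_s3' TR204 tR207 (by decide) CR204 cR207

def TR206 : Tr := .s3 TR205 tR208
theorem CR206 : run runR TR206 1729382256910270464 576460752303423488 274877906944 274877906944 = true :=
  run_s3' TR205 tR208 (by decide) CR205 cR208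

def TR207 : Tr := .s3 TR206 tR209
theorem CR207 : run runR TR207 1729382256910270464 576460752303423488 549755813888 549755813888 = true :=
  run_s3' TR206 tR209 (by decide) CR206 cR209

def TR208 : Tr := .s3 TR207 tR210
theorem CR208 : run runR TR208 1729382256910270464 576460752303423488 1099511627776 1099511627776 = true :=
  run_s3' TR207 tR210 (by decide) CR207 cR210

def TR209 : Tr := .s3 TR208 tR211
theorem CR209 : run runR TR209 1729382256910270464 576460752303423488 2199023255552 2199023255552 = true :=
  run_s3' TR208 tR211 (by decide) CR208 cR211

def TR210 : Tr := .s3 TR209 tR212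
theorem CR210 : run runR TR210 1729382256910270464 576460752303423488 4398046511104 4398046511104 = true :=
  run_s3' TR209 tR212 (by decide) CR209 cR212

def TR211 : Tr := .s3 TR210 tR213
theorem CR211 : run runR TR211 1729382256910270464 576460752303423488 8796093022208 8796093022208 = true :=
  run_s3' TR210 tR213 (by decide) CR210 cR213

def TR212 : Tr := .s3 TR211 tR214
theorem CR212 : run runR TR212 1729382256910270464 576460752303423488 17592186044416 17592186044416 = true :=
  run_s3' TR211 tR214 (by decide) CR211 cR214

def TR213 : Tr := .s3 TR212 tR215
theorem CR213 : run runR TR213 1729382256910270464 576460752303423488 35184372088832 35184372088832 = true :=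
  run_s3' TR212 tR215 (by decide) CR212 cR215

def TR214 : Tr := .s3 TR213 tR216
theorem CR214 : run runR TR214 1729382256910270464 576460752303423488 70368744177664 70368744177664 = true :=
  run_s3' TR213 tR216 (by decide) CR213 cR216

def TR215 : Tr := .s3 TR214 tR217
theorem CR215 : run runR TR215 1729382256910270464 576460752303423488 140737488355328 140737488355328 = true :=
  run_s3' TR214 tR217 (by decide) CR214 cR217

def TR216 : Tr := .s3 TR215 tR218
theorem CR216 : run runR TR216 1729382256910270464 576460752303423488 281474976710656 281474976710656 = true :=
  run_s3' TR215 tR218 (by decide) CR215 cR218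

def TR217 : Tr := .s3 TR216 tR219
theorem CR217 : run runR TR217 1729382256910270464 576460752303423488 562949953421312 562949953421312 = true :=
  run_s3' TR216 tR219 (by decide) CR216 cR219

def TR218 : Tr := .s3 TR217 tR220
theorem CR218 : run runR TR218 1729382256910270464 576460752303423488 1125899906842624 1125899906842624 = true :=
  run_s3' TR217 tR220 (by decide) CR217 cR220

def TR219 : Tr := .s3 TR218 tR221
theorem CR219 : run runR TR219 1729382256910270464 576460752303423488 2251799813685248 2251799813685248 = true :=
  run_s3' TR218 tR221 (by decide) CR218 cR221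

def TR220 : Tr := .s3 TR219 tR222
theorem CR220 : run runR TR220 1729382256910270464 576460752303423488 4503599627370496 4503599627370496 = true :=
  run_s3' TR219 tR222 (by decide) CR219 cR222

def TR221 : Tr := .s3 TR220 tR223
theorem CR221 : run runR TR221 1729382256910270464 576460752303423488 9007199254740992 9007199254740992 = true :=
  run_s3' TR220 tR223 (by decide) CR220 cR223

def TR222 : Tr := .s3 TR221 tR224
theorem CR222 : run runR TR222 1729382256910270464 576460752303423488 18014398509481984 18014398509481984 = true :=
  run_s3' TR221 tR224 (by decide) CR221 cR224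

def TR223 : Tr := .s3 TR222 tR225
theorem CR223 : run runR TR223 1729382256910270464 576460752303423488 36028797018963968 36028797018963968 = true :=
  run_s3' TR222 tR225 (by decide) CR222 cR225

def TR224 : Tr := .s3 TR223 tR226
theorem CR224 : run runR TR224 1729382256910270464 576460752303423488 72057594037927936 72057594037927936 = true :=
  run_s3' TR223 tR226 (by decide) CR223 cR226

def TR225 : Tr := .s3 TR224 tR227
theorem CR225 : run runR TR225 1729382256910270464 576460752303423488 144115188075855872 144115188075855872 = true :=
  run_s3' TR224 tR227 (by decide) CR224 cR227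

def TR226 : Tr := .s3 TR225 tR228
theorem CR226 : run runR TR226 1729382256910270464 576460752303423488 288230376151711744 288230376151711744 = true :=
  run_s3' TR225 tR228 (by decide) CR225 cR228

def TR227 : Tr := .s3 TR226 tR229
theorem CR227 : run runR TR227 1729382256910270464 576460752303423488 576460752303423488 576460752303423488 = true :=
  run_s3' TR226 tR229 (by decide) CR226 cR229

def TR228 : Tr := .s3 TR227 tR230
theorem CR228 : run runR TR228 1729382256910270464 576460752303423488 1152921504606846976 1152921504606846976 = true :=
  run_s3' TR227 tR230 (by decide) CR227 cR230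

def TR229 : Tr := .s2 TR197 TR228
theorem CR229 : run runR TR229 1152921504606846976 1152921504606846976 1152921504606846976 1152921504606846976 = true :=
  run_s2' TR197 TR228 (by decide) CR197 CR228

def TR230 : Tr := .s3 TR229 tR231
theorem CR230 : run runR TR230 1152921504606846976 1152921504606846976 2305843009213693952 2305843009213693952 = true :=
  run_s3' TR229 tR231 (by decide) CR229 cR231

def TR231 : Tr := .s3 tR232 tR233
theorem CR231 : run runR TR231 3458764513820540928 1152921504606846976 536870912 536870912 = true :=
  run_s3' tR232 tR233 (by decide) cR232 cR233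

def TR232 : Tr := .s3 TR231 tR234
theorem CR232 : run runR TR232 3458764513820540928 1152921504606846976 1073741824 1073741824 = true :=
  run_s3' TR231 tR234 (by decide) CR231 cR234

def TR233 : Tr := .s3 TR232 tR235
theorem CR233 : run runR TR233 3458764513820540928 1152921504606846976 2147483648 2147483648 = true :=
  run_s3' TR232 tR235 (by decide) CR232 cR235

def TR234 : Tr := .s3 TR233 tR236
theorem CR234 : run runR TR234 3458764513820540928 1152921504606846976 4294967296 4294967296 = true :=
  run_s3' TR233 tR236 (by decide) CR233 cR236

def TR235 : Tr := .s3 TR234 tR237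
theorem CR235 : run runR TR235 3458764513820540928 1152921504606846976 8589934592 8589934592 = true :=
  run_s3' TR234 tR237 (by decide) CR234 cR237

def TR236 : Tr := .s3 TR235 tR238
theorem CR236 : run runR TR236 3458764513820540928 1152921504606846976 17179869184 17179869184 = true :=
  run_s3' TR235 tR238 (by decide) CR235 cR238

def TR237 : Tr := .s3 TR236 tR239
theorem CR237 : run runR TR237 3458764513820540928 1152921504606846976 34359738368 34359738368 = true :=
  run_s3' TR236 tR239 (by decide) CR236 cR239

def TR238 : Tr := .s3 TR237 tR240
theorem CR238 : run runR TR238 3458764513820540928 1152921504606846976 68719476736 68719476736 = true :=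
  run_s3' TR237 tR240 (by decide) CR237 cR240

def TR239 : Tr := .s3 TR238 tR241
theorem CR239 : run runR TR239 3458764513820540928 1152921504606846976 137438953472 137438953472 = true :=
  run_s3' TR238 tR241 (by decide) CR238 cR241

def TR240 : Tr := .s3 TR239 tR242
theorem CR240 : run runR TR240 3458764513820540928 1152921504606846976 274877906944 274877906944 = true :=
  run_s3' TR239 tR242 (by decide) CR239 cR242

def TR241 : Tr := .s3 TR240 tR243
theorem CR241 : run runR TR241 3458764513820540928 1152921504606846976 549755813888 549755813888 = true :=
  run_s3' TR240 tR243 (by decide) CR240 cR243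

def TR242 : Tr := .s3 TR241 tR244
theorem CR242 : run runR TR242 3458764513820540928 1152921504606846976 1099511627776 1099511627776 = true :=
  run_s3' TR241 tR244 (by decide) CR241 cR244

def TR243 : Tr := .s3 TR242 tR245
theorem CR243 : run runR TR243 3458764513820540928 1152921504606846976 2199023255552 2199023255552 = true :=
  run_s3' TR242 tR245 (by decide) CR242 cR245

def TR244 : Tr := .s3 TR243 tR246
theorem CR244 : run runR TR244 3458764513820540928 1152921504606846976 4398046511104 4398046511104 = true :=
  run_s3' TR243 tR246 (by decide) CR243 cR246

def TR245 : Tr := .s3 TR244 tR247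
theorem CR245 : run runR TR245 3458764513820540928 1152921504606846976 8796093022208 8796093022208 = true :=
  run_s3' TR244 tR247 (by decide) CR244 cR247

def TR246 : Tr := .s3 TR245 tR248
theorem CR246 : run runR TR246 3458764513820540928 1152921504606846976 17592186044416 17592186044416 = true :=
  run_s3' TR245 tR248 (by decide) CR245 cR248

def TR247 : Tr := .s3 TR246 tR249
theorem CR247 : run runR TR247 3458764513820540928 1152921504606846976 35184372088832 35184372088832 = true :=
  run_s3' TR246 tR249 (by decide) CR246 cR249

def TR248 : Tr := .s3 TR247 tR250
theorem CR248 : run runR TR248 3458764513820540928 1152921504606846976 70368744177664 70368744177664 = true :=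
  run_s3' TR247 tR250 (by decide) CR247 cR250

def TR249 : Tr := .s3 TR248 tR251
theorem CR249 : run runR TR249 3458764513820540928 1152921504606846976 140737488355328 140737488355328 = true :=
  run_s3' TR248 tR251 (by decide) CR248 cR251

def TR250 : Tr := .s3 TR249 tR252
theorem CR250 : run runR TR250 3458764513820540928 1152921504606846976 281474976710656 281474976710656 = true :=
  run_s3' TR249 tR252 (by decide) CR249 cR252

def TR251 : Tr := .s3 TR250 tR253
theorem CR251 : run runR TR251 3458764513820540928 1152921504606846976 562949953421312 562949953421312 = true :=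
  run_s3' TR250 tR253 (by decide) CR250 cR253

def TR252 : Tr := .s3 TR251 tR254
theorem CR252 : run runR TR252 3458764513820540928 1152921504606846976 1125899906842624 1125899906842624 = true :=
  run_s3' TR251 tR254 (by decide) CR251 cR254

def TR253 : Tr := .s3 TR252 tR255
theorem CR253 : run runR TR253 3458764513820540928 1152921504606846976 2251799813685248 2251799813685248 = true :=
  run_s3' TR252 tR255 (by decide) CR252 cR255

def TR254 : Tr := .s3 TR253 tR256
theorem CR254 : run runR TR254 3458764513820540928 1152921504606846976 4503599627370496 4503599627370496 = true :=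
  run_s3' TR253 tR256 (by decide) CR253 cR256

def TR255 : Tr := .s3 TR254 tR257
theorem CR255 : run runR TR255 3458764513820540928 1152921504606846976 9007199254740992 9007199254740992 = true :=
  run_s3' TR254 tR257 (by decide) CR254 cR257

def TR256 : Tr := .s3 TR255 tR258
theorem CR256 : run runR TR256 3458764513820540928 1152921504606846976 18014398509481984 18014398509481984 = true :=
  run_s3' TR255 tR258 (by decide) CR255 cR258

def TR257 : Tr := .s3 TR256 tR259
theorem CR257 : run runR TR257 3458764513820540928 1152921504606846976 36028797018963968 36028797018963968 = true :=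
  run_s3' TR256 tR259 (by decide) CR256 cR259

def TR258 : Tr := .s3 TR257 tR260
theorem CR258 : run runR TR258 3458764513820540928 1152921504606846976 72057594037927936 72057594037927936 = true :=
  run_s3' TR257 tR260 (by decide) CR257 cR260

def TR259 : Tr := .s3 TR258 tR261
theorem CR259 : run runR TR259 3458764513820540928 1152921504606846976 144115188075855872 144115188075855872 = true :=
  run_s3' TR258 tR261 (by decide) CR258 cR261

def TR260 : Tr := .s3 TR259 tR262
theorem CR260 : run runR TR260 3458764513820540928 1152921504606846976 288230376151711744 288230376151711744 = true :=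
  run_s3' TR259 tR262 (by decide) CR259 cR262

def TR261 : Tr := .s3 TR260 tR263
theorem CR261 : run runR TR261 3458764513820540928 1152921504606846976 576460752303423488 576460752303423488 = true :=
  run_s3' TR260 tR263 (by decide) CR260 cR263

def TR262 : Tr := .s3 TR261 tR264
theorem CR262 : run runR TR262 3458764513820540928 1152921504606846976 1152921504606846976 1152921504606846976 = true :=
  run_s3' TR261 tR264 (by decide) CR261 cR264

def TR263 : Tr := .s3 TR262 tR265
theorem CR263 : run runR TR263 3458764513820540928 1152921504606846976 2305843009213693952 2305843009213693952 = true :=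
  run_s3' TR262 tR265 (by decide) CR262 cR265

def TR264 : Tr := .s2 TR230 TR263
theorem CR264 : run runR TR264 2305843009213693952 2305843009213693952 2305843009213693952 2305843009213693952 = true :=
  run_s2' TR230 TR263 (by decide) CR230 CR263

def TR265 : Tr := .s3 TR264 tR266
theorem CR265 : run runR TR265 2305843009213693952 2305843009213693952 4611686018427387904 4611686018427387904 = true :=
  run_s3' TR264 tR266 (by decide) CR264 cR266

def TR266 : Tr := .s3 tR267 tR268
theorem CR266 : run runR TR266 6917529027641081856 2305843009213693952 134217728 134217728 = true :=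
  run_s3' tR267 tR268 (by decide) cR267 cR268

def TR267 : Tr := .s3 TR266 tR269
theorem CR267 : run runR TR267 6917529027641081856 2305843009213693952 268435456 268435456 = true :=
  run_s3' TR266 tR269 (by decide) CR266 cR269

def TR268 : Tr := .s3 TR267 tR270
theorem CR268 : run runR TR268 6917529027641081856 2305843009213693952 536870912 536870912 = true :=
  run_s3' TR267 tR270 (by decide) CR267 cR270

def TR269 : Tr := .s3 TR268 tR271
theorem CR269 : run runR TR269 6917529027641081856 2305843009213693952 1073741824 1073741824 = true :=
  run_s3' TR268 tR271 (by decide) CR268 cR271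

def TR270 : Tr := .s3 TR269 tR272
theorem CR270 : run runR TR270 6917529027641081856 2305843009213693952 2147483648 2147483648 = true :=
  run_s3' TR269 tR272 (by decide) CR269 cR272

def TR271 : Tr := .s3 TR270 tR273
theorem CR271 : run runR TR271 6917529027641081856 2305843009213693952 4294967296 4294967296 = true :=
  run_s3' TR270 tR273 (by decide) CR270 cR273

def TR272 : Tr := .s3 TR271 tR274
theorem CR272 : run runR TR272 6917529027641081856 2305843009213693952 8589934592 8589934592 = true :=
  run_s3' TR271 tR274 (by decide) CR271 cR274

def TR273 : Tr := .s3 TR272 tR275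
theorem CR273 : run runR TR273 6917529027641081856 2305843009213693952 17179869184 17179869184 = true :=
  run_s3' TR272 tR275 (by decide) CR272 cR275

def TR274 : Tr := .s3 TR273 tR276
theorem CR274 : run runR TR274 6917529027641081856 2305843009213693952 34359738368 34359738368 = true :=
  run_s3' TR273 tR276 (by decide) CR273 cR276

def TR275 : Tr := .s3 TR274 tR277
theorem CR275 : run runR TR275 6917529027641081856 2305843009213693952 68719476736 68719476736 = true :=
  run_s3' TR274 tR277 (by decide) CR274 cR277

def TR276 : Tr := .s3 TR275 tR278
theorem CR276 : run runR TR276 6917529027641081856 2305843009213693952 137438953472 137438953472 = true :=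
  run_s3' TR275 tR278 (by decide) CR275 cR278

def TR277 : Tr := .s3 TR276 tR279
theorem CR277 : run runR TR277 6917529027641081856 2305843009213693952 274877906944 274877906944 = true :=
  run_s3' TR276 tR279 (by decide) CR276 cR279

def TR278 : Tr := .s3 TR277 tR280
theorem CR278 : run runR TR278 6917529027641081856 2305843009213693952 549755813888 549755813888 = true :=
  run_s3' TR277 tR280 (by decide) CR277 cR280

def TR279 : Tr := .s3 TR278 tR281
theorem CR279 : run runR TR279 6917529027641081856 2305843009213693952 1099511627776 1099511627776 = true :=
  run_s3' TR278 tR281 (by decide) CR278 cR281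

def TR280 : Tr := .s3 TR279 tR282
theorem CR280 : run runR TR280 6917529027641081856 2305843009213693952 2199023255552 2199023255552 = true :=
  run_s3' TR279 tR282 (by decide) CR279 cR282

def TR281 : Tr := .s3 TR280 tR283
theorem CR281 : run runR TR281 6917529027641081856 2305843009213693952 4398046511104 4398046511104 = true :=
  run_s3' TR280 tR283 (by decide) CR280 cR283

def TR282 : Tr := .s3 TR281 tR284
theorem CR282 : run runR TR282 6917529027641081856 2305843009213693952 8796093022208 8796093022208 = true :=
  run_s3' TR281 tR284 (by decide) CR281 cR284

def TR283 : Tr := .s3 TR282 tR285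
theorem CR283 : run runR TR283 6917529027641081856 2305843009213693952 17592186044416 17592186044416 = true :=
  run_s3' TR282 tR285 (by decide) CR282 cR285

def TR284 : Tr := .s3 TR283 tR286
theorem CR284 : run runR TR284 6917529027641081856 2305843009213693952 35184372088832 35184372088832 = true :=
  run_s3' TR283 tR286 (by decide) CR283 cR286

def TR285 : Tr := .s3 TR284 tR287
theorem CR285 : run runR TR285 6917529027641081856 2305843009213693952 70368744177664 70368744177664 = true :=
  run_s3' TR284 tR287 (by decide) CR284 cR287

def TR286 : Tr := .s3 TR285 tR288
theorem CR286 : run runR TR286 6917529027641081856 2305843009213693952 140737488355328 140737488355328 = true :=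
  run_s3' TR285 tR288 (by decide) CR285 cR288

def TR287 : Tr := .s3 TR286 tR289
theorem CR287 : run runR TR287 6917529027641081856 2305843009213693952 281474976710656 281474976710656 = true :=
  run_s3' TR286 tR289 (by decide) CR286 cR289

def TR288 : Tr := .s3 TR287 tR290
theorem CR288 : run runR TR288 6917529027641081856 2305843009213693952 562949953421312 562949953421312 = true :=
  run_s3' TR287 tR290 (by decide) CR287 cR290

def TR289 : Tr := .s3 TR288 tR291
theorem CR289 : run runR TR289 6917529027641081856 2305843009213693952 1125899906842624 1125899906842624 = true :=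
  run_s3' TR288 tR291 (by decide) CR288 cR291

def TR290 : Tr := .s3 TR289 tR292
theorem CR290 : run runR TR290 6917529027641081856 2305843009213693952 2251799813685248 2251799813685248 = true :=
  run_s3' TR289 tR292 (by decide) CR289 cR292

def TR291 : Tr := .s3 TR290 tR293
theorem CR291 : run runR TR291 6917529027641081856 2305843009213693952 4503599627370496 4503599627370496 = true :=
  run_s3' TR290 tR293 (by decide) CR290 cR293

def TR292 : Tr := .s3 TR291 tR294
theorem CR292 : run runR TR292 6917529027641081856 2305843009213693952 9007199254740992 9007199254740992 = true :=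
  run_s3' TR291 tR294 (by decide) CR291 cR294

def TR293 : Tr := .s3 TR292 tR295
theorem CR293 : run runR TR293 6917529027641081856 2305843009213693952 18014398509481984 18014398509481984 = true :=
  run_s3' TR292 tR295 (by decide) CR292 cR295

def TR294 : Tr := .s3 TR293 tR296
theorem CR294 : run runR TR294 6917529027641081856 2305843009213693952 36028797018963968 36028797018963968 = true :=
  run_s3' TR293 tR296 (by decide) CR293 cR296

def TR295 : Tr := .s3 TR294 tR297
theorem CR295 : run runR TR295 6917529027641081856 2305843009213693952 72057594037927936 72057594037927936 = true :=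
  run_s3' TR294 tR297 (by decide) CR294 cR297

def TR296 : Tr := .s3 TR295 tR298
theorem CR296 : run runR TR296 6917529027641081856 2305843009213693952 144115188075855872 144115188075855872 = true :=
  run_s3' TR295 tR298 (by decide) CR295 cR298

def TR297 : Tr := .s3 TR296 tR299
theorem CR297 : run runR TR297 6917529027641081856 2305843009213693952 288230376151711744 288230376151711744 = true :=
  run_s3' TR296 tR299 (by decide) CR296 cR299

def TR298 : Tr := .s3 TR297 tR300
theorem CR298 : run runR TR298 6917529027641081856 2305843009213693952 576460752303423488 576460752303423488 = true :=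
  run_s3' TR297 tR300 (by decide) CR297 cR300

def TR299 : Tr := .s3 TR298 tR301
theorem CR299 : run runR TR299 6917529027641081856 2305843009213693952 1152921504606846976 1152921504606846976 = true :=
  run_s3' TR298 tR301 (by decide) CR298 cR301

def TR300 : Tr := .s3 TR299 tR302
theorem CR300 : run runR TR300 6917529027641081856 2305843009213693952 2305843009213693952 2305843009213693952 = true :=
  run_s3' TR299 tR302 (by decide) CR299 cR302

def TR301 : Tr := .s3 TR300 tR303
theorem CR301 : run runR TR301 6917529027641081856 2305843009213693952 4611686018427387904 4611686018427387904 = true :=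
  run_s3' TR300 tR303 (by decide) CR300 cR303

def TR302 : Tr := .s2 TR265 TR301
theorem CR302 : run runR TR302 4611686018427387904 4611686018427387904 4611686018427387904 4611686018427387904 = true :=
  run_s2' TR265 TR301 (by decide) CR265 CR301

def TR303 : Tr := .s3 TR302 tR304
theorem CR303 : run runR TR303 4611686018427387904 4611686018427387904 9223372036854775808 9223372036854775808 = true :=
  run_s3' TR302 tR304 (by decide) CR302 cR304

def TR304 : Tr := .s3 tR305 tR306
theorem CR304 : run runR TR304 13835058055282163712 4611686018427387904 134217728 134217728 = true :=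
  run_s3' tR305 tR306 (by decide) cR305 cR306

def TR305 : Tr := .s3 TR304 tR307
theorem CR305 : run runR TR305 13835058055282163712 4611686018427387904 268435456 268435456 = true :=
  run_s3' TR304 tR307 (by decide) CR304 cR307

def TR306 : Tr := .s3 TR305 tR308
theorem CR306 : run runR TR306 13835058055282163712 4611686018427387904 536870912 536870912 = true :=
  run_s3' TR305 tR308 (by decide) CR305 cR308

def TR307 : Tr := .s3 TR306 tR309
theorem CR307 : run runR TR307 13835058055282163712 4611686018427387904 1073741824 1073741824 = true :=
  run_s3' TR306 tR309 (by decide) CR306 cR309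

def TR308 : Tr := .s3 TR307 tR310
theorem CR308 : run runR TR308 13835058055282163712 4611686018427387904 2147483648 2147483648 = true :=
  run_s3' TR307 tR310 (by decide) CR307 cR310

def TR309 : Tr := .s3 TR308 tR311
theorem CR309 : run runR TR309 13835058055282163712 4611686018427387904 4294967296 4294967296 = true :=
  run_s3' TR308 tR311 (by decide) CR308 cR311

def TR310 : Tr := .s3 TR309 tR312
theorem CR310 : run runR TR310 13835058055282163712 4611686018427387904 8589934592 8589934592 = true :=
  run_s3' TR309 tR312 (by decide) CR309 cR312

def TR311 : Tr := .s3 TR310 tR313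
theorem CR311 : run runR TR311 13835058055282163712 4611686018427387904 17179869184 17179869184 = true :=
  run_s3' TR310 tR313 (by decide) CR310 cR313

def TR312 : Tr := .s3 TR311 tR314
theorem CR312 : run runR TR312 13835058055282163712 4611686018427387904 34359738368 34359738368 = true :=
  run_s3' TR311 tR314 (by decide) CR311 cR314

def TR313 : Tr := .s3 TR312 tR315
theorem CR313 : run runR TR313 13835058055282163712 4611686018427387904 68719476736 68719476736 = true :=
  run_s3' TR312 tR315 (by decide) CR312 cR315

def TR314 : Tr := .s3 TR313 tR316
theorem CR314 : run runR TR314 13835058055282163712 4611686018427387904 137438953472 137438953472 = true :=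
  run_s3' TR313 tR316 (by decide) CR313 cR316

def TR315 : Tr := .s3 TR314 tR317
theorem CR315 : run runR TR315 13835058055282163712 4611686018427387904 274877906944 274877906944 = true :=
  run_s3' TR314 tR317 (by decide) CR314 cR317

def TR316 : Tr := .s3 TR315 tR318
theorem CR316 : run runR TR316 13835058055282163712 4611686018427387904 549755813888 549755813888 = true :=
  run_s3' TR315 tR318 (by decide) CR315 cR318

def TR317 : Tr := .s3 TR316 tR319
theorem CR317 : run runR TR317 13835058055282163712 4611686018427387904 1099511627776 1099511627776 = true :=
  run_s3' TR316 tR319 (by decide) CR316 cR319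

def TR318 : Tr := .s3 TR317 tR320
theorem CR318 : run runR TR318 13835058055282163712 4611686018427387904 2199023255552 2199023255552 = true :=
  run_s3' TR317 tR320 (by decide) CR317 cR320

def TR319 : Tr := .s3 TR318 tR321
theorem CR319 : run runR TR319 13835058055282163712 4611686018427387904 4398046511104 4398046511104 = true :=
  run_s3' TR318 tR321 (by decide) CR318 cR321

def TR320 : Tr := .s3 TR319 tR322
theorem CR320 : run runR TR320 13835058055282163712 4611686018427387904 8796093022208 8796093022208 = true :=
  run_s3' TR319 tR322 (by decide) CR319 cR322

def TR321 : Tr := .s3 TR320 tR323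
theorem CR321 : run runR TR321 13835058055282163712 4611686018427387904 17592186044416 17592186044416 = true :=
  run_s3' TR320 tR323 (by decide) CR320 cR323

def TR322 : Tr := .s3 TR321 tR324
theorem CR322 : run runR TR322 13835058055282163712 4611686018427387904 35184372088832 35184372088832 = true :=
  run_s3' TR321 tR324 (by decide) CR321 cR324

def TR323 : Tr := .s3 TR322 tR325
theorem CR323 : run runR TR323 13835058055282163712 4611686018427387904 70368744177664 70368744177664 = true :=
  run_s3' TR322 tR325 (by decide) CR322 cR325

def TR324 : Tr := .s3 TR323 tR326
theorem CR324 : run runR TR324 13835058055282163712 4611686018427387904 140737488355328 140737488355328 = true :=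
  run_s3' TR323 tR326 (by decide) CR323 cR326

def TR325 : Tr := .s3 TR324 tR327
theorem CR325 : run runR TR325 13835058055282163712 4611686018427387904 281474976710656 281474976710656 = true :=
  run_s3' TR324 tR327 (by decide) CR324 cR327

def TR326 : Tr := .s3 TR325 tR328
theorem CR326 : run runR TR326 13835058055282163712 4611686018427387904 562949953421312 562949953421312 = true :=
  run_s3' TR325 tR328 (by decide) CR325 cR328

def TR327 : Tr := .s3 TR326 tR329
theorem CR327 : run runR TR327 13835058055282163712 4611686018427387904 1125899906842624 1125899906842624 = true :=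
  run_s3' TR326 tR329 (by decide) CR326 cR329

def TR328 : Tr := .s3 TR327 tR330
theorem CR328 : run runR TR328 13835058055282163712 4611686018427387904 2251799813685248 2251799813685248 = true :=
  run_s3' TR327 tR330 (by decide) CR327 cR330

def TR329 : Tr := .s3 TR328 tR331
theorem CR329 : run runR TR329 13835058055282163712 4611686018427387904 4503599627370496 4503599627370496 = true :=
  run_s3' TR328 tR331 (by decide) CR328 cR331

def TR330 : Tr := .s3 TR329 tR332
theorem CR330 : run runR TR330 13835058055282163712 4611686018427387904 9007199254740992 9007199254740992 = true :=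
  run_s3' TR329 tR332 (by decide) CR329 cR332

def TR331 : Tr := .s3 TR330 tR333
theorem CR331 : run runR TR331 13835058055282163712 4611686018427387904 18014398509481984 18014398509481984 = true :=
  run_s3' TR330 tR333 (by decide) CR330 cR333

def TR332 : Tr := .s3 TR331 tR334
theorem CR332 : run runR TR332 13835058055282163712 4611686018427387904 36028797018963968 36028797018963968 = true :=
  run_s3' TR331 tR334 (by decide) CR331 cR334

def TR333 : Tr := .s3 TR332 tR335
theorem CR333 : run runR TR333 13835058055282163712 4611686018427387904 72057594037927936 72057594037927936 = true :=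
  run_s3' TR332 tR335 (by decide) CR332 cR335

def TR334 : Tr := .s3 TR333 tR336
theorem CR334 : run runR TR334 13835058055282163712 4611686018427387904 144115188075855872 144115188075855872 = true :=
  run_s3' TR333 tR336 (by decide) CR333 cR336

def TR335 : Tr := .s3 TR334 tR337
theorem CR335 : run runR TR335 13835058055282163712 4611686018427387904 288230376151711744 288230376151711744 = true :=
  run_s3' TR334 tR337 (by decide) CR334 cR337

def TR336 : Tr := .s3 TR335 tR338
theorem CR336 : run runR TR336 13835058055282163712 4611686018427387904 576460752303423488 576460752303423488 = true :=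
  run_s3' TR335 tR338 (by decide) CR335 cR338

def TR337 : Tr := .s3 TR336 tR339
theorem CR337 : run runR TR337 13835058055282163712 4611686018427387904 1152921504606846976 1152921504606846976 = true :=
  run_s3' TR336 tR339 (by decide) CR336 cR339

def TR338 : Tr := .s3 TR337 tR340
theorem CR338 : run runR TR338 13835058055282163712 4611686018427387904 2305843009213693952 2305843009213693952 = true :=
  run_s3' TR337 tR340 (by decide) CR337 cR340

def TR339 : Tr := .s3 TR338 tR341
theorem CR339 : run runR TR339 13835058055282163712 4611686018427387904 4611686018427387904 4611686018427387904 = true :=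
  run_s3' TR338 tR341 (by decide) CR338 cR341

def TR340 : Tr := .s3 TR339 tR342
theorem CR340 : run runR TR340 13835058055282163712 4611686018427387904 9223372036854775808 9223372036854775808 = true :=
  run_s3' TR339 tR342 (by decide) CR339 cR342

def TR341 : Tr := .s2 TR303 TR340
theorem CR341 : run runR TR341 9223372036854775808 9223372036854775808 9223372036854775808 9223372036854775808 = true :=
  run_s2' TR303 TR340 (by decide) CR303 CR340

def TR342 : Tr := .s3 TR341 tR343
theorem CR342 : run runR TR342 9223372036854775808 9223372036854775808 18446744073709551616 18446744073709551616 = true :=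
  run_s3' TR341 tR343 (by decide) CR341 cR343

def TR343 : Tr := .s3 tR344 tR345
theorem CR343 : run runR TR343 23058430092136939520 4611686018427387904 1073741824 1073741824 = true :=
  run_s3' tR344 tR345 (by decide) cR344 cR345

def TR344 : Tr := .s3 TR343 tR346
theorem CR344 : run runR TR344 23058430092136939520 4611686018427387904 2147483648 2147483648 = true :=
  run_s3' TR343 tR346 (by decide) CR343 cR346

def TR345 : Tr := .s3 TR344 tR347
theorem CR345 : run runR TR345 23058430092136939520 4611686018427387904 4294967296 4294967296 = true :=
  run_s3' TR344 tR347 (by decide) CR344 cR347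

def TR346 : Tr := .s3 TR345 tR348
theorem CR346 : run runR TR346 23058430092136939520 4611686018427387904 8589934592 8589934592 = true :=
  run_s3' TR345 tR348 (by decide) CR345 cR348

def TR347 : Tr := .s3 TR346 tR349
theorem CR347 : run runR TR347 23058430092136939520 4611686018427387904 17179869184 17179869184 = true :=
  run_s3' TR346 tR349 (by decide) CR346 cR349

def TR348 : Tr := .s3 TR347 tR350
theorem CR348 : run runR TR348 23058430092136939520 4611686018427387904 34359738368 34359738368 = true :=
  run_s3' TR347 tR350 (by decide) CR347 cR350

def TR349 : Tr := .s3 TR348 tR351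
theorem CR349 : run runR TR349 23058430092136939520 4611686018427387904 68719476736 68719476736 = true :=
  run_s3' TR348 tR351 (by decide) CR348 cR351

def TR350 : Tr := .s3 TR349 tR352
theorem CR350 : run runR TR350 23058430092136939520 4611686018427387904 137438953472 137438953472 = true :=
  run_s3' TR349 tR352 (by decide) CR349 cR352

def TR351 : Tr := .s3 TR350 tR353
theorem CR351 : run runR TR351 23058430092136939520 4611686018427387904 274877906944 274877906944 = true :=
  run_s3' TR350 tR353 (by decide) CR350 cR353

def TR352 : Tr := .s3 TR351 tR354
theorem CR352 : run runR TR352 23058430092136939520 4611686018427387904 549755813888 549755813888 = true :=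
  run_s3' TR351 tR354 (by decide) CR351 cR354

def TR353 : Tr := .s3 TR352 tR355
theorem CR353 : run runR TR353 23058430092136939520 4611686018427387904 1099511627776 1099511627776 = true :=
  run_s3' TR352 tR355 (by decide) CR352 cR355

def TR354 : Tr := .s3 TR353 tR356
theorem CR354 : run runR TR354 23058430092136939520 4611686018427387904 2199023255552 2199023255552 = true :=
  run_s3' TR353 tR356 (by decide) CR353 cR356

def TR355 : Tr := .s3 TR354 tR357
theorem CR355 : run runR TR355 23058430092136939520 4611686018427387904 4398046511104 4398046511104 = true :=
  run_s3' TR354 tR357 (by decide) CR354 cR357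

def TR356 : Tr := .s3 TR355 tR358
theorem CR356 : run runR TR356 23058430092136939520 4611686018427387904 8796093022208 8796093022208 = true :=
  run_s3' TR355 tR358 (by decide) CR355 cR358

def TR357 : Tr := .s3 TR356 tR359
theorem CR357 : run runR TR357 23058430092136939520 4611686018427387904 17592186044416 17592186044416 = true :=
  run_s3' TR356 tR359 (by decide) CR356 cR359

def TR358 : Tr := .s3 TR357 tR360
theorem CR358 : run runR TR358 23058430092136939520 4611686018427387904 35184372088832 35184372088832 = true :=
  run_s3' TR357 tR360 (by decide) CR357 cR360

def TR359 : Tr := .s3 TR358 tR361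
theorem CR359 : run runR TR359 23058430092136939520 4611686018427387904 70368744177664 70368744177664 = true :=
  run_s3' TR358 tR361 (by decide) CR358 cR361

def TR360 : Tr := .s3 TR359 tR362
theorem CR360 : run runR TR360 23058430092136939520 4611686018427387904 140737488355328 140737488355328 = true :=
  run_s3' TR359 tR362 (by decide) CR359 cR362

def TR361 : Tr := .s3 TR360 tR363
theorem CR361 : run runR TR361 23058430092136939520 4611686018427387904 281474976710656 281474976710656 = true :=
  run_s3' TR360 tR363 (by decide) CR360 cR363

def TR362 : Tr := .s3 TR361 tR364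
theorem CR362 : run runR TR362 23058430092136939520 4611686018427387904 562949953421312 562949953421312 = true :=
  run_s3' TR361 tR364 (by decide) CR361 cR364

def TR363 : Tr := .s3 TR362 tR365
theorem CR363 : run runR TR363 23058430092136939520 4611686018427387904 1125899906842624 1125899906842624 = true :=
  run_s3' TR362 tR365 (by decide) CR362 cR365

def TR364 : Tr := .s3 TR363 tR366
theorem CR364 : run runR TR364 23058430092136939520 4611686018427387904 2251799813685248 2251799813685248 = true :=
  run_s3' TR363 tR366 (by decide) CR363 cR366

def TR365 : Tr := .s3 TR364 tR367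
theorem CR365 : run runR TR365 23058430092136939520 4611686018427387904 4503599627370496 4503599627370496 = true :=
  run_s3' TR364 tR367 (by decide) CR364 cR367

def TR366 : Tr := .s3 TR365 tR368
theorem CR366 : run runR TR366 23058430092136939520 4611686018427387904 9007199254740992 9007199254740992 = true :=
  run_s3' TR365 tR368 (by decide) CR365 cR368

def TR367 : Tr := .s3 TR366 tR369
theorem CR367 : run runR TR367 23058430092136939520 4611686018427387904 18014398509481984 18014398509481984 = true :=
  run_s3' TR366 tR369 (by decide) CR366 cR369

def TR368 : Tr := .s3 TR367 tR370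
theorem CR368 : run runR TR368 23058430092136939520 4611686018427387904 36028797018963968 36028797018963968 = true :=
  run_s3' TR367 tR370 (by decide) CR367 cR370

def TR369 : Tr := .s3 TR368 tR371
theorem CR369 : run runR TR369 23058430092136939520 4611686018427387904 72057594037927936 72057594037927936 = true :=
  run_s3' TR368 tR371 (by decide) CR368 cR371

def TR370 : Tr := .s3 TR369 tR372
theorem CR370 : run runR TR370 23058430092136939520 4611686018427387904 144115188075855872 144115188075855872 = true :=
  run_s3' TR369 tR372 (by decide) CR369 cR372

def TR371 : Tr := .s3 TR370 tR373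
theorem CR371 : run runR TR371 23058430092136939520 4611686018427387904 288230376151711744 288230376151711744 = true :=
  run_s3' TR370 tR373 (by decide) CR370 cR373

def TR372 : Tr := .s3 TR371 tR374
theorem CR372 : run runR TR372 23058430092136939520 4611686018427387904 576460752303423488 576460752303423488 = true :=
  run_s3' TR371 tR374 (by decide) CR371 cR374

def TR373 : Tr := .s3 TR372 tR375
theorem CR373 : run runR TR373 23058430092136939520 4611686018427387904 1152921504606846976 1152921504606846976 = true :=
  run_s3' TR372 tR375 (by decide) CR372 cR375

def TR374 : Tr := .s3 TR373 tR376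
theorem CR374 : run runR TR374 23058430092136939520 4611686018427387904 2305843009213693952 2305843009213693952 = true :=
  run_s3' TR373 tR376 (by decide) CR373 cR376

def TR375 : Tr := .s3 TR374 tR377
theorem CR375 : run runR TR375 23058430092136939520 4611686018427387904 4611686018427387904 4611686018427387904 = true :=
  run_s3' TR374 tR377 (by decide) CR374 cR377

def TR376 : Tr := .s3 TR375 tR378
theorem CR376 : run runR TR376 23058430092136939520 4611686018427387904 9223372036854775808 9223372036854775808 = true :=
  run_s3' TR375 tR378 (by decide) CR375 cR378

def TR377 : Tr := .s2 TR376 tR379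
theorem CR377 : run runR TR377 27670116110564327424 9223372036854775808 9223372036854775808 9223372036854775808 = true :=
  run_s2' TR376 tR379 (by decide) CR376 cR379

def TR378 : Tr := .s3 TR377 tR380
theorem CR378 : run runR TR378 27670116110564327424 9223372036854775808 18446744073709551616 18446744073709551616 = true :=
  run_s3' TR377 tR380 (by decide) CR377 cR380

def TR379 : Tr := .s2 TR342 TR378
theorem CR379 : run runR TR379 18446744073709551616 18446744073709551616 18446744073709551616 18446744073709551616 = true :=
  run_s2' TR342 TR378 (by decide) CR342 CR378

/-- the complete run -/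
theorem allR : run runR TR379 one64 one64 one64 one64 = true := CR379

end Vale.Agent.Lib.P154.Neg.Ck
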